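import Vale.Agent.P127.Stk.LibEnt

/-!
# P106 / U / H786 : a steep plane meets a curved bush in few directions (END7, normalisation of C1)

* `two_balls` : `|A y^2 + B y + C| ≤ ρ`, `μ ≤ max |A| |B|`, `16 R ρ < μ δ^2` : at most two `δ`-balls in `[-R,R]`.
* `few_floor` : the integer parts of `L y` take few values.
* `cond_low` : `π_V y + π_z (y^2/2 + a y + b)` has a coefficient bounded from below.
* `hc_few`, `hc_few_ball` : entropy forms.
* `circle`, `hc_circle` : `|π_y + π_z y| ≤ ρ` determines `y` up to `ρ`.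
-/

set_option autoImplicit false

namespace Vale.Agent.P106.U.Conv

open Vale.Agent.P127 Vale.Agent.P127.Stk

/-- three points on a parabola near a line: the solutions of `|A y^2 + B y + C| ≤ ρ` in `[-R,R]` are in two
balls of radius `δ` -/
theorem two_balls {R δ μ ρ A B C : ℝ} (hδ : 0 < δ) (hρ : 0 ≤ ρ) (hμ : μ ≤ max |A| |B|) (hR : 1 ≤ R)
    (h : 16 * R * ρ < μ * δ ^ 2) :
    ∃ y1 y2 : ℝ, ∀ y, |y| ≤ R → |A * y ^ 2 + B * y + C| ≤ ρ → |y - y1| ≤ δ ∨ |y - y2| ≤ δ := by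
  by_cases h1 : ∃ y, |y| ≤ R ∧ |A * y ^ 2 + B * y + C| ≤ ρ
  swap
  · push Not at h1
    refine ⟨0, 0, fun y hy hy' => ?_⟩
    exact absurd hy' (not_le.2 (h1 y hy))
  obtain ⟨y1, hy1, hp1⟩ := h1
  by_cases h2 : ∃ y, |y| ≤ R ∧ |A * y ^ 2 + B * y + C| ≤ ρ ∧ δ < |y - y1|
  swap
  · push Not at h2
    exact ⟨y1, y1, fun y hy hy' => Or.inl (h2 y hy hy')⟩
  obtain ⟨y2, hy2, hp2, hd12⟩ := h2
  refine ⟨y1, y2, fun y3 hy3 hp3 => ?_⟩
  by_contra hcon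
  push Not at hcon
  obtain ⟨hd13, hd23⟩ := hcon
  have hδ' : δ ≤ 2 * R := by
    have : |y2 - y1| ≤ |y2| + |y1| := abs_sub _ _
    linarith
  -- first differences
  have key : ∀ a b : ℝ, |A * a ^ 2 + B * a + C| ≤ ρ → |A * b ^ 2 + B * b + C| ≤ ρ → δ < |a - b| →
      |A * (a + b) + B| * δ ≤ 2 * ρ := by
    intro a b ha hb hab
    have e : (A * (a + b) + B) * (a - b) = (A * a ^ 2 + B * a + C) - (A * b ^ 2 + B * b + C) := by ring
    have e2 : |A * (a + b) + B| * |a - b| ≤ 2 * ρ := by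
      rw [← abs_mul, e]
      have := abs_sub (A * a ^ 2 + B * a + C) (A * b ^ 2 + B * b + C)
      linarith
    have : |A * (a + b) + B| * δ ≤ |A * (a + b) + B| * |a - b| :=
      mul_le_mul_of_nonneg_left hab.le (abs_nonneg _)
    linarith
  have k31 := key y3 y1 hp3 hp1 hd13
  have k21 := key y2 y1 hp2 hp1 hd12
  -- second difference
  have hA : |A| * δ ^ 2 ≤ 4 * ρ := by
    have e : A * (y3 - y2) = (A * (y3 + y1) + B) - (A * (y2 + y1) + B) := by ring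
    have e2 : |A| * |y3 - y2| ≤ |A * (y3 + y1) + B| + |A * (y2 + y1) + B| := by
      rw [← abs_mul, e]
      exact abs_sub _ _
    have e3 : |A| * δ ≤ |A| * |y3 - y2| := mul_le_mul_of_nonneg_left hd23.le (abs_nonneg _)
    have e4 : |A| * δ * δ ≤ (|A * (y3 + y1) + B| + |A * (y2 + y1) + B|) * δ :=
      mul_le_mul_of_nonneg_right (e3.trans e2) hδ.le
    nlinarith
  have hB : |B| * δ ^ 2 ≤ 2 * ρ * δ + 2 * R * (4 * ρ) := by
    have e : B = (A * (y2 + y1) + B) - A * (y2 + y1) := by ring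
    have e2 : |B| ≤ |A * (y2 + y1) + B| + |A| * (2 * R) := by
      calc |B| = |(A * (y2 + y1) + B) - A * (y2 + y1)| := by rw [← e]
        _ ≤ |A * (y2 + y1) + B| + |A * (y2 + y1)| := abs_sub _ _
        _ ≤ |A * (y2 + y1) + B| + |A| * (2 * R) := by
          rw [abs_mul]
          have : |y2 + y1| ≤ 2 * R := (abs_add_le _ _).trans (by linarith)
          have := mul_le_mul_of_nonneg_left this (abs_nonneg A)
          linarith
    have e3 : |B| * δ ^ 2 ≤ (|A * (y2 + y1) + B| + |A| * (2 * R)) * δ ^ 2 :=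
      mul_le_mul_of_nonneg_right e2 (by positivity)
    have e4 : (|A * (y2 + y1) + B| + |A| * (2 * R)) * δ ^ 2 =
        (|A * (y2 + y1) + B| * δ) * δ + 2 * R * (|A| * δ ^ 2) := by ring
    have e5 : (|A * (y2 + y1) + B| * δ) * δ ≤ 2 * ρ * δ := mul_le_mul_of_nonneg_right k21 hδ.le
    have e6 : 2 * R * (|A| * δ ^ 2) ≤ 2 * R * (4 * ρ) :=
      mul_le_mul_of_nonneg_left hA (by linarith)
    linarith
  have hρδ : 2 * ρ * δ ≤ 4 * R * ρ := by nlinarith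
  have hδ2 : 0 < δ ^ 2 := by positivity
  rcases le_max_iff.1 hμ with hm | hm
  · have : μ * δ ^ 2 ≤ |A| * δ ^ 2 := mul_le_mul_of_nonneg_right hm hδ2.le
    nlinarith
  · have : μ * δ ^ 2 ≤ |B| * δ ^ 2 := mul_le_mul_of_nonneg_right hm hδ2.le
    nlinarith

/-- the integer parts of `L y`, `y` in a ball of radius `δ`, `L δ ≤ K` -/
theorem floor_ball {L δ : ℝ} {K : ℕ} (hL : 0 ≤ L) (h : L * δ ≤ K) (y1 : ℝ) :
    ∀ y, |y - y1| ≤ δ → ⌊L * y⌋ ∈ Finset.Icc (⌊L * y1⌋ - K) (⌊L * y1⌋ + K + 1) := by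
  intro y hy
  have h1 := abs_le.1 hy
  have h2 : L * y ≤ L * y1 + K := by nlinarith [mul_le_mul_of_nonneg_left h1.2 hL]
  have h3 : L * y1 - K ≤ L * y := by nlinarith [mul_le_mul_of_nonneg_left h1.1 hL]
  rw [Finset.mem_Icc]
  constructor
  · rw [Int.le_floor]
    push_cast
    linarith [Int.floor_le (L * y1)]
  · have h4 : L * y < (⌊L * y1⌋ + K + 1 : ℤ) + 1 := by
      push_cast
      linarith [Int.lt_floor_add_one (L * y1)]
    have h5 : ⌊L * y⌋ < ⌊L * y1⌋ + K + 1 + 1 := by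
      rw [Int.floor_lt]
      exact_mod_cast h4
    omega

/-- the integer parts of `L y` take at most `4 K + 4` values -/
theorem few_floor {R δ μ ρ A B C L : ℝ} {K : ℕ} (hδ : 0 < δ) (hρ : 0 ≤ ρ) (hμ : μ ≤ max |A| |B|)
    (hR : 1 ≤ R) (h : 16 * R * ρ < μ * δ ^ 2) (hL : 0 ≤ L) (hK : L * δ ≤ K) :
    ∃ F : Finset ℤ, F.card ≤ 4 * K + 4 ∧
      ∀ y, |y| ≤ R → |A * y ^ 2 + B * y + C| ≤ ρ → ⌊L * y⌋ ∈ F := by
  classical
  obtain ⟨y1, y2, hy⟩ := two_balls (C := C) hδ hρ hμ hR h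
  refine ⟨Finset.Icc (⌊L * y1⌋ - K) (⌊L * y1⌋ + K + 1) ∪ Finset.Icc (⌊L * y2⌋ - K) (⌊L * y2⌋ + K + 1),
    ?_, ?_⟩
  · refine (Finset.card_union_le _ _).trans ?_
    rw [Int.card_Icc, Int.card_Icc]
    omega
  · intro y h1 h2
    rw [Finset.mem_union]
    rcases hy y h1 h2 with h3 | h3
    · exact Or.inl (floor_ball hL hK y1 y h3)
    · exact Or.inr (floor_ball hL hK y2 y h3)

/-- the functional `π_V y + π_z (y^2/2 + a y + b)` on the curve has a coefficient bounded from below -/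
theorem coef_low {πV πz a M : ℝ} (hM : 1 ≤ M) (ha : |a| ≤ M) (h : 1 / 2 ≤ max |πV| |πz|) :
    1 / (8 * M) ≤ max |πz / 2| |πV + πz * a| := by
  have hM0 : (0 : ℝ) < M := by linarith
  by_cases hz : 1 / (4 * M) ≤ |πz|
  · refine le_max_of_le_left ?_
    rw [abs_div, abs_of_pos (by norm_num : (0 : ℝ) < 2)]
    have : 1 / (8 * M) = 1 / (4 * M) / 2 := by field_simp; norm_num
    rw [this]
    linarith
  · push Not at hz
    refine le_max_of_le_right ?_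
    have hz1 : |πz| < 1 / 2 := by
      refine hz.trans_le ?_
      rw [div_le_div_iff₀ (by positivity) (by norm_num)]
      linarith
    have hV : 1 / 2 ≤ |πV| := by
      rcases le_max_iff.1 h with h' | h'
      · exact h'
      · linarith
    have e1 : |πz * a| ≤ 1 / 4 := by
      rw [abs_mul]
      have h1 : |πz| * |a| ≤ 1 / (4 * M) * M :=
        mul_le_mul hz.le ha (abs_nonneg _) (by positivity)
      have h2 : 1 / (4 * M) * M = 1 / 4 := by field_simp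
      linarith
    have e2 : |πV| ≤ |πV + πz * a| + |πz * a| := by
      calc |πV| = |(πV + πz * a) - πz * a| := by ring_nf
        _ ≤ _ := abs_sub _ _
    have e3 : 1 / (8 * M) ≤ 1 / 8 := by
      rw [div_le_div_iff₀ (by positivity) (by norm_num)]
      linarith
    linarith

section entropy

variable {Ω : Type} [Fintype Ω] (P : Law Ω) {γ : Type*}

/-- **few directions** : on the curve `z' = y^2/2 + a y + b` (`a, b` functions of `G`), a plane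
`π_V y + π_z z' = c + O(ρ)` with `1/2 ≤ max |π_V| |π_z|` leaves at most `4 K + 4` values of `⌊L y⌋`
(`δ = K / L`, `128 R M ρ < δ^2`) -/
theorem hc_few (G : Ω → γ) (πV πz c a b : γ → ℝ) (y z : Ω → ℝ) {R M ρ L δ : ℝ} {K : ℕ} (hR : 1 ≤ R)
    (hM : 1 ≤ M) (hρ : 0 ≤ ρ) (hL : 0 ≤ L) (hδ : 0 < δ) (hK : L * δ ≤ K) (hs : 128 * R * M * ρ < δ ^ 2)
    (hy : ∀ ω, 0 < P.w ω → |y ω| ≤ R) (ha : ∀ ω, 0 < P.w ω → |a (G ω)| ≤ M)
    (hz : ∀ ω, 0 < P.w ω → z ω = y ω ^ 2 / 2 + a (G ω) * y ω + b (G ω))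
    (hπ : ∀ ω, 0 < P.w ω → 1 / 2 ≤ max |πV (G ω)| |πz (G ω)|)
    (hc : ∀ ω, 0 < P.w ω → |πV (G ω) * y ω + πz (G ω) * z ω - c (G ω)| ≤ ρ) :
    Stk.hc P (fun ω => ⌊L * y ω⌋) G ≤ Real.log ((4 * K + 4 : ℕ) : ℝ) := by
  refine hc_le_log P _ _ _ fun ω hω => ?_
  have hM0 : (0 : ℝ) < M := by linarith
  have hh : 16 * R * ρ < 1 / (8 * M) * δ ^ 2 := by
    have e : 1 / (8 * M) * δ ^ 2 = δ ^ 2 / (8 * M) := by ring
    rw [e, lt_div_iff₀ (by positivity)]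
    nlinarith
  obtain ⟨F, hF1, hF2⟩ := few_floor (C := πz (G ω) * b (G ω) - c (G ω)) (K := K) hδ hρ
    (coef_low hM (ha ω hω) (hπ ω hω)) hR hh hL hK
  refine ⟨F, hF1, fun ω' hω' e => hF2 _ (hy ω' hω') ?_⟩
  have h1 := hc ω' hω'
  rw [hz ω' hω', e] at h1
  have h2 : πz (G ω) / 2 * y ω' ^ 2 + (πV (G ω) + πz (G ω) * a (G ω)) * y ω' +
      (πz (G ω) * b (G ω) - c (G ω)) =
      πV (G ω) * y ω' + πz (G ω) * (y ω' ^ 2 / 2 + a (G ω) * y ω' + b (G ω)) - c (G ω) := by ring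
  rw [h2]
  exact h1

/-- the same with dyadic scales: thickness `K0 4^-b`, digits of `y` to the level `b` -/
theorem hc_few_dy (G : Ω → γ) (πV πz c a b : γ → ℝ) (y z : Ω → ℝ) {R M K0 : ℝ} {K β : ℕ} (hR : 1 ≤ R)
    (hM : 1 ≤ M) (hK0 : 0 ≤ K0) (hK : 128 * R * M * K0 < (K : ℝ) ^ 2)
    (hy : ∀ ω, 0 < P.w ω → |y ω| ≤ R) (ha : ∀ ω, 0 < P.w ω → |a (G ω)| ≤ M)
    (hz : ∀ ω, 0 < P.w ω → z ω = y ω ^ 2 / 2 + a (G ω) * y ω + b (G ω))
    (hπ : ∀ ω, 0 < P.w ω → 1 / 2 ≤ max |πV (G ω)| |πz (G ω)|)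
    (hc : ∀ ω, 0 < P.w ω → |πV (G ω) * y ω + πz (G ω) * z ω - c (G ω)| ≤ K0 / 4 ^ β) :
    Stk.hc P (fun ω => ⌊2 ^ β * y ω⌋) G ≤ Real.log ((4 * K + 4 : ℕ) : ℝ) := by
  have hK1 : 0 < (K : ℝ) := by
    by_contra hcon
    have : (K : ℝ) = 0 := le_antisymm (not_lt.1 hcon) (Nat.cast_nonneg _)
    rw [this] at hK
    have : 0 ≤ 128 * R * M * K0 := by positivity
    nlinarith
  refine hc_few P G πV πz c a b y z (R := R) (M := M) (ρ := K0 / 4 ^ β) (L := 2 ^ β) (δ := K / 2 ^ β)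
    hR hM (by positivity) (by positivity) (by positivity) ?_ ?_ hy ha hz hπ hc
  · rw [mul_div_cancel₀]
    positivity
  · have e : ((K : ℝ) / 2 ^ β) ^ 2 = (K : ℝ) ^ 2 / 4 ^ β := by
      rw [div_pow, ← pow_mul, mul_comm β 2, pow_mul]
      norm_num
    rw [e, ← mul_div_assoc]
    exact div_lt_div_of_pos_right hK (by positivity)

end entropy

/-! ### the isotropic case -/

/-- `|π_y + π_z y| ≤ ρ ≤ 1/4` with `max |π_y| |π_z| ≥ 1/2`, `|y| ≤ R`: `|π_z| ≥ 1 / (4 R)` -/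
theorem piz_low {R ρ πz : ℝ} {πy y : Fin 2 → ℝ} (hR : 1 ≤ R) (hρ : ρ ≤ 1 / 4) (hy : ∀ i, |y i| ≤ R)
    (h : 1 / 2 ≤ |πz| ∨ ∃ i, 1 / 2 ≤ |πy i|) (hn : ∀ i, |πy i + πz * y i| ≤ ρ) : 1 / (4 * R) ≤ |πz| := by
  have hR0 : (0 : ℝ) < R := by linarith
  rcases h with h | ⟨i, hi⟩
  · refine le_trans ?_ h
    rw [div_le_div_iff₀ (by positivity) (by norm_num)]
    linarith
  · have e : |πy i| ≤ |πy i + πz * y i| + |πz * y i| := by
      calc |πy i| = |(πy i + πz * y i) - πz * y i| := by ring_nf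
        _ ≤ _ := abs_sub _ _
    have e2 : |πz * y i| ≤ |πz| * R := by
      rw [abs_mul]
      exact mul_le_mul_of_nonneg_left (hy i) (abs_nonneg _)
    have e3 : 1 / 4 ≤ |πz| * R := by linarith [hn i]
    rw [div_le_iff₀ (by positivity)]
    linarith

/-- **circle** : the direction is known up to `4 R ρ` -/
theorem circle {R ρ πz : ℝ} {πy y : Fin 2 → ℝ} (hR : 1 ≤ R) (hρ : ρ ≤ 1 / 4) (hy : ∀ i, |y i| ≤ R)
    (h : 1 / 2 ≤ |πz| ∨ ∃ i, 1 / 2 ≤ |πy i|) (hn : ∀ i, |πy i + πz * y i| ≤ ρ) (i : Fin 2) :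
    |y i - (-πy i / πz)| ≤ 4 * R * ρ := by
  have hR0 : (0 : ℝ) < R := by linarith
  have hz := piz_low hR hρ hy h hn
  have hz0 : 0 < |πz| := lt_of_lt_of_le (by positivity) hz
  have hne : πz ≠ 0 := abs_pos.1 hz0
  have e : y i - (-πy i / πz) = (πy i + πz * y i) / πz := by
    field_simp
    ring
  rw [e, abs_div, div_le_iff₀ hz0]
  have hρ0 : 0 ≤ ρ := le_trans (abs_nonneg _) (hn i)
  have h1 : 1 ≤ 4 * R * |πz| := by
    rw [div_le_iff₀ (by positivity)] at hz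
    linarith
  nlinarith [hn i]

/-- the digits of the direction take at most `(2 K + 2)^2` values given `G` -/
theorem hc_circle {Ω : Type} [Fintype Ω] (P : Law Ω) {γ : Type*} (G : Ω → γ) (πy : γ → Fin 2 → ℝ)
    (πz : γ → ℝ) (y : Ω → Fin 2 → ℝ) {R ρ L : ℝ} {K : ℕ} (hR : 1 ≤ R) (hρ : ρ ≤ 1 / 4) (hL : 0 ≤ L)
    (hK : L * (4 * R * ρ) ≤ K) (hy : ∀ ω, 0 < P.w ω → ∀ i, |y ω i| ≤ R)
    (hπ : ∀ ω, 0 < P.w ω → 1 / 2 ≤ |πz (G ω)| ∨ ∃ i, 1 / 2 ≤ |πy (G ω) i|)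
    (hn : ∀ ω, 0 < P.w ω → ∀ i, |πy (G ω) i + πz (G ω) * y ω i| ≤ ρ) :
    hc P (fun ω i => ⌊L * y ω i⌋) G ≤ Real.log (((2 * K + 2) ^ 2 : ℕ) : ℝ) := by
  classical
  refine hc_le_log P _ _ _ fun ω hω => ?_
  refine ⟨Fintype.piFinset fun i => Finset.Icc (⌊L * (-πy (G ω) i / πz (G ω))⌋ - (K : ℤ))
    (⌊L * (-πy (G ω) i / πz (G ω))⌋ + K + 1), ?_, ?_⟩
  · rw [Fintype.card_piFinset, Finset.prod_congr rfl (g := fun _ => 2 * K + 2), Finset.prod_const,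
      Finset.card_univ, Fintype.card_fin]
    intro i _
    rw [Int.card_Icc]
    omega
  · intro ω' hω' e
    rw [Fintype.mem_piFinset]
    intro i
    refine floor_ball hL hK _ _ ?_
    have := circle hR hρ (hy ω' hω') (hπ ω' hω') (hn ω' hω') i
    rw [e] at this
    exact this

end Vale.Agent.P106.U.Conv
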