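import Vale.Agent.P106.U.H786.Cell
import Vale.Agent.P106.U.H786.Conv
import Vale.Agent.P106.U.H459.C1Props

/-!
# P106 / U / H786 : `PE2` (label `(h - b; b; b)`) and `PFewI` (small covector) of `U/H459/C1Props`

* `hc_fl`, `hc_fl1` : few values of the digits.
* `pos_close` : two rays with the same `Zh h` have the same position up to `31 * 2^-h`, the same height up to `2^-h`.
* `pE2 : PE2`, `pFewI : PFewI`.
-/

set_option autoImplicit false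

namespace Vale.Agent.P106.U.H786

open Finset Vale.Agent.P127 Vale.Agent.P127.Stk Vale.Agent.P127.U Vale.Agent.P127.U.CellD Vale.Agent.P106.W
open Vale.Agent.P106.K (Ry RyOk bl Bin)
open Vale.Agent.P122.C2 (fw fn)
open Vale.Agent.P106.U.End7

/-! ### few values -/

theorem hc_fl1 {Ω : Type} [Fintype Ω] (P : Law Ω) {γ : Type*} (Y : Ω → γ) (v : Ω → ℝ) (n N : ℕ)
    (h : ∀ ω ω', 0 < P.w ω → 0 < P.w ω' → Y ω = Y ω' → |v ω - v ω'| * 2 ^ n ≤ N) :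
    hc P (fun ω => fl1 n (v ω)) Y ≤ Real.log ((2 * N + 2 : ℕ) : ℝ) := by
  refine hc_le_log P _ _ _ fun ω hω => ?_
  refine ⟨Finset.Icc (⌊2 ^ n * v ω⌋ - (N : ℤ)) (⌊2 ^ n * v ω⌋ + N + 1), ?_, ?_⟩
  · rw [Int.card_Icc]
    omega
  · intro ω' hω' e
    have h1 := h ω' ω hω' hω e
    have h2 := Conv.floor_ball (L := 2 ^ n) (δ := |v ω' - v ω|) (K := N) (by positivity) (by linarith) (v ω) (v ω') le_rfl
    exact h2

theorem hc_fl {Ω : Type} [Fintype Ω] (P : Law Ω) {γ : Type*} (Y : Ω → γ) (v : Ω → Fin 2 → ℝ) (n N : ℕ)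
    (h : ∀ ω ω', 0 < P.w ω → 0 < P.w ω' → Y ω = Y ω' → ∀ k, |v ω k - v ω' k| * 2 ^ n ≤ N) :
    hc P (fun ω => fl n (v ω)) Y ≤ Real.log (((2 * N + 2) ^ 2 : ℕ) : ℝ) := by
  classical
  refine hc_le_log P _ _ _ fun ω hω => ?_
  refine ⟨Fintype.piFinset fun i => Finset.Icc (⌊2 ^ n * v ω i⌋ - (N : ℤ)) (⌊2 ^ n * v ω i⌋ + N + 1), ?_, ?_⟩
  · rw [Fintype.card_piFinset, Finset.prod_congr rfl (g := fun _ => 2 * N + 2), Finset.prod_const,
      Finset.card_univ, Fintype.card_fin]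
    intro i _
    rw [Int.card_Icc]
    omega
  · intro ω' hω' e
    rw [Fintype.mem_piFinset]
    intro i
    have h1 := h ω' ω hω' hω e i
    have h2 := Conv.floor_ball (L := 2 ^ n) (δ := |v ω' i - v ω i|) (K := N) (by positivity) (by linarith) (v ω i) (v ω' i) le_rfl
    exact h2

theorem fl1_sub {n : ℕ} {x y : ℝ} (h : fl1 n x = fl1 n y) : |x - y| ≤ (1 / 2 : ℝ) ^ n := by
  have h1 := rd_le n x
  have h2 := lt_rd n x
  have h3 := rd_le n y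
  have h4 := lt_rd n y
  have h5 : rd n x = rd n y := by unfold rd; rw [h]
  rw [h5] at h1 h2
  unfold q2 at h2 h4
  rw [abs_le]
  constructor <;> linarith

/-! ### positions -/

theorem pos_real {s c r0 r1 a0 a1 κT dH dG u : ℝ} (hsc : s ^ 2 + c ^ 2 = 1) (hr0 : |r0| ≤ 5 / 8)
    (hr1 : |r1| ≤ 5 / 8) (hκ : |κT| ≤ 3 / 8) (hH : |dH| ≤ u) (hG : |dG| ≤ u) (hV : |c * a0 + s * a1| ≤ 2 * u)
    (he : dG = (-s * a0 + c * a1) + (r0 * a0 + r1 * a1) + κT * dH) : |a0| ≤ 31 * u ∧ |a1| ≤ 31 * u := by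
  have hu : 0 ≤ u := le_trans (abs_nonneg _) hH
  set N := -s * a0 + c * a1 with hN
  set V := c * a0 + s * a1 with hVd
  set ρn := -s * r0 + c * r1 with hρn
  set ρw := c * r0 + s * r1 with hρw
  have e0 : (-s * r0 + c * r1) ^ 2 + (c * r0 + s * r1) ^ 2 = r0 ^ 2 + r1 ^ 2 := by
    linear_combination (r0 ^ 2 + r1 ^ 2) * hsc
  have q0 : r0 ^ 2 ≤ 25 / 64 := by
    have := sq_le_sq' (abs_le.1 hr0).1 (abs_le.1 hr0).2
    linarith
  have q1 : r1 ^ 2 ≤ 25 / 64 := by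
    have := sq_le_sq' (abs_le.1 hr1).1 (abs_le.1 hr1).2
    linarith
  have hn : |ρn| ≤ 177 / 200 := by
    refine abs_le_of_sq_le_sq ?_ (by norm_num)
    rw [hρn]
    nlinarith [sq_nonneg (c * r0 + s * r1)]
  have hw : |ρw| ≤ 177 / 200 := by
    refine abs_le_of_sq_le_sq ?_ (by norm_num)
    rw [hρw]
    nlinarith [sq_nonneg (-s * r0 + c * r1)]
  have e1 : r0 * a0 + r1 * a1 = N * ρn + V * ρw := by
    rw [hN, hVd, hρn, hρw]
    linear_combination -(r0 * a0 + r1 * a1) * hsc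
  rw [e1] at he
  have e2 : N * (1 + ρn) = dG - V * ρw - κT * dH := by linarith
  have hn1 : 23 / 200 ≤ 1 + ρn := by linarith [(abs_le.1 hn).1]
  have e3 : |N| * (23 / 200) ≤ u + 2 * u * (177 / 200) + 3 / 8 * u := by
    have h1 : |N| * (23 / 200) ≤ |N| * |1 + ρn| := by
      refine mul_le_mul_of_nonneg_left ?_ (abs_nonneg _)
      exact hn1.trans (le_abs_self _)
    rw [← abs_mul, e2] at h1
    have h2 : |dG - V * ρw - κT * dH| ≤ |dG| + |V * ρw| + |κT * dH| := by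
      refine (abs_sub _ _).trans ?_
      linarith [abs_sub dG (V * ρw)]
    have h3 : |V * ρw| ≤ 2 * u * (177 / 200) := by
      rw [abs_mul]
      exact mul_le_mul hV hw (abs_nonneg _) (by linarith)
    have h4 : |κT * dH| ≤ 3 / 8 * u := by
      rw [abs_mul]
      exact mul_le_mul hκ hH (abs_nonneg _) (by norm_num)
    linarith
  have hN2 : |N| ≤ 29 * u := by linarith
  have hs : |s| ≤ 1 := abs_le_of_sq_le_sq (by nlinarith [sq_nonneg c]) (by norm_num)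
  have hc : |c| ≤ 1 := abs_le_of_sq_le_sq (by nlinarith [sq_nonneg s]) (by norm_num)
  have f0 : a0 = c * V - s * N := by
    rw [hN, hVd]
    linear_combination -a0 * hsc
  have f1 : a1 = s * V + c * N := by
    rw [hN, hVd]
    linear_combination -a1 * hsc
  have b : ∀ x y : ℝ, |x| ≤ 1 → |x * y| ≤ |y| := by
    intro x y hx
    rw [abs_mul]
    exact mul_le_of_le_one_left (abs_nonneg _) hx
  constructor
  · rw [f0]
    refine (abs_sub _ _).trans ?_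
    linarith [b c V hc, b s N hs]
  · rw [f1]
    refine (abs_add_le _ _).trans ?_
    linarith [b s V hs, b c N hc]

section env

variable {Ω : Type} [Fintype Ω] {E : Env Ω} {P : Law Ω}

/-- the value of the functional of the slab at the time `T` in terms of the position and of the height -/
theorem g_at (B : Cbx) (l : Ry) (T : ℝ) :
    B.g0 l.y l.s l.z + T * B.g1 l.y l.s l.z =
      (-Real.sin B.θ * l.pos T 0 + Real.cos B.θ * l.pos T 1) +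
      ((-B.κ * B.v 0 + 2 * B.α * B.p 0) * l.pos T 0 + (-B.κ * B.v 1 + 2 * B.α * B.p 1) * l.pos T 1) -
      B.α * (l.pos T 0 ^ 2 + l.pos T 1 ^ 2) + (B.κ + 2 * B.α * T) * l.hgt T -
      ((fuB B).v0 (ctr B) + T * (fuB B).v1 (ctr B)) := by
  rw [fuB_v0, fuB_v1]
  simp only [Fu.v0, Fu.v1, fuB, Ry.pos, Ry.hgt, Fin.sum_univ_two, Matrix.cons_val_zero, Matrix.cons_val_one]
  ring

theorem rd01 (n : ℕ) {t : ℝ} (h0 : 0 ≤ t) (h1 : t ≤ 1) : 0 ≤ rd n t ∧ rd n t ≤ 1 := by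
  refine ⟨?_, (rd_le n t).trans h1⟩
  unfold rd fl1
  have : (0 : ℤ) ≤ ⌊(2 : ℝ) ^ n * t⌋ := Int.floor_nonneg.2 (by positivity)
  have : (0 : ℝ) ≤ (⌊(2 : ℝ) ^ n * t⌋ : ℝ) := by exact_mod_cast this
  positivity

/-- position of a ray of the slab relative to the centre -/
theorem pos_ctr (hS : E.Supp P) {ω : Ω} (hω : 0 < P.w ω) {T : ℝ} (h0 : 0 ≤ T) (h1 : T ≤ 1) (k : Fin 2) :
    |(E.l ω).pos T k - E.B0.p k| ≤ 2 := by
  have hy := (hS.inn ω hω).1 k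
  rw [hS.u2] at hy
  have hs := (hS.ok ω hω).1.2.1 k
  have e : (E.l ω).pos T k - E.B0.p k = ((E.l ω).y k - E.B0.p k) + T * (E.l ω).s k := by
    unfold Ry.pos
    ring
  rw [e]
  have : |T * (E.l ω).s k| ≤ 1 := by
    rw [abs_mul, abs_of_nonneg h0]
    exact mul_le_one₀ h1 (abs_nonneg _) hs
  exact (abs_add_le _ _).trans (by linarith)

/-- two rays with the same end -/
theorem pos_close (hS : E.Supp P) {ω ω' : Ω} (hω : 0 < P.w ω) (hω' : 0 < P.w ω')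
    (hZ : E.Zh E.h ω = E.Zh E.h ω') :
    rd E.h (E.t ω') = rd E.h (E.t ω) ∧
    (∀ k, |(E.l ω).pos (rd E.h (E.t ω)) k - (E.l ω').pos (rd E.h (E.t ω)) k| ≤ 31 * (1 / 2 : ℝ) ^ E.h) ∧
    |(E.l ω).hgt (rd E.h (E.t ω)) - (E.l ω').hgt (rd E.h (E.t ω))| ≤ (1 / 2 : ℝ) ^ E.h := by
  have hZ1 : fl1 E.h (E.t ω) = fl1 E.h (E.t ω') := congrArg Prod.fst hZ
  have hT : rd E.h (E.t ω') = rd E.h (E.t ω) := by unfold rd; rw [hZ1]
  have hZ2 : ∀ k, |E.X ω k + rd E.h (E.t ω) * E.Q ω k - (E.X ω' k + rd E.h (E.t ω) * E.Q ω' k)| ≤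
      (1 / 2 : ℝ) ^ E.h := by
    intro k
    have h1 := congrFun (congrArg Prod.snd hZ) k
    simp only [Env.Zh] at h1
    rw [hT] at h1
    exact fl1_sub h1
  obtain ⟨T0, T1⟩ := rd01 E.h (hS.ok ω hω).2.1 (hS.ok ω hω).2.2
  set T := rd E.h (E.t ω) with hTd
  have z0 := hZ2 0
  have z1 := hZ2 1
  have z2 := hZ2 2
  simp only [Env.X, Env.Q, Matrix.cons_val_zero, Matrix.cons_val_one, Matrix.cons_val] at z0 z1 z2
  have hH : |(E.l ω).hgt T - (E.l ω').hgt T| ≤ (1 / 2 : ℝ) ^ E.h := by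
    refine le_trans (le_of_eq ?_) z1
    congr 1
    unfold Ry.hgt
    ring
  have hV : |Real.cos E.B0.θ * ((E.l ω).pos T 0 - (E.l ω').pos T 0) +
      Real.sin E.B0.θ * ((E.l ω).pos T 1 - (E.l ω').pos T 1)| ≤ 2 * (1 / 2 : ℝ) ^ E.h := by
    have e : Real.cos E.B0.θ * ((E.l ω).pos T 0 - (E.l ω').pos T 0) +
      Real.sin E.B0.θ * ((E.l ω).pos T 1 - (E.l ω').pos T 1) =
      2 * (fw E.B0.θ (E.l ω).y / 2 + T * (fw E.B0.θ (E.l ω).s / 2) -
        (fw E.B0.θ (E.l ω').y / 2 + T * (fw E.B0.θ (E.l ω').s / 2))) := by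
      simp only [fw, Ry.pos]
      ring
    rw [e, abs_mul, abs_of_pos (by norm_num : (0 : ℝ) < 2)]
    linarith
  have hG : |(E.B0.g0 (E.l ω).y (E.l ω).s (E.l ω).z + T * E.B0.g1 (E.l ω).y (E.l ω).s (E.l ω).z) -
      (E.B0.g0 (E.l ω').y (E.l ω').s (E.l ω').z + T * E.B0.g1 (E.l ω').y (E.l ω').s (E.l ω').z)| ≤
      (1 / 2 : ℝ) ^ E.h := by
    have e : 2 ^ E.q * E.B0.g0 (E.l ω).y (E.l ω).s (E.l ω).z + T * (2 ^ E.q * E.B0.g1 (E.l ω).y (E.l ω).s (E.l ω).z) -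
      (2 ^ E.q * E.B0.g0 (E.l ω').y (E.l ω').s (E.l ω').z + T * (2 ^ E.q * E.B0.g1 (E.l ω').y (E.l ω').s (E.l ω').z)) =
      2 ^ E.q * ((E.B0.g0 (E.l ω).y (E.l ω).s (E.l ω).z + T * E.B0.g1 (E.l ω).y (E.l ω).s (E.l ω).z) -
      (E.B0.g0 (E.l ω').y (E.l ω').s (E.l ω').z + T * E.B0.g1 (E.l ω').y (E.l ω').s (E.l ω').z)) := by ring
    rw [e, abs_mul, abs_of_pos (by positivity : (0 : ℝ) < 2 ^ E.q)] at z2
    refine le_trans ?_ z2
    exact le_mul_of_one_le_left (abs_nonneg _) (one_le_pow₀ (by norm_num))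
  have hκT : |E.B0.κ + 2 * E.B0.α * T| ≤ 3 / 8 := by
    have h1 : |2 * E.B0.α * T| ≤ 1 / 4 := by
      rw [abs_mul, abs_mul, abs_of_nonneg T0, abs_of_pos (by norm_num : (0 : ℝ) < 2)]
      nlinarith [hS.α8, abs_nonneg E.B0.α]
    exact (abs_add_le _ _).trans (by linarith [hS.κ8])
  have hr : ∀ k : Fin 2, |-E.B0.κ * E.B0.v k - E.B0.α * (((E.l ω).pos T k - E.B0.p k) + ((E.l ω').pos T k - E.B0.p k))| ≤
      5 / 8 := by
    intro k
    have h1 : |-E.B0.κ * E.B0.v k| ≤ 1 / 8 := by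
      rw [abs_mul, abs_neg]
      nlinarith [hS.κ8, abs_nonneg E.B0.κ, hS.v1 k, abs_nonneg (E.B0.v k)]
    have h2 : |((E.l ω).pos T k - E.B0.p k) + ((E.l ω').pos T k - E.B0.p k)| ≤ 4 :=
      (abs_add_le _ _).trans (by linarith [pos_ctr hS hω T0 T1 k, pos_ctr hS hω' T0 T1 k])
    have h3 : |E.B0.α * (((E.l ω).pos T k - E.B0.p k) + ((E.l ω').pos T k - E.B0.p k))| ≤ 1 / 2 := by
      rw [abs_mul]
      have := mul_le_mul hS.α8 h2 (abs_nonneg _) (by norm_num)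
      linarith
    exact (abs_sub _ _).trans (by linarith)
  have hfin := pos_real (s := Real.sin E.B0.θ) (c := Real.cos E.B0.θ)
    (r0 := -E.B0.κ * E.B0.v 0 - E.B0.α * (((E.l ω).pos T 0 - E.B0.p 0) + ((E.l ω').pos T 0 - E.B0.p 0)))
    (r1 := -E.B0.κ * E.B0.v 1 - E.B0.α * (((E.l ω).pos T 1 - E.B0.p 1) + ((E.l ω').pos T 1 - E.B0.p 1)))
    (a0 := (E.l ω).pos T 0 - (E.l ω').pos T 0) (a1 := (E.l ω).pos T 1 - (E.l ω').pos T 1)
    (κT := E.B0.κ + 2 * E.B0.α * T) (u := (1 / 2 : ℝ) ^ E.h)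
    (Real.sin_sq_add_cos_sq _) (hr 0) (hr 1) hκT hH hG hV (by
      rw [g_at, g_at]
      ring)
  refine ⟨hT, ?_, hH⟩
  intro k
  fin_cases k
  · exact hfin.1
  · exact hfin.2

/-! ### `PE2` -/

theorem qa_rd (n : ℕ) (x : ℝ) : qa n x = rd n x := rfl

/-- functional `x 0` -/
def fx : Fu := ⟨fun i => if i = 0 then 1 else 0, 0, 0⟩

theorem fx_len (l : Ry) : fx.len l = 1 := by
  simp [Fu.len, Fu.cov, fx]

/-- the rounded slope -/
noncomputable def sg (b : ℕ) (l : Ry) (k : Fin 2) : ℝ := (fl b l.s k : ℝ) / 2 ^ b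

/-- adapted coordinate at the time `T` relative to the rounded slope -/
noncomputable def uu (b : ℕ) (l : Ry) (T : ℝ) : ℝ := l.hgt T - ∑ k, l.pos T k * sg b l k

/-- the cell `(a; b; b)` -/
noncomputable def De (E : Env Ω) (b : ℕ) (ω : Ω) :
    (ℤ × (Fin 3 → ℤ)) × (Fin 2 → ℤ) × (Fin 2 → ℤ) × ℤ :=
  (E.Zh E.h ω, fl b (E.l ω).s, fl E.h ((E.l ω).pos (qa (E.h - b) (E.t ω))),
    fl1 (E.h + b) (uu b (E.l ω) (qa (E.h - b) (E.t ω))))

theorem fl_sub {n : ℕ} {x y : Fin 2 → ℝ} (h : fl n x = fl n y) (k : Fin 2) : |x k - y k| ≤ (1 / 2 : ℝ) ^ n :=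
  fl1_sub (congrFun h k)

theorem sg_near (b : ℕ) (l : Ry) (k : Fin 2) : |l.s k - sg b l k| ≤ (1 / 2 : ℝ) ^ b := by
  have := rd_err b (l.s k)
  unfold q2 at this
  rw [abs_sub_comm]
  exact this

theorem De_close {p : Par} (hp : p.Ok) {b : ℕ} (hb : b ≤ E.h) {ω ω' : Ω} (h : De E b ω = De E b ω') :
    Close p.c ((1 / 2 : ℝ) ^ b) ((1 / 2 : ℝ) ^ b) fx (bl (E.h - b) (E.l ω) (E.t ω))
      (bl (E.h - b) (E.l ω') (E.t ω')) := by
  simp only [De, Prod.mk.injEq] at h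
  obtain ⟨h1, h2, h3, h4⟩ := h
  have hc := hp.c0
  have ht : fl1 (E.h - b) (E.t ω) = fl1 (E.h - b) (E.t ω') :=
    fl1_fl1 (Nat.sub_le _ _) (congrArg Prod.fst h1)
  have hT : qa (E.h - b) (E.t ω') = qa (E.h - b) (E.t ω) := by unfold qa; rw [ht]
  rw [hT] at h3 h4
  set T := qa (E.h - b) (E.t ω) with hTd
  have hs := fl_sub h2
  have hx := fl_sub h3
  have hu := fl1_sub h4
  have hsg : sg b (E.l ω') = sg b (E.l ω) := by
    funext k
    unfold sg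
    rw [h2]
  have hB : (0 : ℝ) < (1 / 2 : ℝ) ^ b := by positivity
  have h2a : (0 : ℝ) < (2 : ℝ) ^ (E.h - b) := by positivity
  have e1 : (2 : ℝ) ^ (E.h - b) * (1 / 2 : ℝ) ^ E.h = (1 / 2 : ℝ) ^ b := by
    have : (1 / 2 : ℝ) ^ E.h = (1 / 2 : ℝ) ^ (E.h - b) * (1 / 2 : ℝ) ^ b := by
      rw [← pow_add, Nat.sub_add_cancel hb]
    rw [this, ← mul_assoc, ← mul_pow]
    norm_num
  have e2 : (2 : ℝ) ^ (E.h - b) * (1 / 2 : ℝ) ^ (E.h + b) = ((1 / 2 : ℝ) ^ b) ^ 2 := by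
    rw [pow_add, ← mul_assoc, e1, sq]
  have hy : ∀ k, |(bl (E.h - b) (E.l ω) (E.t ω)).y k - (bl (E.h - b) (E.l ω') (E.t ω')).y k| ≤
      (1 / 2 : ℝ) ^ b := by
    intro k
    simp only [bl]
    rw [hT, ← mul_sub, abs_mul, abs_of_pos h2a, ← e1]
    exact mul_le_mul_of_nonneg_left (hx k) h2a.le
  refine ⟨?_, ?_, ?_, ?_, ?_, ?_, ?_, ?_⟩
  · intro k
    exact (hy k).trans (by nlinarith)
  · intro k
    exact (hs k).trans (by nlinarith)
  · have e : (bl (E.h - b) (E.l ω) (E.t ω)).z + ∑ k, (bl (E.h - b) (E.l ω) (E.t ω)).y k *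
        ((bl (E.h - b) (E.l ω) (E.t ω)).s k - (bl (E.h - b) (E.l ω') (E.t ω')).s k) -
        (bl (E.h - b) (E.l ω') (E.t ω')).z =
        2 ^ (E.h - b) * ((uu b (E.l ω) T - uu b (E.l ω') T) -
          (((E.l ω).pos T 0 - (E.l ω').pos T 0) * ((E.l ω').s 0 - sg b (E.l ω') 0) +
          ((E.l ω).pos T 1 - (E.l ω').pos T 1) * ((E.l ω').s 1 - sg b (E.l ω') 1))) := by
      simp only [bl, uu, hT, hsg, Ry.hgt, Ry.pos, Fin.sum_univ_two]
      rw [← hTd]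
      ring
    rw [e, abs_mul, abs_of_pos h2a]
    have hk : ∀ k, |((E.l ω).pos T k - (E.l ω').pos T k) * ((E.l ω').s k - sg b (E.l ω') k)| ≤
        (1 / 2 : ℝ) ^ (E.h + b) := by
      intro k
      rw [abs_mul, pow_add]
      exact mul_le_mul (hx k) (sg_near b _ k) (abs_nonneg _) (by positivity)
    have h5 : |(uu b (E.l ω) T - uu b (E.l ω') T) -
          (((E.l ω).pos T 0 - (E.l ω').pos T 0) * ((E.l ω').s 0 - sg b (E.l ω') 0) +
          ((E.l ω).pos T 1 - (E.l ω').pos T 1) * ((E.l ω').s 1 - sg b (E.l ω') 1))| ≤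
        3 * (1 / 2 : ℝ) ^ (E.h + b) := by
      refine (abs_sub _ _).trans ?_
      linarith [abs_add_le (((E.l ω).pos T 0 - (E.l ω').pos T 0) * ((E.l ω').s 0 - sg b (E.l ω') 0))
        (((E.l ω).pos T 1 - (E.l ω').pos T 1) * ((E.l ω').s 1 - sg b (E.l ω') 1)), hk 0, hk 1]
    calc (2 : ℝ) ^ (E.h - b) * _ ≤ 2 ^ (E.h - b) * (3 * (1 / 2 : ℝ) ^ (E.h + b)) :=
          mul_le_mul_of_nonneg_left h5 h2a.le
      _ = 3 * ((1 / 2 : ℝ) ^ b) ^ 2 := by rw [← e2]; ring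
      _ ≤ p.c * ((1 / 2 : ℝ) ^ b) ^ 2 := mul_le_mul_of_nonneg_right (by linarith) (by positivity)
  · rw [fx_len]
    have e : fx.v0 (bl (E.h - b) (E.l ω) (E.t ω)) - fx.v0 (bl (E.h - b) (E.l ω') (E.t ω')) =
        (bl (E.h - b) (E.l ω) (E.t ω)).y 0 - (bl (E.h - b) (E.l ω') (E.t ω')).y 0 := by
      simp [Fu.v0, fx]
    rw [e]
    exact (hy 0).trans (by nlinarith)
  · rw [fx_len]
    have e : fx.v1 (bl (E.h - b) (E.l ω) (E.t ω)) - fx.v1 (bl (E.h - b) (E.l ω') (E.t ω')) =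
        (E.l ω).s 0 - (E.l ω').s 0 := by
      simp [Fu.v1, fx, bl]
    rw [e]
    exact (hs 0).trans (by nlinarith)
  · rw [fx_len]; norm_num
  · rw [fx_len]
    simp only [fx, abs_zero, zero_mul]
    linarith
  · rw [fx_len]
    simp only [fx, abs_zero, zero_mul]
    linarith

/-- entropy of the position at the time `t_(h-b)` -/
theorem De_pos (hS : E.Supp P) {b : ℕ} (hb : b ≤ E.h) :
    hc P (fun ω => fl E.h ((E.l ω).pos (qa (E.h - b) (E.t ω)))) (fun ω => (fl b (E.l ω).s, E.Zh E.h ω)) ≤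
      Real.log (((2 * 32 + 2) ^ 2 : ℕ) : ℝ) := by
  refine hc_fl P _ _ _ 32 ?_
  intro ω ω' hω hω' e k
  simp only [Prod.mk.injEq] at e
  obtain ⟨e1, e2⟩ := e
  obtain ⟨hT, hx, _⟩ := pos_close hS hω hω' e2
  have ht : fl1 (E.h - b) (E.t ω) = fl1 (E.h - b) (E.t ω') :=
    fl1_fl1 (Nat.sub_le _ _) (congrArg Prod.fst e2)
  have hT' : qa (E.h - b) (E.t ω') = qa (E.h - b) (E.t ω) := by unfold qa; rw [ht]
  rw [hT', qa_rd]
  have hd := rd_sub (Nat.sub_le E.h b) (E.t ω)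
  unfold q2 at hd
  set T := rd E.h (E.t ω)
  set T' := rd (E.h - b) (E.t ω)
  have hs := fl_sub e1 k
  have e3 : (E.l ω).pos T' k - (E.l ω').pos T' k = ((E.l ω).pos T k - (E.l ω').pos T k) -
      (T - T') * ((E.l ω).s k - (E.l ω').s k) := by
    unfold Ry.pos
    ring
  have e4 : (1 / 2 : ℝ) ^ (E.h - b) * (1 / 2 : ℝ) ^ b = (1 / 2 : ℝ) ^ E.h := by
    rw [← pow_add, Nat.sub_add_cancel hb]
  have h5 : |(T - T') * ((E.l ω).s k - (E.l ω').s k)| ≤ (1 / 2 : ℝ) ^ E.h := by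
    rw [abs_mul, ← e4]
    exact mul_le_mul hd hs (abs_nonneg _) (by positivity)
  have h6 : |(E.l ω).pos T' k - (E.l ω').pos T' k| ≤ 32 * (1 / 2 : ℝ) ^ E.h := by
    rw [e3]
    exact (abs_sub _ _).trans (by linarith [hx k])
  calc |(E.l ω).pos T' k - (E.l ω').pos T' k| * 2 ^ E.h ≤ 32 * (1 / 2 : ℝ) ^ E.h * 2 ^ E.h :=
        mul_le_mul_of_nonneg_right h6 (by positivity)
    _ = 32 := by
        rw [mul_assoc, ← mul_pow]
        norm_num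
    _ = ((32 : ℕ) : ℝ) := by norm_num

/-- entropy of the adapted coordinate -/
theorem De_u (hS : E.Supp P) {b : ℕ} (hb : b ≤ E.h) :
    hc P (fun ω => fl1 (E.h + b) (uu b (E.l ω) (qa (E.h - b) (E.t ω))))
      (fun ω => (fl E.h ((E.l ω).pos (qa (E.h - b) (E.t ω))), (fl b (E.l ω).s, E.Zh E.h ω))) ≤
      Real.log ((2 * (7 * 2 ^ b) + 2 : ℕ) : ℝ) := by
  refine hc_fl1 P _ _ _ (7 * 2 ^ b) ?_
  intro ω ω' hω hω' e
  simp only [Prod.mk.injEq] at e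
  obtain ⟨e0, e1, e2⟩ := e
  obtain ⟨hT, _, hH⟩ := pos_close hS hω hω' e2
  have ht : fl1 (E.h - b) (E.t ω) = fl1 (E.h - b) (E.t ω') :=
    fl1_fl1 (Nat.sub_le _ _) (congrArg Prod.fst e2)
  have hT' : qa (E.h - b) (E.t ω') = qa (E.h - b) (E.t ω) := by unfold qa; rw [ht]
  rw [hT'] at e0 ⊢
  rw [qa_rd] at e0 ⊢
  have hd := rd_sub (Nat.sub_le E.h b) (E.t ω)
  unfold q2 at hd
  set T := rd E.h (E.t ω)
  set T' := rd (E.h - b) (E.t ω)
  have hs := fl_sub e1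
  have hx := fl_sub e0
  have hsg : sg b (E.l ω') = sg b (E.l ω) := by
    funext k
    unfold sg
    rw [e1]
  have s1 : ∀ k, |(E.l ω).s k| ≤ 1 := (hS.ok ω hω).1.2.1
  have s2 : ∀ k, |(E.l ω').s k| ≤ 1 := (hS.ok ω' hω').1.2.1
  have hsg1 : ∀ k, |sg b (E.l ω) k| ≤ 2 := by
    intro k
    have h1 : |sg b (E.l ω) k| ≤ |(E.l ω).s k| + |(E.l ω).s k - sg b (E.l ω) k| := by
      calc |sg b (E.l ω) k| = |(E.l ω).s k - ((E.l ω).s k - sg b (E.l ω) k)| := by ring_nf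
        _ ≤ _ := abs_sub _ _
    have h2 : (1 / 2 : ℝ) ^ b ≤ 1 := pow_le_one₀ (by norm_num) (by norm_num)
    linarith [sg_near b (E.l ω) k, s1 k]
  have e4 : (1 / 2 : ℝ) ^ (E.h - b) * (1 / 2 : ℝ) ^ b = (1 / 2 : ℝ) ^ E.h := by
    rw [← pow_add, Nat.sub_add_cancel hb]
  have e5 : uu b (E.l ω) T' - uu b (E.l ω') T' = ((E.l ω).hgt T - (E.l ω').hgt T) -
      (T - T') * (((E.l ω).s 0 - (E.l ω').s 0) * ((E.l ω).s 0 + (E.l ω').s 0) +
        ((E.l ω).s 1 - (E.l ω').s 1) * ((E.l ω).s 1 + (E.l ω').s 1)) / 2 -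
      (((E.l ω).pos T' 0 - (E.l ω').pos T' 0) * sg b (E.l ω) 0 +
        ((E.l ω).pos T' 1 - (E.l ω').pos T' 1) * sg b (E.l ω) 1) := by
    simp only [uu, hsg, Ry.hgt, Fin.sum_univ_two]
    ring
  have k1 : ∀ k, |((E.l ω).s k - (E.l ω').s k) * ((E.l ω).s k + (E.l ω').s k)| ≤ 2 * (1 / 2 : ℝ) ^ b := by
    intro k
    rw [abs_mul]
    have : |(E.l ω).s k + (E.l ω').s k| ≤ 2 := (abs_add_le _ _).trans (by linarith [s1 k, s2 k])
    have := mul_le_mul (hs k) this (abs_nonneg _) (by positivity)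
    linarith
  have k2 : ∀ k, |((E.l ω).pos T' k - (E.l ω').pos T' k) * sg b (E.l ω) k| ≤ 2 * (1 / 2 : ℝ) ^ E.h := by
    intro k
    rw [abs_mul]
    have := mul_le_mul (hx k) (hsg1 k) (abs_nonneg _) (by positivity)
    linarith
  have k3 : |(T - T') * (((E.l ω).s 0 - (E.l ω').s 0) * ((E.l ω).s 0 + (E.l ω').s 0) +
        ((E.l ω).s 1 - (E.l ω').s 1) * ((E.l ω).s 1 + (E.l ω').s 1)) / 2| ≤ 2 * (1 / 2 : ℝ) ^ E.h := by
    rw [abs_div, abs_mul, abs_of_pos (by norm_num : (0 : ℝ) < 2), ← e4]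
    have h1 : |((E.l ω).s 0 - (E.l ω').s 0) * ((E.l ω).s 0 + (E.l ω').s 0) +
        ((E.l ω).s 1 - (E.l ω').s 1) * ((E.l ω).s 1 + (E.l ω').s 1)| ≤ 4 * (1 / 2 : ℝ) ^ b :=
      (abs_add_le _ _).trans (by linarith [k1 0, k1 1])
    have := mul_le_mul hd h1 (abs_nonneg _) (by positivity)
    linarith
  have k4 : |((E.l ω).pos T' 0 - (E.l ω').pos T' 0) * sg b (E.l ω) 0 +
        ((E.l ω).pos T' 1 - (E.l ω').pos T' 1) * sg b (E.l ω) 1| ≤ 4 * (1 / 2 : ℝ) ^ E.h :=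
    (abs_add_le _ _).trans (by linarith [k2 0, k2 1])
  have k5 : |uu b (E.l ω) T' - uu b (E.l ω') T'| ≤ 7 * (1 / 2 : ℝ) ^ E.h := by
    rw [e5]
    refine (abs_sub _ _).trans ?_
    have := abs_sub ((E.l ω).hgt T - (E.l ω').hgt T) ((T - T') * (((E.l ω).s 0 - (E.l ω').s 0) *
      ((E.l ω).s 0 + (E.l ω').s 0) + ((E.l ω).s 1 - (E.l ω').s 1) * ((E.l ω).s 1 + (E.l ω').s 1)) / 2)
    linarith
  calc |uu b (E.l ω) T' - uu b (E.l ω') T'| * 2 ^ (E.h + b) ≤ 7 * (1 / 2 : ℝ) ^ E.h * 2 ^ (E.h + b) :=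
        mul_le_mul_of_nonneg_right k5 (by positivity)
    _ = 7 * ((1 / 2 : ℝ) ^ E.h * 2 ^ E.h) * 2 ^ b := by rw [pow_add]; ring
    _ = 7 * 2 ^ b := by
        rw [← mul_pow]
        norm_num
    _ = ((7 * 2 ^ b : ℕ) : ℝ) := by push_cast; ring

/-- **[E2]** -/
theorem pE2 : PE2 := by
  refine ⟨Real.log (((2 * 32 + 2) ^ 2 : ℕ) : ℝ) + Real.log 16, ?_⟩
  intro p hp Ω _ E P μ b hS hL hb
  have hbL : (E.h - b) + b ≤ E.L := by
    rw [Nat.sub_add_cancel hb]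
    exact le_trans (Nat.le_add_right _ _) hS.hL
  have hlab := lab_cell hL (E.h - b) b b (Nat.sub_le _ _) le_rfl hbL (De E b) (fun _ => fx)
    (fun ω ω' _ _ h => De_close hp hb h)
  -- entropies
  set D' : Ω → ((ℤ × (Fin 3 → ℤ)) × (Fin 2 → ℤ) × (Fin 2 → ℤ) × ℤ) × ℤ :=
    fun ω => (De E b ω, fl1 (E.h - b) (E.t ω)) with hD'
  have h1 : hc P E.l (E.Zh E.h) ≤ hc P E.l D' + hc P D' (E.Zh E.h) := by
    refine (hc_le_add' P E.l D' (E.Zh E.h)).trans ?_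
    have : hc P E.l (fun ω => (D' ω, E.Zh E.h ω)) ≤ hc P E.l D' := by
      refine hc_mono_right P E.l ?_
      intro ω ω' _ _ e
      exact congrArg Prod.fst e
    linarith
  have h2 : hc P D' (E.Zh E.h) ≤ hc P (fun ω => (fl b (E.l ω).s, (fl E.h ((E.l ω).pos (qa (E.h - b) (E.t ω))),
      fl1 (E.h + b) (uu b (E.l ω) (qa (E.h - b) (E.t ω)))))) (E.Zh E.h) := by
    refine hc_mono_left P ?_
    intro ω ω' _ _ e
    simp only [Prod.mk.injEq] at e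
    have ht : fl1 (E.h - b) (E.t ω) = fl1 (E.h - b) (E.t ω') :=
      fl1_fl1 (Nat.sub_le _ _) (congrArg Prod.fst e.2)
    simp only [hD', De, Prod.mk.injEq]
    exact ⟨⟨e.2, e.1.1, e.1.2.1, e.1.2.2⟩, ht⟩
  rw [hc_pair P (fun ω => fl b (E.l ω).s) (fun ω => (fl E.h ((E.l ω).pos (qa (E.h - b) (E.t ω))),
    fl1 (E.h + b) (uu b (E.l ω) (qa (E.h - b) (E.t ω))))) (E.Zh E.h),
    hc_pair P (fun ω => fl E.h ((E.l ω).pos (qa (E.h - b) (E.t ω))))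
      (fun ω => fl1 (E.h + b) (uu b (E.l ω) (qa (E.h - b) (E.t ω))))] at h2
  have h3 := De_pos hS hb
  have h4 := De_u hS hb
  have h5 : Real.log ((2 * (7 * 2 ^ b) + 2 : ℕ) : ℝ) ≤ Real.log 16 + b * Real.log 2 := by
    rw [← Real.log_pow, ← Real.log_mul (by norm_num) (by positivity)]
    refine Real.log_le_log (by positivity) ?_
    push_cast
    have : (1 : ℝ) ≤ 2 ^ b := one_le_pow₀ (by norm_num)
    linarith
  have hcast : ((E.h - b : ℕ) : ℝ) = (E.h : ℝ) - b := by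
    push_cast [hb]
    ring
  rw [hcast] at hlab
  unfold Env.vh at hlab
  have hlog : 0 ≤ Real.log 2 := Real.log_nonneg (by norm_num)
  have habs : |(b : ℝ) - E.q| ≤ b + E.q := by
    refine (abs_sub _ _).trans ?_
    rw [abs_of_nonneg (Nat.cast_nonneg _), abs_of_nonneg (Nat.cast_nonneg _)]
  have hk : p.k * (b + |(b : ℝ) - E.q|) * Real.log 2 ≤ p.k * (2 * b + E.q) * Real.log 2 := by
    refine mul_le_mul_of_nonneg_right (mul_le_mul_of_nonneg_left ?_ hp.k0) hlog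
    linarith
  have hq : (1 - p.lam) * E.q * Real.log 2 ≤ E.q * Real.log 2 := by
    refine mul_le_mul_of_nonneg_right ?_ hlog
    have := hp.lam0
    have hq0 : (0 : ℝ) ≤ E.q := Nat.cast_nonneg _
    nlinarith
  nlinarith

/-! ### `PFewI` -/

/-- small covector: the coefficient of the slope is bounded from below -/
theorem K_real {s c r0 r1 a0 a1 π0 π1 π2 M κT K ρ : ℝ} (hsc : s ^ 2 + c ^ 2 = 1) (hr0 : |r0| ≤ 5 / 8)
    (hr1 : |r1| ≤ 5 / 8) (ha0 : |a0| ≤ 1) (ha1 : |a1| ≤ 1) (hκ : |κT| ≤ 3 / 8) (hM : |π2| ≤ |M|)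
    (hK : K = π1 + M * κT) (hρ : ρ ≤ 1 / 200)
    (h0 : |π0 * c / 2 + M * (-s + r0) + K * a0| ≤ ρ) (h1 : |π0 * s / 2 + M * (c + r1) + K * a1| ≤ ρ)
    (hπ : 1 ≤ |π0| ∨ 1 ≤ |π1| ∨ 1 ≤ |π2|) : 1 / 200 ≤ |K| := by
  by_contra hcon
  push Not at hcon
  have hs : |s| ≤ 1 := abs_le_of_sq_le_sq (by nlinarith [sq_nonneg c]) (by norm_num)
  have hc : |c| ≤ 1 := abs_le_of_sq_le_sq (by nlinarith [sq_nonneg s]) (by norm_num)
  have q0 : r0 ^ 2 ≤ 25 / 64 := by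
    have := sq_le_sq' (abs_le.1 hr0).1 (abs_le.1 hr0).2
    linarith
  have q1 : r1 ^ 2 ≤ 25 / 64 := by
    have := sq_le_sq' (abs_le.1 hr1).1 (abs_le.1 hr1).2
    linarith
  have e0 : (-s * r0 + c * r1) ^ 2 + (c * r0 + s * r1) ^ 2 = r0 ^ 2 + r1 ^ 2 := by
    linear_combination (r0 ^ 2 + r1 ^ 2) * hsc
  have hn : |-s * r0 + c * r1| ≤ 177 / 200 := by
    refine abs_le_of_sq_le_sq ?_ (by norm_num)
    nlinarith [sq_nonneg (c * r0 + s * r1)]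
  have hw : |c * r0 + s * r1| ≤ 177 / 200 := by
    refine abs_le_of_sq_le_sq ?_ (by norm_num)
    nlinarith [sq_nonneg (-s * r0 + c * r1)]
  set A := π0 * c / 2 + M * (-s + r0) + K * a0 with hA
  set B := π0 * s / 2 + M * (c + r1) + K * a1 with hB
  have mb : ∀ x y z : ℝ, |x| ≤ 1 → |y| ≤ z → |x * y| ≤ z := by
    intro x y z hx hy
    rw [abs_mul]
    exact (mul_le_of_le_one_left (abs_nonneg _) hx).trans hy
  have hKa0 : |K * a0| ≤ 1 / 200 := by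
    rw [mul_comm]
    exact mb _ _ _ ha0 hcon.le
  have hKa1 : |K * a1| ≤ 1 / 200 := by
    rw [mul_comm]
    exact mb _ _ _ ha1 hcon.le
  -- normal component
  have en : M * (1 + (-s * r0 + c * r1)) = (-s * A + c * B) - (-s * (K * a0) + c * (K * a1)) := by
    rw [hA, hB]
    linear_combination (-M) * hsc
  have hMn : |M| * (23 / 200) ≤ 4 / 200 := by
    have h2 : 23 / 200 ≤ 1 + (-s * r0 + c * r1) := by linarith [(abs_le.1 hn).1]
    have h3 : |M| * (23 / 200) ≤ |M| * |1 + (-s * r0 + c * r1)| :=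
      mul_le_mul_of_nonneg_left (h2.trans (le_abs_self _)) (abs_nonneg _)
    rw [← abs_mul, en] at h3
    have h4 : |(-s * A + c * B) - (-s * (K * a0) + c * (K * a1))| ≤ 4 / 200 := by
      have i1 := mb (-s) A ρ (by rwa [abs_neg]) h0
      have i2 := mb c B ρ hc h1
      have i3 := mb (-s) (K * a0) _ (by rwa [abs_neg]) hKa0
      have i4 := mb c (K * a1) _ hc hKa1
      refine (abs_sub _ _).trans ?_
      linarith [abs_add_le (-s * A) (c * B), abs_add_le (-s * (K * a0)) (c * (K * a1))]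
    linarith
  have hM1 : |M| ≤ 9 / 50 := by linarith
  have ew : π0 / 2 = (c * A + s * B) - M * (c * r0 + s * r1) - (c * (K * a0) + s * (K * a1)) := by
    rw [hA, hB]
    linear_combination (-π0 / 2) * hsc
  have hπ0 : |π0| < 1 := by
    have i1 := mb c A ρ hc h0
    have i2 := mb s B ρ hs h1
    have i3 := mb c (K * a0) _ hc hKa0
    have i4 := mb s (K * a1) _ hs hKa1
    have i5 : |M * (c * r0 + s * r1)| ≤ 9 / 50 * (177 / 200) := by
      rw [abs_mul]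
      exact mul_le_mul hM1 hw (abs_nonneg _) (by norm_num)
    have i6 : |π0 / 2| ≤ 4 / 200 + 9 / 50 * (177 / 200) := by
      rw [ew]
      refine (abs_sub _ _).trans ?_
      linarith [abs_sub (c * A + s * B) (M * (c * r0 + s * r1)), abs_add_le (c * A) (s * B),
        abs_add_le (c * (K * a0)) (s * (K * a1))]
    rw [abs_div, abs_of_pos (by norm_num : (0 : ℝ) < 2)] at i6
    linarith
  have hπ1 : |π1| < 1 := by
    have e1 : π1 = K - M * κT := by rw [hK]; ring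
    rw [e1]
    have i1 : |M * κT| ≤ 9 / 50 * (3 / 8) := by
      rw [abs_mul]
      exact mul_le_mul hM1 hκ (abs_nonneg _) (by norm_num)
    refine (abs_sub _ _).trans_lt ?_
    linarith
  have hπ2 : |π2| < 1 := by linarith
  rcases hπ with h | h | h <;> linarith

/-- **[FewI]** -/
theorem pFewI : PFewI := by
  refine ⟨3200, by norm_num, ?_⟩
  intro Ω _ ζ E P Y π o ρ b hS hZY hρ0 hπ hC
  have h2q : (0 : ℝ) ≤ (2 : ℝ) ^ E.q * (1 / 2 : ℝ) ^ E.h := by positivity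
  have hsq := Real.sqrt_nonneg ((2 : ℝ) ^ E.q * (1 / 2 : ℝ) ^ E.h)
  have hb1 : (1 / 2 : ℝ) ^ b ≤ 1 := pow_le_one₀ (by norm_num) (by norm_num)
  have hsq1 : Real.sqrt ((2 : ℝ) ^ E.q * (1 / 2 : ℝ) ^ E.h) ≤ 1 := by linarith
  have hle : (2 : ℝ) ^ E.q * (1 / 2 : ℝ) ^ E.h ≤ Real.sqrt ((2 : ℝ) ^ E.q * (1 / 2 : ℝ) ^ E.h) := by
    have := Real.mul_self_sqrt h2q
    nlinarith
  have hρ : ρ ≤ 1 / 200 := by linarith
  have hlog : Real.log (((2 * 1 + 2) ^ 2 : ℕ) : ℝ) ≤ 3200 := by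
    refine (Real.log_le_sub_one_of_pos (by norm_num)).trans ?_
    norm_num
  refine le_trans (hc_fl P Y (fun ω => (E.l ω).s) b 1 ?_) hlog
  intro ω ω' hω hω' e k
  have hZ : E.Zh E.h ω = E.Zh E.h ω' := hZY ω ω' hω hω' e
  obtain ⟨hT, hx, _⟩ := pos_close hS hω hω' hZ
  obtain ⟨T0, T1⟩ := rd01 E.h (hS.ok ω hω).2.1 (hS.ok ω hω).2.2
  set T := rd E.h (E.t ω) with hTd
  obtain ⟨a1, a2, a3, _⟩ := hπ ω hω
  obtain ⟨b1, b2, b3, _⟩ := hπ ω' hω'
  rw [← e] at b3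
  set q0 := π (Y ω) with hq0
  have h2E : (1 : ℝ) ≤ 2 ^ E.q := one_le_pow₀ (by norm_num)
  -- the covector as a function of the slope
  have hcov : ∀ (ω₁ : Ω) (j : Fin 2), cov E q0 (E.l ω₁) j =
      q0 0 * (![Real.cos E.B0.θ, Real.sin E.B0.θ] : Fin 2 → ℝ) j / 2 +
      (q0 2 * 2 ^ E.q) * ((![-Real.sin E.B0.θ, Real.cos E.B0.θ] : Fin 2 → ℝ) j +
        (-E.B0.κ * E.B0.v j - 2 * E.B0.α * ((E.l ω₁).pos T j - E.B0.p j))) +
      (q0 1 + (q0 2 * 2 ^ E.q) * (E.B0.κ + 2 * E.B0.α * T)) * (E.l ω₁).s j := by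
    intro ω₁ j
    fin_cases j
    · simp only [cov, Cbx.nn, Ry.pos, Fin.zero_eta, Fin.isValue, Matrix.cons_val_zero]
      ring
    · simp only [cov, Cbx.nn, Ry.pos, Fin.mk_one, Fin.isValue, Matrix.cons_val_one, Matrix.cons_val_fin_one]
      ring
  set K := q0 1 + (q0 2 * 2 ^ E.q) * (E.B0.κ + 2 * E.B0.α * T) with hKd
  have hκT : |E.B0.κ + 2 * E.B0.α * T| ≤ 3 / 8 := by
    have h1 : |2 * E.B0.α * T| ≤ 1 / 4 := by
      rw [abs_mul, abs_mul, abs_of_nonneg T0, abs_of_pos (by norm_num : (0 : ℝ) < 2)]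
      nlinarith [hS.α8, abs_nonneg E.B0.α]
    exact (abs_add_le _ _).trans (by linarith [hS.κ8])
  have hr : ∀ j : Fin 2, |-E.B0.κ * E.B0.v j - 2 * E.B0.α * ((E.l ω).pos T j - E.B0.p j)| ≤ 5 / 8 := by
    intro j
    have h1 : |-E.B0.κ * E.B0.v j| ≤ 1 / 8 := by
      rw [abs_mul, abs_neg]
      nlinarith [hS.κ8, abs_nonneg E.B0.κ, hS.v1 j, abs_nonneg (E.B0.v j)]
    have h3 : |2 * E.B0.α * ((E.l ω).pos T j - E.B0.p j)| ≤ 1 / 2 := by
      rw [abs_mul, abs_mul, abs_of_pos (by norm_num : (0 : ℝ) < 2)]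
      nlinarith [hS.α8, abs_nonneg E.B0.α, pos_ctr hS hω T0 T1 j, abs_nonneg ((E.l ω).pos T j - E.B0.p j)]
    exact (abs_sub _ _).trans (by linarith)
  have hK : 1 / 200 ≤ |K| := by
    refine K_real (s := Real.sin E.B0.θ) (c := Real.cos E.B0.θ)
      (r0 := -E.B0.κ * E.B0.v 0 - 2 * E.B0.α * ((E.l ω).pos T 0 - E.B0.p 0))
      (r1 := -E.B0.κ * E.B0.v 1 - 2 * E.B0.α * ((E.l ω).pos T 1 - E.B0.p 1))
      (a0 := (E.l ω).s 0) (a1 := (E.l ω).s 1) (π0 := q0 0) (π1 := q0 1) (π2 := q0 2) (M := q0 2 * 2 ^ E.q)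
      (κT := E.B0.κ + 2 * E.B0.α * T) (ρ := ρ) (Real.sin_sq_add_cos_sq _) (hr 0) (hr 1)
      ((hS.ok ω hω).1.2.1 0) ((hS.ok ω hω).1.2.1 1) hκT ?_ hKd hρ ?_ ?_ ?_
    · rw [abs_mul, abs_of_pos (by positivity : (0 : ℝ) < 2 ^ E.q)]
      exact le_mul_of_one_le_right (abs_nonneg _) h2E
    · have := a3 0
      rw [hcov ω 0] at this
      simpa using this
    · have := a3 1
      rw [hcov ω 1] at this
      simpa using this
    · obtain ⟨j, hj⟩ := a2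
      fin_cases j
      · exact Or.inl hj.ge
      · exact Or.inr (Or.inl hj.ge)
      · exact Or.inr (Or.inr hj.ge)
  have hdiff : K * ((E.l ω).s k - (E.l ω').s k) = (cov E q0 (E.l ω) k - cov E q0 (E.l ω') k) +
      (q0 2 * 2 ^ E.q) * (2 * E.B0.α * ((E.l ω).pos T k - (E.l ω').pos T k)) := by
    rw [hcov ω k, hcov ω' k]
    ring
  have hbd : |K * ((E.l ω).s k - (E.l ω').s k)| ≤ 2 * ρ + 8 * (2 ^ E.q * (1 / 2 : ℝ) ^ E.h) := by
    rw [hdiff]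
    have i1 : |cov E q0 (E.l ω) k - cov E q0 (E.l ω') k| ≤ 2 * ρ :=
      (abs_sub _ _).trans (by linarith [a3 k, b3 k])
    have i2 : |2 * E.B0.α * ((E.l ω).pos T k - (E.l ω').pos T k)| ≤ 8 * (1 / 2 : ℝ) ^ E.h := by
      rw [abs_mul, abs_mul, abs_of_pos (by norm_num : (0 : ℝ) < 2)]
      have j1 : 2 * |E.B0.α| ≤ 1 / 4 := by linarith [hS.α8]
      have := mul_le_mul j1 (hx k) (abs_nonneg _) (by norm_num)
      have hu : (0 : ℝ) < (1 / 2 : ℝ) ^ E.h := by positivity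
      linarith
    have i3 : |q0 2 * 2 ^ E.q| ≤ 2 ^ E.q := by
      rw [abs_mul, abs_of_pos (by positivity : (0 : ℝ) < 2 ^ E.q)]
      exact mul_le_of_le_one_left (by positivity) (a1 2)
    have i4 : |(q0 2 * 2 ^ E.q) * (2 * E.B0.α * ((E.l ω).pos T k - (E.l ω').pos T k))| ≤
        2 ^ E.q * (8 * (1 / 2 : ℝ) ^ E.h) := by
      rw [abs_mul]
      exact mul_le_mul i3 i2 (abs_nonneg _) (by positivity)
    refine (abs_add_le _ _).trans ?_
    linarith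
  rw [abs_mul] at hbd
  have hfin : |(E.l ω).s k - (E.l ω').s k| ≤ (1 / 2 : ℝ) ^ b := by
    have : 1 / 200 * |(E.l ω).s k - (E.l ω').s k| ≤ |K| * |(E.l ω).s k - (E.l ω').s k| :=
      mul_le_mul_of_nonneg_right hK (abs_nonneg _)
    linarith
  calc |(E.l ω).s k - (E.l ω').s k| * 2 ^ b ≤ (1 / 2 : ℝ) ^ b * 2 ^ b :=
        mul_le_mul_of_nonneg_right hfin (by positivity)
    _ = 1 := by
        rw [← mul_pow]
        norm_num
    _ = ((1 : ℕ) : ℝ) := by norm_num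

end env

end Vale.Agent.P106.U.H786
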