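import Vale.Agent.P106.U.H786.Adp
import Vale.Agent.P106.U.H786.E2
import Vale.Agent.P106.U.H489.PCls
import Vale.Agent.P106.U.H523.Lab

/-!
# P106 / U / H786 : two rays of one label in the coordinates of `U/Cell`; GROW for the velocity digits

* `FW θ a W t` : the functional of the label `W` (level `a`, block of `t`) as a `Cell.Fu`, written at the time `qa a t`;
  `FW_ka`, `FW_al` : its coefficients.
* `BC`, `box_close` : two rays of the same label: positions, velocities, null coordinate, value and derivative of `FW`.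
* `g_pair`, `gd_pair` : exact differences with the coefficients at both rays.
* `hc_plb_le` : `H(pl b (bl h l t) | Y) ≤ H(fl1 b v | Y) + 3 b log 2 + K` if `Y` determines `W` and `t_h`.
* `grow_v` : GROW for `fl1 b v` (`v = fw θ s`).
-/

set_option autoImplicit false

namespace Vale.Agent.P106.U.H786.Adp

open Finset Vale.Agent.P127 Vale.Agent.P127.Stk Vale.Agent.P127.U Vale.Agent.P106.W
open Vale.Agent.P106.K (Ry RyOk bl Bin pl plm)
open Vale.Agent.P122.C2 (fw fn)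
open Vale.Agent.P106.U.H786
open Vale.Agent.P106.U
open Vale.Agent.P127.U.CellD (rd rd_le lt_rd rd_err q2)

/-! ### the functional of a label -/

/-- the functional of the label `W` of level `a`, block of `t`, written at the rounded time -/
noncomputable def FW (θ : ℝ) (a : ℕ) (W : Cbx) (t : ℝ) : Cell.Fu := toF θ (qa a t) (fuW a W t)

theorem FW_ka (θ : ℝ) (a : ℕ) (W : Cbx) (t : ℝ) : (FW θ a W t).ka = -W.κ := by
  simp only [FW, toF, fuW, unlev, fuB]
  ring

theorem FW_al (θ : ℝ) (a : ℕ) (W : Cbx) (t : ℝ) : (FW θ a W t).al = 2 * W.α * 2 ^ a := by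
  simp only [FW, toF, fuW, unlev, fuB]
  ring

theorem FW_cN (θ : ℝ) (a : ℕ) (W : Cbx) (t : ℝ) (l : Ry) :
    (FW θ a W t).cN (toR θ l) (qa a t) = fn θ ((fuW a W t).cov l) := toF_cN _ _ _ _

theorem FW_cV (θ : ℝ) (a : ℕ) (W : Cbx) (t : ℝ) (l : Ry) :
    (FW θ a W t).cV (toR θ l) (qa a t) = -(fw θ ((fuW a W t).cov l)) := toF_cV _ _ _ _

theorem FW_congr {θ : ℝ} {a : ℕ} {W : Cbx} {t t' : ℝ} (h : qa a t = qa a t') : FW θ a W t = FW θ a W t' := by
  unfold FW fuW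
  rw [h]

/-- components of a small vector in the rotated frame -/
theorem fw_le (θ : ℝ) {d : Fin 2 → ℝ} {x : ℝ} (h : ∀ k, |d k| ≤ x) : |fw θ d| ≤ 2 * x := by
  have hc : |Real.cos θ| ≤ 1 := Real.abs_cos_le_one θ
  have hs : |Real.sin θ| ≤ 1 := Real.abs_sin_le_one θ
  simp only [fw]
  refine (abs_add_le _ _).trans ?_
  rw [abs_mul, abs_mul]
  have h0 := h 0
  have h1 := h 1
  nlinarith [abs_nonneg (d 0), abs_nonneg (d 1), abs_nonneg (Real.cos θ), abs_nonneg (Real.sin θ)]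

theorem fn_le (θ : ℝ) {d : Fin 2 → ℝ} {x : ℝ} (h : ∀ k, |d k| ≤ x) : |fn θ d| ≤ 2 * x := by
  have hc : |Real.cos θ| ≤ 1 := Real.abs_cos_le_one θ
  have hs : |Real.sin θ| ≤ 1 := Real.abs_sin_le_one θ
  simp only [fn]
  refine (abs_add_le _ _).trans ?_
  rw [abs_mul, abs_mul, abs_neg]
  have h0 := h 0
  have h1 := h 1
  nlinarith [abs_nonneg (d 0), abs_nonneg (d 1), abs_nonneg (Real.cos θ), abs_nonneg (Real.sin θ)]

theorem fw_sub (θ : ℝ) (u u' : Fin 2 → ℝ) : fw θ u - fw θ u' = fw θ (fun k => u k - u' k) := by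
  simp only [fw]; ring

theorem fn_sub (θ : ℝ) (u u' : Fin 2 → ℝ) : fn θ u - fn θ u' = fn θ (fun k => u k - u' k) := by
  simp only [fn]; ring

/-- two rays of one box -/
structure BC (c : ℝ) (a b R : ℕ) (F : Cell.Fu) (s : ℝ) (l l' : Cell.Ray) : Prop where
  X : |l'.X s - l.X s| ≤ 4 * c * (1 / 2 : ℝ) ^ (a + b)
  N : |l'.N s - l.N s| ≤ 4 * c * (1 / 2 : ℝ) ^ (a + b)
  v : |l'.v - l.v| ≤ 4 * c * (1 / 2 : ℝ) ^ b
  w : |l'.w - l.w| ≤ 4 * c * (1 / 2 : ℝ) ^ b
  dz : |l.dz l' s| ≤ 6 * c ^ 2 * (1 / 2 : ℝ) ^ (a + 2 * b)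
  g : |F.g l' s - F.g l s| ≤ 2 * c * (1 / 2 : ℝ) ^ (a + R)
  gd : |F.gd l' s - F.gd l s| ≤ 2 * c * (1 / 2 : ℝ) ^ R

theorem half_two (a b : ℕ) : (2 : ℝ) ^ a * (1 / 2 : ℝ) ^ (a + b) = (1 / 2 : ℝ) ^ b := by
  rw [pow_add, ← mul_assoc, ← mul_pow]
  norm_num

theorem div_two {a b : ℕ} {x y : ℝ} (h : 2 ^ a * |x| ≤ y * (1 / 2 : ℝ) ^ b) : |x| ≤ y * (1 / 2 : ℝ) ^ (a + b) := by
  have h2 : (0 : ℝ) < 2 ^ a := by positivity
  rw [← half_two a b] at h
  have : 2 ^ a * |x| ≤ 2 ^ a * (y * (1 / 2 : ℝ) ^ (a + b)) := by linarith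
  exact le_of_mul_le_mul_left this h2

/-- two rays of the same label -/
theorem box_close {c : ℝ} (hc : 1 ≤ c) (θ : ℝ) {a b R : ℕ} {W : Cbx} {l l' : Ry} {t t' : ℝ}
    (h2 : W.u2 = (1 / 2 : ℝ) ^ b) (h1 : W.u1 = (1 / 2 : ℝ) ^ R) (hl : Bin c W 0 (bl a l t))
    (hl' : Bin c W 0 (bl a l' t')) (ht : qa a t' = qa a t) :
    BC c a b R (FW θ a W t) (qa a t) (toR θ l) (toR θ l') := by
  have hu2 : 0 < (1 / 2 : ℝ) ^ b := by positivity
  obtain ⟨y1, s1, z1, g01, g11⟩ := hl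
  obtain ⟨y2, s2, z2, g02, g12⟩ := hl'
  rw [h2] at y1 s1 z1 y2 s2 z2
  rw [h1] at g01 g11 g02 g12
  have m0 : max (((1 / 2 : ℝ) ^ b) ^ 2) 0 = (1 / 2 : ℝ) ^ (2 * b) := by
    rw [max_eq_left (sq_nonneg _), ← pow_mul, mul_comm]
  rw [m0] at z1 z2
  have hy : ∀ k, |(bl a l' t').y k - (bl a l t).y k| ≤ 2 * c * (1 / 2 : ℝ) ^ b := by
    intro k
    have e : (bl a l' t').y k - (bl a l t).y k = ((bl a l' t').y k - W.p k) - ((bl a l t).y k - W.p k) := by ring
    rw [e]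
    exact (abs_sub _ _).trans (by linarith [y1 k, y2 k])
  have hs : ∀ k, |l'.s k - l.s k| ≤ 2 * c * (1 / 2 : ℝ) ^ b := by
    intro k
    have e : l'.s k - l.s k = (l'.s k - W.v k) - (l.s k - W.v k) := by ring
    rw [e]
    have := s1 k
    have := s2 k
    simp only [bl] at *
    exact (abs_sub _ _).trans (by linarith)
  have hyb : ∀ k, (bl a l' t').y k - (bl a l t).y k = 2 ^ a * (l'.pos (qa a t) k - l.pos (qa a t) k) := by
    intro k
    simp only [bl]
    rw [ht]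
    ring
  refine ⟨?_, ?_, ?_, ?_, ?_, ?_, ?_⟩
  · rw [toR_X, toR_X, fw_sub]
    refine div_two ?_
    rw [← abs_of_pos (by positivity : (0 : ℝ) < 2 ^ a), ← abs_mul]
    have e : 2 ^ a * fw θ (fun k => l'.pos (qa a t) k - l.pos (qa a t) k) =
        fw θ (fun k => (bl a l' t').y k - (bl a l t).y k) := by
      simp only [hyb, fw]
      ring
    rw [e]
    exact (fw_le θ hy).trans (by linarith)
  · rw [toR_N, toR_N, fn_sub]
    refine div_two ?_
    rw [← abs_of_pos (by positivity : (0 : ℝ) < 2 ^ a), ← abs_mul]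
    have e : 2 ^ a * fn θ (fun k => l'.pos (qa a t) k - l.pos (qa a t) k) =
        fn θ (fun k => (bl a l' t').y k - (bl a l t).y k) := by
      simp only [hyb, fn]
      ring
    rw [e]
    exact (fn_le θ hy).trans (by linarith)
  · show |fw θ l'.s - fw θ l.s| ≤ _
    rw [fw_sub]
    exact (fw_le θ hs).trans (by linarith)
  · show |fn θ l'.s - fn θ l.s| ≤ _
    rw [fn_sub]
    exact (fn_le θ hs).trans (by linarith)
  · have e := bl_dz θ a l l' t
    have hb' : bl a l' t = bl a l' t' := by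
      simp only [bl]
      rw [ht]
    rw [hb'] at e
    refine div_two ?_
    rw [← abs_of_pos (by positivity : (0 : ℝ) < 2 ^ a), ← abs_mul, ← e]
    have e2 : (bl a l' t').z + ∑ k, (bl a l' t').y k * ((bl a l' t').s k - (bl a l t).s k) - (bl a l t).z =
        ((bl a l' t').z + ∑ k, (bl a l' t').y k * ((bl a l' t').s k - W.v k) - W.ω) -
        ((bl a l t).z + ∑ k, (bl a l t).y k * ((bl a l t).s k - W.v k) - W.ω) -
        (((bl a l' t').y 0 - (bl a l t).y 0) * ((bl a l t).s 0 - W.v 0) +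
          ((bl a l' t').y 1 - (bl a l t).y 1) * ((bl a l t).s 1 - W.v 1)) := by
      simp only [Fin.sum_univ_two]
      ring
    rw [e2]
    have hk : ∀ k, |((bl a l' t').y k - (bl a l t).y k) * ((bl a l t).s k - W.v k)| ≤ 2 * c ^ 2 * (1 / 2 : ℝ) ^ (2 * b) := by
      intro k
      rw [abs_mul]
      have h3 := mul_le_mul (hy k) (s1 k) (abs_nonneg _) (by positivity)
      have h4 : 2 * c * (1 / 2 : ℝ) ^ b * (c * (1 / 2 : ℝ) ^ b) = 2 * c ^ 2 * (1 / 2 : ℝ) ^ (2 * b) := by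
        rw [two_mul b, pow_add]; ring
      linarith
    have hb2 : (0 : ℝ) < (1 / 2 : ℝ) ^ (2 * b) := by positivity
    refine (abs_sub _ _).trans ?_
    have t1 := abs_sub ((bl a l' t').z + ∑ k, (bl a l' t').y k * ((bl a l' t').s k - W.v k) - W.ω)
      ((bl a l t).z + ∑ k, (bl a l t).y k * ((bl a l t).s k - W.v k) - W.ω)
    have t2 := abs_add_le (((bl a l' t').y 0 - (bl a l t).y 0) * ((bl a l t).s 0 - W.v 0))
      (((bl a l' t').y 1 - (bl a l t).y 1) * ((bl a l t).s 1 - W.v 1))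
    have h0 := hk 0
    have h1' := hk 1
    have hcc : c * (1 / 2 : ℝ) ^ (2 * b) ≤ c ^ 2 * (1 / 2 : ℝ) ^ (2 * b) :=
      mul_le_mul_of_nonneg_right (by nlinarith) hb2.le
    linarith
  · have e1 := fuW_g θ a W t l
    have e2 := fuW_g θ a W t l'
    have hb' : bl a l' t = bl a l' t' := by
      simp only [bl]
      rw [ht]
    rw [hb'] at e2
    refine div_two ?_
    rw [← abs_of_pos (by positivity : (0 : ℝ) < 2 ^ a), ← abs_mul]
    have e3 : 2 ^ a * ((FW θ a W t).g (toR θ l') (qa a t) - (FW θ a W t).g (toR θ l) (qa a t)) =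
        W.g0 (bl a l' t').y (bl a l' t').s (bl a l' t').z - W.g0 (bl a l t).y (bl a l t).s (bl a l t).z := by
      rw [e1, e2]
      unfold FW
      ring
    rw [e3]
    exact (abs_sub _ _).trans (by
      have a1 : |W.g0 (bl a l t).y (bl a l t).s (bl a l t).z| ≤ c * (1 / 2 : ℝ) ^ R := g01
      have a2 : |W.g0 (bl a l' t').y (bl a l' t').s (bl a l' t').z| ≤ c * (1 / 2 : ℝ) ^ R := g02
      linarith)
  · have e1 := fuW_gd θ a W t l
    have e2 := fuW_gd θ a W t l'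
    have hb' : bl a l' t = bl a l' t' := by
      simp only [bl]
      rw [ht]
    rw [hb'] at e2
    have e3 : (FW θ a W t).gd (toR θ l') (qa a t) - (FW θ a W t).gd (toR θ l) (qa a t) =
        W.g1 (bl a l' t').y (bl a l' t').s (bl a l' t').z - W.g1 (bl a l t).y (bl a l t).s (bl a l t).z := by
      rw [e1, e2]
      unfold FW
      ring
    rw [e3]
    exact (abs_sub _ _).trans (by
      have a1 : |W.g1 (bl a l t).y (bl a l t).s (bl a l t).z| ≤ c * (1 / 2 : ℝ) ^ R := g11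
      have a2 : |W.g1 (bl a l' t').y (bl a l' t').s (bl a l' t').z| ≤ c * (1 / 2 : ℝ) ^ R := g12
      linarith)

/-! ### exact differences -/

theorem cN_sub (F : Cell.Fu) (l l' : Cell.Ray) (s : ℝ) :
    F.cN l' s = F.cN l s - F.ka * (l'.w - l.w) - F.al * (l'.N s - l.N s) := by
  unfold Cell.Fu.cN; ring

theorem cV_sub (F : Cell.Fu) (l l' : Cell.Ray) (s : ℝ) :
    F.cV l' s = F.cV l s + F.ka * (l'.v - l.v) + F.al * (l'.X s - l.X s) := by
  unfold Cell.Fu.cV; ring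

theorem g_pair (F : Cell.Fu) (l l' : Cell.Ray) (s : ℝ) :
    F.g l' s - F.g l s = (l'.N s - l.N s) * ((F.cN l s + F.cN l' s + F.ka * (l'.w - l.w)) / 2) -
      (l'.X s - l.X s) * ((F.cV l s + F.cV l' s - F.ka * (l'.v - l.v)) / 2) - F.ka * l.dz l' s := by
  rw [F.g_sub, cN_sub F l l', cV_sub F l l']
  ring

theorem gd_pair (F : Cell.Fu) (l l' : Cell.Ray) (s : ℝ) :
    F.gd l' s - F.gd l s = (l'.w - l.w) * (F.cN l' s + F.ka * (l'.w - l.w) / 2) -
      (l'.v - l.v) * (F.cV l' s - F.ka * (l'.v - l.v) / 2) + F.al * l.dz l' s := by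
  rw [F.gd_sub, cN_sub F l l', cV_sub F l l']
  ring

end Vale.Agent.P106.U.H786.Adp
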