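import Vale.Agent.P106.U.H459.End7Defs

/-!
# P106 / U / H786 : labels from cells (END7)

* `Fu` : functional (covector `e`, `κ`, `α`), uncentred; `v0`, `v1` value at the time `0` and slope on a ray, `cov` covector at
  a ray, `len` its length, `lev a T` the same functional in the block of level `a` which begins at the time `T`.
* `Close c u1 u2 F l l'` : the ray `l` is in the box of functional `F`, widths `u1, u2`, class `c`, centred at the ray `l'`.
* `lab_cell` : LAB for a cell `D` (any variable) : if two outcomes with the same value of `D` are `Close` at the level `a`, then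
  `H(l | D, t_a) + 3 a + (3 + lam) b + (1 - lam) R ≤ vh - β (h - a) + k (b + |R - q|) + μ`.
* `fuB` : the functional of a box.  `pE1` : `I(l; Zh h) ≤ (3 - β) h + μ + log 2`.
-/

set_option autoImplicit false

namespace Vale.Agent.P106.U.H786

open Finset Vale.Agent.P127 Vale.Agent.P127.Stk Vale.Agent.P127.U Vale.Agent.P127.U.CellD Vale.Agent.P106.W
open Vale.Agent.P106.K (Ry RyOk bl Bin)
open Vale.Agent.P122.C2 (fw fn)
open Vale.Agent.P106.U.End7

/-- a functional `e·x + κ z0 - α (|x|^2 - 2 t z0)` -/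
structure Fu where
  e : Fin 2 → ℝ
  κ : ℝ
  α : ℝ

namespace Fu

variable (F : Fu)

/-- value at the time `0` -/
def v0 (l : Ry) : ℝ := (∑ k, F.e k * l.y k) + F.κ * (l.z + ∑ k, l.y k * l.s k) - F.α * ∑ k, l.y k ^ 2

/-- slope -/
noncomputable def v1 (l : Ry) : ℝ := (∑ k, F.e k * l.s k) + F.κ * (∑ k, l.s k ^ 2) / 2 + 2 * F.α * l.z

/-- covector at a ray -/
def cov (l : Ry) : Fin 2 → ℝ := fun k => F.e k + F.κ * l.s k - 2 * F.α * l.y k

/-- its length -/
noncomputable def len (l : Ry) : ℝ := Real.sqrt (F.cov l 0 ^ 2 + F.cov l 1 ^ 2)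

/-- the functional in the block of level `a` which begins at the time `T` -/
noncomputable def lev (a : ℕ) (T : ℝ) : Fu := ⟨F.e, F.κ + 2 * F.α * T, F.α / 2 ^ a⟩

theorem v0_sub (l l' : Ry) : F.v0 l - F.v0 l' =
    (∑ k, F.cov l' k * (l.y k - l'.y k)) + F.κ * (l.z + ∑ k, l.y k * (l.s k - l'.s k) - l'.z) -
      F.α * ∑ k, (l.y k - l'.y k) ^ 2 := by
  simp only [v0, cov, Fin.sum_univ_two]
  ring

theorem v1_sub (l l' : Ry) : F.v1 l - F.v1 l' =
    (∑ k, F.cov l' k * (l.s k - l'.s k)) + F.κ * (∑ k, (l.s k - l'.s k) ^ 2) / 2 +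
      2 * F.α * (l.z + ∑ k, l'.y k * (l.s k - l'.s k) - l'.z) := by
  simp only [v1, cov, Fin.sum_univ_two]
  ring

theorem lev_v0 (a : ℕ) (l : Ry) (t : ℝ) :
    (F.lev a (qa a t)).v0 (bl a l t) = 2 ^ a * (F.v0 l + qa a t * F.v1 l) := by
  have h : (2 : ℝ) ^ a ≠ 0 := by positivity
  simp only [v0, v1, lev, bl, Ry.pos, Fin.sum_univ_two]
  field_simp
  ring

theorem lev_v1 (a : ℕ) (l : Ry) (t : ℝ) : (F.lev a (qa a t)).v1 (bl a l t) = F.v1 l := by
  have h : (2 : ℝ) ^ a ≠ 0 := by positivity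
  simp only [v1, lev, bl, Fin.sum_univ_two]
  field_simp
  ring

theorem lev_cov (a : ℕ) (l : Ry) (t : ℝ) (k : Fin 2) : (F.lev a (qa a t)).cov (bl a l t) k = F.cov l k := by
  have h : (2 : ℝ) ^ a ≠ 0 := by positivity
  simp only [cov, lev, bl, Ry.pos]
  field_simp
  ring

theorem lev_len (a : ℕ) (l : Ry) (t : ℝ) : (F.lev a (qa a t)).len (bl a l t) = F.len l := by
  unfold len
  rw [lev_cov, lev_cov]

/-- the box of functional `F` centred at the ray `l'` -/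
noncomputable def box (u1 u2 : ℝ) (l' : Ry) : Cbx where
  θ := Complex.arg ⟨F.cov l' 1, -F.cov l' 0⟩
  u1 := u1
  u2 := u2
  κ := F.κ / F.len l'
  α := F.α / F.len l'
  p := l'.y
  v := l'.s
  ω := l'.z

theorem ang (l' : Ry) (h : 0 < F.len l') (u1 u2 : ℝ) :
    F.cov l' 0 = -(F.len l' * Real.sin (F.box u1 u2 l').θ) ∧
      F.cov l' 1 = F.len l' * Real.cos (F.box u1 u2 l').θ := by
  have hne : (⟨F.cov l' 1, -F.cov l' 0⟩ : ℂ) ≠ 0 := by
    intro h0
    have h1 := congrArg Complex.re h0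
    have h2 := congrArg Complex.im h0
    simp only [Complex.zero_re, Complex.zero_im] at h1 h2
    have h3 : F.cov l' 0 = 0 := by linarith
    unfold len at h
    rw [h3, h1] at h
    norm_num at h
  have hn : ‖(⟨F.cov l' 1, -F.cov l' 0⟩ : ℂ)‖ = F.len l' := by
    rw [Complex.norm_def, Complex.normSq_mk]
    unfold len
    congr 1
    ring
  constructor
  · simp only [box]
    rw [Complex.sin_arg, hn]
    field_simp
  · simp only [box]
    rw [Complex.cos_arg hne, hn]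
    field_simp

end Fu

/-- the ray `l` is in the box of functional `F` centred at `l'`, class `c` -/
structure Close (c u1 u2 : ℝ) (F : Fu) (l l' : Ry) : Prop where
  y : ∀ k, |l.y k - l'.y k| ≤ c * u2
  s : ∀ k, |l.s k - l'.s k| ≤ c * u2
  z : |l.z + ∑ k, l.y k * (l.s k - l'.s k) - l'.z| ≤ c * u2 ^ 2
  v0 : |F.v0 l - F.v0 l'| ≤ c * F.len l' * u1
  v1 : |F.v1 l - F.v1 l'| ≤ c * F.len l' * u1
  pos : 0 < F.len l'
  α : |F.α| * u2 ≤ c * F.len l'
  κ : |F.κ| * u2 ≤ c * F.len l'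

/-- the ray is in the box -/
theorem Close.bin {c u1 u2 : ℝ} {F : Fu} {l l' : Ry} (h : Close c u1 u2 F l l') :
    |(F.box u1 u2 l').α| * (F.box u1 u2 l').u2 ≤ c ∧ |(F.box u1 u2 l').κ| * (F.box u1 u2 l').u2 ≤ c ∧
      Bin c (F.box u1 u2 l') 0 l := by
  have hL := h.pos
  obtain ⟨a0, a1⟩ := F.ang l' hL u1 u2
  have hdiv : ∀ x b : ℝ, |x| ≤ c * F.len l' * b → |x / F.len l'| ≤ c * b := by
    intro x b hx
    rw [abs_div, abs_of_pos hL, div_le_iff₀ hL]
    linarith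
  refine ⟨?_, ?_, h.y, h.s, ?_, ?_, ?_⟩
  · simp only [Fu.box]
    rw [abs_div, abs_of_pos hL, div_mul_eq_mul_div, div_le_iff₀ hL]
    exact h.α
  · simp only [Fu.box]
    rw [abs_div, abs_of_pos hL, div_mul_eq_mul_div, div_le_iff₀ hL]
    exact h.κ
  · refine h.z.trans ?_
    simp only [Fu.box]
    rw [max_eq_left (sq_nonneg _)]
  · have e := F.v0_sub l l'
    have : fn (F.box u1 u2 l').θ (l.y - (F.box u1 u2 l').p) +
        (F.box u1 u2 l').κ * (l.z + ∑ k, l.y k * (l.s k - (F.box u1 u2 l').v k) - (F.box u1 u2 l').ω) -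
        (F.box u1 u2 l').α * ∑ k, (l.y k - (F.box u1 u2 l').p k) ^ 2 = (F.v0 l - F.v0 l') / F.len l' := by
      rw [e, eq_div_iff hL.ne']
      simp only [Fin.sum_univ_two, a0, a1, fn, Pi.sub_apply]
      simp only [Fu.box]
      field_simp
    rw [this]
    exact hdiv _ _ h.v0
  · have e := F.v1_sub l l'
    have : fn (F.box u1 u2 l').θ (l.s - (F.box u1 u2 l').v) +
        (F.box u1 u2 l').κ * (∑ k, (l.s k - (F.box u1 u2 l').v k) ^ 2) / 2 +
        2 * (F.box u1 u2 l').α * (l.z + ∑ k, (F.box u1 u2 l').p k * (l.s k - (F.box u1 u2 l').v k) -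
          (F.box u1 u2 l').ω) = (F.v1 l - F.v1 l') / F.len l' := by
      rw [e, eq_div_iff hL.ne']
      simp only [Fin.sum_univ_two, a0, a1, fn, Pi.sub_apply]
      simp only [Fu.box]
      field_simp
    rw [this]
    exact hdiv _ _ h.v1

section lab

variable {Ω : Type} [Fintype Ω] {E : Env Ω} {p : Par} {P : Law Ω} {μ : ℝ}

/-- **LAB for a cell** -/
theorem lab_cell (hL : E.Lab p P μ) (a b R : ℕ) (ha : a ≤ E.h) (hbR : b ≤ R) (haR : a + R ≤ E.L) {δ : Type}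
    (D : Ω → δ) (F : δ → Fu)
    (h : ∀ ω ω', 0 < P.w ω → 0 < P.w ω' → D ω = D ω' →
      Close p.c ((1 / 2 : ℝ) ^ R) ((1 / 2 : ℝ) ^ b) (F (D ω)) (bl a (E.l ω) (E.t ω)) (bl a (E.l ω') (E.t ω'))) :
    Stk.hc P E.l (fun ω => (D ω, fl1 a (E.t ω))) +
        (3 * a + (3 + p.lam) * b + (1 - p.lam) * R) * Real.log 2 ≤
      E.vh p.lam P - p.β * (E.h - a) * Real.log 2 + p.k * (b + |(R : ℝ) - E.q|) * Real.log 2 + μ := by
  classical
  -- representatives
  have hrep : ∃ r : δ → Ω, ∀ ω, 0 < P.w ω → 0 < P.w (r (D ω)) ∧ D (r (D ω)) = D ω := by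
    have hex : ∃ ω, 0 < P.w ω := by
      by_contra hcon
      push Not at hcon
      have : ∑ ω, P.w ω ≤ 0 := Finset.sum_nonpos fun ω _ => hcon ω
      rw [P.sum_one] at this
      linarith
    obtain ⟨ω0, _⟩ := hex
    refine ⟨fun d => if hd : ∃ ω, 0 < P.w ω ∧ D ω = d then hd.choose else ω0, fun ω hω => ?_⟩
    have hd : ∃ ω', 0 < P.w ω' ∧ D ω' = D ω := ⟨ω, hω, rfl⟩
    simp only [dif_pos hd]
    exact hd.choose_spec
  obtain ⟨r, hr⟩ := hrep
  let A : Ω → Cbx := fun ω =>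
    (F (D ω)).box ((1 / 2 : ℝ) ^ R) ((1 / 2 : ℝ) ^ b) (bl a (E.l (r (D ω))) (E.t (r (D ω))))
  have hA : ∀ ω, 0 < P.w ω → Close p.c ((1 / 2 : ℝ) ^ R) ((1 / 2 : ℝ) ^ b) (F (D ω))
      (bl a (E.l ω) (E.t ω)) (bl a (E.l (r (D ω))) (E.t (r (D ω)))) := fun ω hω =>
    h ω (r (D ω)) hω (hr ω hω).1 (hr ω hω).2.symm
  have hmain := hL a b R ha hbR haR Ω inferInstance P id A (fun ω => by rw [pr_id]) (fun ω hω => by
    have hb := (hA ω hω).bin
    exact ⟨rfl, rfl, hb.1, hb.2.1, hb.2.2⟩)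
  have hmono : Stk.hc P E.l (fun ω => (D ω, fl1 a (E.t ω))) ≤
      Stk.hc P (fun ω => E.l (id ω)) (fun ω => (A ω, fl1 a (E.t (id ω)))) := by
    refine hc_mono_right P E.l ?_
    intro ω ω' _ _ e
    simp only [Prod.mk.injEq] at e
    simp only [Prod.mk.injEq, id]
    refine ⟨?_, e.2⟩
    simp only [A]
    rw [e.1]
  linarith

end lab

/-! ### the functional of a box -/

/-- the functional of a box -/
noncomputable def fuB (B : Cbx) : Fu where
  e := ![-Real.sin B.θ - B.κ * B.v 0 + 2 * B.α * B.p 0, Real.cos B.θ - B.κ * B.v 1 + 2 * B.α * B.p 1]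
  κ := B.κ
  α := B.α

/-- the centre of a box -/
def ctr (B : Cbx) : Ry := ⟨B.p, B.v, B.ω⟩

theorem fuB_v0 (B : Cbx) (l : Ry) : B.g0 l.y l.s l.z = (fuB B).v0 l - (fuB B).v0 (ctr B) := by
  simp [Cbx.g0, Fu.v0, fuB, ctr, fn, Fin.sum_univ_two]
  ring

theorem fuB_v1 (B : Cbx) (l : Ry) : B.g1 l.y l.s l.z = (fuB B).v1 l - (fuB B).v1 (ctr B) := by
  simp [Cbx.g1, Fu.v1, fuB, ctr, fn, Fin.sum_univ_two]
  ring

theorem fuB_cov (B : Cbx) (l : Ry) : (fuB B).cov l = B.nn l.y l.s := by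
  funext k
  fin_cases k
  · simp [Fu.cov, fuB, Cbx.nn]; ring
  · simp [Fu.cov, fuB, Cbx.nn]; ring

/-- the covector of the slab at its rays -/
theorem fuB_len {Ω : Type} [Fintype Ω] {E : Env Ω} {P : Law Ω} (hS : E.Supp P) {ω : Ω} (hω : 0 < P.w ω) :
    2 / 5 ≤ (fuB E.B0).len (E.l ω) ∧ (fuB E.B0).len (E.l ω) ≤ 8 / 5 := by
  have hin := hS.inn ω hω
  have hu1 : E.B0.u1 ≤ 1 := by
    rw [hS.u1]
    exact pow_le_one₀ (by norm_num) (by norm_num)
  have hu1' : 0 ≤ E.B0.u1 := by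
    rw [hS.u1]
    positivity
  have hok : E.B0.ok (1 / 8) E.B0.u1 0 := by
    refine ⟨le_rfl, ?_, hS.u2.le, ?_, ?_, by simpa using hu1', by simpa using hu1'⟩
    · rw [hS.u2]; exact hu1
    · rw [hS.u2, mul_one]; exact hS.α8
    · rw [hS.u2, mul_one]; exact hS.κ8
  obtain ⟨L, θ', h1, h2, h3, h4⟩ := Cbx.nn_len hok le_rfl (E.l ω).y (E.l ω).s hin.1 hin.2.1
  have hL : (fuB E.B0).len (E.l ω) = L := by
    unfold Fu.len
    rw [fuB_cov, h3, h4]
    have : (-(L * Real.sin θ')) ^ 2 + (L * Real.cos θ') ^ 2 = L ^ 2 := by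
      have := Real.sin_sq_add_cos_sq θ'
      linear_combination L ^ 2 * this
    rw [this]
    exact Real.sqrt_sq (by linarith)
  rw [hL]
  exact ⟨h1, h2⟩

end Vale.Agent.P106.U.H786
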