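import Vale.Agent.P106.U.Cell
import Vale.Agent.P106.U.H786.Cell

/-!
# P106 / U / H786 : from the rays and boxes of the class (K.Ry, Cbx) to the rays and functionals of `U/Cell` (helper101)

* `toR θ l` : the ray in the coordinates rotated by `θ` (`x, v` along `(cos θ, sin θ)`, `n, w` along `(-sin θ, cos θ)`,
  `z` = height).
* `toR_X`, `toR_N`, `toR_Z` : positions and height; `toR_dz` : null coordinate = adapted coordinate; `bl_dz` : in the block.
* `toF θ s F` : the functional (`H786.Fu`) written at the time `s`; `toF_g`, `toF_gd`, `toF_cN`, `toF_cV`, `toF_sh`.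
* `toR_inj` : the rotation is injective.
-/

set_option autoImplicit false

namespace Vale.Agent.P106.U.H786.Adp

open Finset Vale.Agent.P127 Vale.Agent.P127.Stk Vale.Agent.P127.U Vale.Agent.P106.W
open Vale.Agent.P106.K (Ry RyOk bl Bin)
open Vale.Agent.P122.C2 (fw fn)
open Vale.Agent.P106.U.H786
open Vale.Agent.P106.U

/-- the ray in rotated coordinates -/
noncomputable def toR (θ : ℝ) (l : Ry) : Cell.Ray where
  x := fw θ l.y
  n := fn θ l.y
  z := l.z + ∑ k, l.y k * l.s k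
  v := fw θ l.s
  w := fn θ l.s

theorem norm_sq (θ : ℝ) (u : Fin 2 → ℝ) : fw θ u ^ 2 + fn θ u ^ 2 = u 0 ^ 2 + u 1 ^ 2 := by
  simp only [fw, fn]
  linear_combination (u 0 ^ 2 + u 1 ^ 2) * Real.sin_sq_add_cos_sq θ

theorem dot (θ : ℝ) (u v : Fin 2 → ℝ) : fw θ u * fw θ v + fn θ u * fn θ v = u 0 * v 0 + u 1 * v 1 := by
  simp only [fw, fn]
  linear_combination (u 0 * v 0 + u 1 * v 1) * Real.sin_sq_add_cos_sq θ

theorem toR_X (θ : ℝ) (l : Ry) (s : ℝ) : (toR θ l).X s = fw θ (l.pos s) := by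
  simp only [Cell.Ray.X, toR, fw, Ry.pos]
  ring

theorem toR_N (θ : ℝ) (l : Ry) (s : ℝ) : (toR θ l).N s = fn θ (l.pos s) := by
  simp only [Cell.Ray.N, toR, fn, Ry.pos]
  ring

theorem toR_Z (θ : ℝ) (l : Ry) (s : ℝ) : (toR θ l).Z s = l.hgt s := by
  have h := norm_sq θ l.s
  simp only [Cell.Ray.Z, toR, Ry.hgt, Fin.sum_univ_two] at h ⊢
  rw [h]
  ring

/-- null coordinate of `l'` centred at `l` -/
theorem toR_dz (θ : ℝ) (l l' : Ry) (s : ℝ) : (toR θ l).dz (toR θ l') s =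
    l'.hgt s - l.hgt s - ∑ k, l.s k * (l'.pos s k - l.pos s k) := by
  have h := dot θ l.s (fun k => l'.pos s k - l.pos s k)
  simp only [Cell.Ray.dz, toR_X, toR_N, toR_Z, Fin.sum_univ_two]
  simp only [toR]
  have e1 : fw θ (fun k => l'.pos s k - l.pos s k) = fw θ (l'.pos s) - fw θ (l.pos s) := by
    simp only [fw]; ring
  have e2 : fn θ (fun k => l'.pos s k - l.pos s k) = fn θ (l'.pos s) - fn θ (l.pos s) := by
    simp only [fn]; ring
  rw [e1, e2] at h
  linear_combination -h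

/-- adapted coordinate in the block = null coordinate -/
theorem bl_dz (θ : ℝ) (a : ℕ) (l l' : Ry) (t : ℝ) :
    (bl a l' t).z + ∑ k, (bl a l' t).y k * ((bl a l' t).s k - (bl a l t).s k) - (bl a l t).z =
      2 ^ a * (toR θ l).dz (toR θ l') (qa a t) := by
  rw [toR_dz]
  simp only [bl, Ry.pos, Ry.hgt, Fin.sum_univ_two]
  ring

/-- positions in the block -/
theorem bl_X (θ : ℝ) (a : ℕ) (l : Ry) (t : ℝ) : fw θ (bl a l t).y = 2 ^ a * (toR θ l).X (qa a t) := by
  rw [toR_X]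
  simp only [bl, fw]
  ring

theorem bl_N (θ : ℝ) (a : ℕ) (l : Ry) (t : ℝ) : fn θ (bl a l t).y = 2 ^ a * (toR θ l).N (qa a t) := by
  rw [toR_N]
  simp only [bl, fn]
  ring

/-- the rotation is injective -/
theorem toR_inj {θ : ℝ} {l l' : Ry} (h : toR θ l = toR θ l') : l = l' := by
  have hx := congrArg Cell.Ray.x h
  have hn := congrArg Cell.Ray.n h
  have hz := congrArg Cell.Ray.z h
  have hv := congrArg Cell.Ray.v h
  have hw := congrArg Cell.Ray.w h
  simp only [toR] at hx hn hz hv hw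
  have inv : ∀ u u' : Fin 2 → ℝ, fw θ u = fw θ u' → fn θ u = fn θ u' → u = u' := by
    intro u u' h1 h2
    simp only [fw, fn] at h1 h2
    have hs := Real.sin_sq_add_cos_sq θ
    funext k
    fin_cases k
    · show u 0 = u' 0
      linear_combination Real.cos θ * h1 - Real.sin θ * h2 + (u' 0 - u 0) * hs
    · show u 1 = u' 1
      linear_combination Real.sin θ * h1 + Real.cos θ * h2 + (u' 1 - u 1) * hs
  have hy := inv _ _ hx hn
  have hs := inv _ _ hv hw
  rw [hy, hs] at hz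
  have hz' : l.z = l'.z := by linarith
  cases l
  cases l'
  simp only at hy hs hz'
  subst hy hs hz'
  rfl

/-! ### functionals -/

/-- the functional written at the time `s` -/
noncomputable def toF (θ s : ℝ) (F : Fu) : Cell.Fu :=
  ⟨fn θ F.e, -(fw θ F.e), -(F.κ + 2 * F.α * s), 2 * F.α⟩

theorem toF_sh (θ s d : ℝ) (F : Fu) : (toF θ s F).sh d = toF θ (s + d) F := by
  simp only [toF, Cell.Fu.sh, Cell.Fu.mk.injEq, true_and, and_true]
  ring

/-- value -/
theorem toF_g (θ s : ℝ) (F : Fu) (l : Ry) : (toF θ s F).g (toR θ l) s = F.v0 l + s * F.v1 l := by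
  have h1 := norm_sq θ (l.pos s)
  have h2 := dot θ F.e (l.pos s)
  simp only [Cell.Fu.g, toR_X, toR_N, toR_Z]
  have e : F.v0 l + s * F.v1 l = (F.e 0 * l.pos s 0 + F.e 1 * l.pos s 1) + (F.κ + 2 * F.α * s) * l.hgt s -
      F.α * (l.pos s 0 ^ 2 + l.pos s 1 ^ 2) := by
    simp only [Fu.v0, Fu.v1, Ry.pos, Ry.hgt, Fin.sum_univ_two]
    ring
  rw [e]
  simp only [toF]
  linear_combination h2 - F.α * h1

/-- derivative -/
theorem toF_gd (θ s : ℝ) (F : Fu) (l : Ry) : (toF θ s F).gd (toR θ l) s = F.v1 l := by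
  have h1 := norm_sq θ l.s
  have h2 := dot θ F.e l.s
  have h3 := dot θ (l.pos s) l.s
  simp only [Cell.Fu.gd, toR_X, toR_N, toR_Z]
  have e : F.v1 l = (F.e 0 * l.s 0 + F.e 1 * l.s 1) + (F.κ + 2 * F.α * s) * ((l.s 0 ^ 2 + l.s 1 ^ 2) / 2) -
      2 * F.α * (l.pos s 0 * l.s 0 + l.pos s 1 * l.s 1 - l.hgt s) := by
    simp only [Fu.v1, Ry.pos, Ry.hgt, Fin.sum_univ_two]
    ring
  rw [e]
  simp only [toF, toR]
  linear_combination h2 + (F.κ + 2 * F.α * s) / 2 * h1 - 2 * F.α * h3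

/-- N-coefficient centred at the ray -/
theorem toF_cN (θ s : ℝ) (F : Fu) (l : Ry) : (toF θ s F).cN (toR θ l) s = fn θ (F.cov l) := by
  unfold Cell.Fu.cN
  rw [toR_N]
  simp only [toF, toR, Fu.cov, fn, Ry.pos]
  ring

/-- V-coefficient centred at the ray -/
theorem toF_cV (θ s : ℝ) (F : Fu) (l : Ry) : (toF θ s F).cV (toR θ l) s = -(fw θ (F.cov l)) := by
  unfold Cell.Fu.cV
  rw [toR_X]
  simp only [toF, toR, Fu.cov, fw, Ry.pos]
  ring

/-- value and slope in the block of level `a` (functional `F.lev`) -/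
theorem lev_g (θ : ℝ) (a : ℕ) (F : Fu) (l : Ry) (t : ℝ) :
    (F.lev a (qa a t)).v0 (bl a l t) = 2 ^ a * (toF θ (qa a t) F).g (toR θ l) (qa a t) := by
  rw [Fu.lev_v0, toF_g]

theorem lev_gd (θ : ℝ) (a : ℕ) (F : Fu) (l : Ry) (t : ℝ) :
    (F.lev a (qa a t)).v1 (bl a l t) = (toF θ (qa a t) F).gd (toR θ l) (qa a t) := by
  rw [Fu.lev_v1, toF_gd]

/-- a functional given in the coordinates of the block of level `a` which begins at the time `T`, in absolute coordinates -/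
noncomputable def unlev (a : ℕ) (T : ℝ) (G : Fu) : Fu := ⟨G.e, G.κ - 2 * (G.α * 2 ^ a) * T, G.α * 2 ^ a⟩

theorem lev_unlev (a : ℕ) (T : ℝ) (G : Fu) : (unlev a T G).lev a T = G := by
  have h : (2 : ℝ) ^ a ≠ 0 := by positivity
  cases G
  simp only [unlev, Fu.lev, Fu.mk.injEq, true_and]
  refine ⟨by ring, by field_simp⟩

/-- absolute functional of a box of level `a` of the ray `l` at the time `t` -/
noncomputable def fuW (a : ℕ) (W : Cbx) (t : ℝ) : Fu := unlev a (qa a t) (fuB W)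

/-- value of the slab functional of the box on a ray `l'` (block of `t`) -/
theorem fuW_g (θ : ℝ) (a : ℕ) (W : Cbx) (t : ℝ) (l' : Ry) :
    W.g0 (bl a l' t).y (bl a l' t).s (bl a l' t).z =
      2 ^ a * (toF θ (qa a t) (fuW a W t)).g (toR θ l') (qa a t) - (fuB W).v0 (ctr W) := by
  rw [fuB_v0, ← lev_g, fuW, lev_unlev]

theorem fuW_gd (θ : ℝ) (a : ℕ) (W : Cbx) (t : ℝ) (l' : Ry) :
    W.g1 (bl a l' t).y (bl a l' t).s (bl a l' t).z =
      (toF θ (qa a t) (fuW a W t)).gd (toR θ l') (qa a t) - (fuB W).v1 (ctr W) := by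
  rw [fuB_v1, ← lev_gd, fuW, lev_unlev]

/-- covector of the box at a ray -/
theorem fuW_cov (a : ℕ) (W : Cbx) (t : ℝ) (l' : Ry) (k : Fin 2) :
    (fuW a W t).cov l' k = W.nn (bl a l' t).y (bl a l' t).s k := by
  have h := Fu.lev_cov (fuW a W t) a l' t k
  rw [fuW, lev_unlev] at h
  rw [fuW, ← h, fuB_cov]

end Vale.Agent.P106.U.H786.Adp
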