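import Vale.Agent.P106.U.H786.Adp2
import Vale.Agent.P106.U.H480.Gro

/-!
# P106 / U / H786 : GROW for the velocity digits along a fixed direction

* `dN_le`, `dw_le` : real estimates from `g_pair`, `gd_pair`.
* `hc_plb_le` : `H(plb b h l t | Y) ≤ H(fl1 b v | Y) + 3 b log 2 + K` if `Y` determines `W` and `fl1 h t`
  (`v = fw θ s`, shape of `W` : `(0; q)`, `b ≤ q`, transversality `1 ≤ K0 * fn θ cov`).
* `grow_v` : GROW for `fl1 b v`.
-/

set_option autoImplicit false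

namespace Vale.Agent.P106.U.H786.Adp

open Finset Vale.Agent.P127 Vale.Agent.P127.Stk Vale.Agent.P127.U Vale.Agent.P106.W
open Vale.Agent.P106.K (Ry RyOk bl Bin pl plm)
open Vale.Agent.P122.C2 (fw fn)
open Vale.Agent.P106.U.H786
open Vale.Agent.P106.U
open Vale.Agent.P127.U.CellD (rd rd_le lt_rd rd_err)

/-! ### real estimates -/

theorem dN_le {K0 c C1 η G D Z0 dN dw dX dz dg dv cN cN' cV cV' ka : ℝ} (hK : 0 ≤ K0) (hc : 0 ≤ c)
    (h1 : 1 ≤ K0 * cN) (h2 : 1 ≤ K0 * cN') (hη : 3 * c * η * K0 ≤ 1) (hw : |dw| ≤ η) (hka : |ka| ≤ c)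
    (hV : |cV| ≤ C1) (hV' : |cV'| ≤ C1) (hv : |dv| ≤ 1) (hG : |dg| ≤ G) (hX : |dX| ≤ D)
    (hz : |dz| ≤ Z0 + η * |dN|)
    (he : dg = dN * ((cN + cN' + ka * dw) / 2) - dX * ((cV + cV' - ka * dv) / 2) - ka * dz) :
    |dN| ≤ 2 * K0 * (G + (C1 + c / 2) * D + c * Z0) := by
  have hD : 0 ≤ D := (abs_nonneg _).trans hX
  have hkw : |ka * dw| ≤ c * η := by
    rw [abs_mul]
    exact mul_le_mul hka hw (abs_nonneg _) hc
  have hkv : |ka * dv| ≤ c := by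
    rw [abs_mul]
    calc |ka| * |dv| ≤ c * 1 := mul_le_mul hka hv (abs_nonneg _) hc
      _ = c := mul_one c
  have hkz : |ka * dz| ≤ c * (Z0 + η * |dN|) := by
    rw [abs_mul]
    exact mul_le_mul hka hz (abs_nonneg _) hc
  have hM : |dX * ((cV + cV' - ka * dv) / 2)| ≤ D * (C1 + c / 2) := by
    rw [abs_mul]
    refine mul_le_mul hX ?_ (abs_nonneg _) hD
    rw [abs_div, abs_of_pos (by norm_num : (0 : ℝ) < 2)]
    have e1 := abs_sub (cV + cV') (ka * dv)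
    have e2 := abs_add_le cV cV'
    linarith
  have e3 : dN * ((cN + cN' + ka * dw) / 2) = dg + dX * ((cV + cV' - ka * dv) / 2) + ka * dz := by rw [he]; ring
  have e4 : |dN * ((cN + cN' + ka * dw) / 2)| ≤ G + D * (C1 + c / 2) + c * (Z0 + η * |dN|) := by
    rw [e3]
    have t1 := abs_add_le (dg + dX * ((cV + cV' - ka * dv) / 2)) (ka * dz)
    have t2 := abs_add_le dg (dX * ((cV + cV' - ka * dv) / 2))
    linarith
  have e5 : 1 - K0 * (c * η) / 2 ≤ K0 * ((cN + cN' + ka * dw) / 2) := by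
    have := abs_le.1 hkw
    nlinarith [mul_le_mul_of_nonneg_left this.1 hK]
  have e6 : |dN| * (1 - K0 * (c * η) / 2) ≤ K0 * |dN * ((cN + cN' + ka * dw) / 2)| := by
    rw [abs_mul]
    have t1 : 1 - K0 * (c * η) / 2 ≤ K0 * |(cN + cN' + ka * dw) / 2| :=
      e5.trans (mul_le_mul_of_nonneg_left (le_abs_self _) hK)
    have := mul_le_mul_of_nonneg_left t1 (abs_nonneg dN)
    linarith
  have e7 := mul_le_mul_of_nonneg_left e4 hK
  have e8 : K0 * (c * η) ≤ 1 / 3 := by linarith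
  have e9 := mul_le_mul_of_nonneg_right e8 (abs_nonneg dN)
  linarith

theorem dw_le {K0 c C1 η G V A dw dv dz dgd cN' cV' ka al : ℝ} (hK : 0 ≤ K0) (hc : 0 ≤ c)
    (h2 : 1 ≤ K0 * cN') (hη : 3 * c * η * K0 ≤ 1) (hw : |dw| ≤ η) (hka : |ka| ≤ c)
    (hV' : |cV'| ≤ C1) (hv1 : |dv| ≤ 1) (hv : |dv| ≤ V) (hG : |dgd| ≤ G) (hz : |al * dz| ≤ A)
    (he : dgd = dw * (cN' + ka * dw / 2) - dv * (cV' - ka * dv / 2) + al * dz) :
    |dw| ≤ 2 * K0 * (G + (C1 + c / 2) * V + A) := by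
  have hV0 : 0 ≤ V := (abs_nonneg _).trans hv
  have hkw : |ka * dw| ≤ c * η := by
    rw [abs_mul]
    exact mul_le_mul hka hw (abs_nonneg _) hc
  have hkv : |ka * dv| ≤ c := by
    rw [abs_mul]
    calc |ka| * |dv| ≤ c * 1 := mul_le_mul hka hv1 (abs_nonneg _) hc
      _ = c := mul_one c
  have hM : |dv * (cV' - ka * dv / 2)| ≤ V * (C1 + c / 2) := by
    rw [abs_mul]
    refine mul_le_mul hv ?_ (abs_nonneg _) hV0
    have e1 := abs_sub cV' (ka * dv / 2)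
    rw [abs_div, abs_of_pos (by norm_num : (0 : ℝ) < 2)] at e1
    linarith
  have e3 : dw * (cN' + ka * dw / 2) = dgd + dv * (cV' - ka * dv / 2) - al * dz := by rw [he]; ring
  have e4 : |dw * (cN' + ka * dw / 2)| ≤ G + V * (C1 + c / 2) + A := by
    rw [e3]
    have t1 := abs_sub (dgd + dv * (cV' - ka * dv / 2)) (al * dz)
    have t2 := abs_add_le dgd (dv * (cV' - ka * dv / 2))
    linarith
  have e5 : 1 - K0 * (c * η) / 2 ≤ K0 * (cN' + ka * dw / 2) := by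
    have := abs_le.1 hkw
    nlinarith [mul_le_mul_of_nonneg_left this.1 hK]
  have e6 : |dw| * (1 - K0 * (c * η) / 2) ≤ K0 * |dw * (cN' + ka * dw / 2)| := by
    rw [abs_mul]
    have t1 : 1 - K0 * (c * η) / 2 ≤ K0 * |cN' + ka * dw / 2| :=
      e5.trans (mul_le_mul_of_nonneg_left (le_abs_self _) hK)
    have := mul_le_mul_of_nonneg_left t1 (abs_nonneg dw)
    linarith
  have e7 := mul_le_mul_of_nonneg_left e4 hK
  have e8 : K0 * (c * η) ≤ 1 / 3 := by linarith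
  have e9 := mul_le_mul_of_nonneg_right e8 (abs_nonneg dw)
  have e10 := abs_nonneg dw
  linarith

/-- from the rotated components back -/
theorem unrot (θ : ℝ) (u : Fin 2 → ℝ) (k : Fin 2) : |u k| ≤ |fw θ u| + |fn θ u| := by
  have hc : |Real.cos θ| ≤ 1 := Real.abs_cos_le_one θ
  have hs : |Real.sin θ| ≤ 1 := Real.abs_sin_le_one θ
  have h1 := Real.sin_sq_add_cos_sq θ
  have e0 : u 0 = Real.cos θ * fw θ u - Real.sin θ * fn θ u := by
    simp only [fw, fn]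
    linear_combination (-(u 0)) * h1
  have e1 : u 1 = Real.sin θ * fw θ u + Real.cos θ * fn θ u := by
    simp only [fw, fn]
    linear_combination (-(u 1)) * h1
  have b1 : ∀ x y : ℝ, |x| ≤ 1 → |x * y| ≤ |y| := by
    intro x y hx
    rw [abs_mul]
    calc |x| * |y| ≤ 1 * |y| := mul_le_mul_of_nonneg_right hx (abs_nonneg _)
      _ = |y| := one_mul _
  fin_cases k
  · show |u 0| ≤ _
    rw [e0]
    exact (abs_sub _ _).trans (add_le_add (b1 _ _ hc) (b1 _ _ hs))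
  · show |u 1| ≤ _
    rw [e1]
    exact (abs_add_le _ _).trans (add_le_add (b1 _ _ hs) (b1 _ _ hc))

/-- components of the coefficient vector at a ray of the box -/
theorem cov_le {c : ℝ} (hc : 1 ≤ c) {a : ℕ} {W : Cbx} {l : Ry} {t : ℝ}
    (hka : |W.κ| * W.u2 ≤ c) (hal : |W.α| * W.u2 ≤ c) (hl : Bin c W 0 (bl a l t)) (k : Fin 2) :
    |(fuW a W t).cov l k| ≤ 4 * c ^ 2 := by
  rw [fuW_cov]
  obtain ⟨y1, s1, -, -, -⟩ := hl
  have hcs : |Real.cos W.θ| ≤ 1 := Real.abs_cos_le_one _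
  have hsn : |-Real.sin W.θ| ≤ 1 := by rw [abs_neg]; exact Real.abs_sin_le_one _
  have ks : ∀ k, |W.κ * ((bl a l t).s k - W.v k)| ≤ c ^ 2 := by
    intro k
    rw [abs_mul]
    calc |W.κ| * |(bl a l t).s k - W.v k| ≤ |W.κ| * (c * W.u2) := mul_le_mul_of_nonneg_left (s1 k) (abs_nonneg _)
      _ = c * (|W.κ| * W.u2) := by ring
      _ ≤ c * c := mul_le_mul_of_nonneg_left hka (by linarith)
      _ = c ^ 2 := by ring
  have ya : ∀ k, |2 * W.α * ((bl a l t).y k - W.p k)| ≤ 2 * c ^ 2 := by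
    intro k
    rw [abs_mul, abs_mul, abs_of_pos (by norm_num : (0 : ℝ) < 2)]
    calc 2 * |W.α| * |(bl a l t).y k - W.p k| ≤ 2 * |W.α| * (c * W.u2) :=
          mul_le_mul_of_nonneg_left (y1 k) (by positivity)
      _ = 2 * c * (|W.α| * W.u2) := by ring
      _ ≤ 2 * c * c := mul_le_mul_of_nonneg_left hal (by linarith)
      _ = 2 * c ^ 2 := by ring
  have h1 : 1 ≤ c ^ 2 := one_le_pow₀ hc
  have fin : ∀ x y z : ℝ, |x| ≤ 1 → |y| ≤ c ^ 2 → |z| ≤ 2 * c ^ 2 → |x + y - z| ≤ 4 * c ^ 2 := by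
    intro x y z hx hy hz
    have t1 := abs_sub (x + y) z
    have t2 := abs_add_le x y
    linarith
  fin_cases k
  · show |-Real.sin W.θ + W.κ * ((bl a l t).s 0 - W.v 0) - 2 * W.α * ((bl a l t).y 0 - W.p 0)| ≤ _
    exact fin _ _ _ hsn (ks 0) (ya 0)
  · show |Real.cos W.θ + W.κ * ((bl a l t).s 1 - W.v 1) - 2 * W.α * ((bl a l t).y 1 - W.p 1)| ≤ _
    exact fin _ _ _ hcs (ks 1) (ya 1)

/-- the window `(h; 0; q)` around a ray, transversal to `θ` -/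
structure Win (c K0 θ : ℝ) (h q : ℕ) (W : Cbx) (l : Ry) (t : ℝ) : Prop where
  u2 : W.u2 = 1
  u1 : W.u1 = (1 / 2 : ℝ) ^ q
  κ2 : |W.κ| ≤ c
  α2 : |W.α| ≤ c
  inn : Bin c W 0 (bl h l t)
  tr : 1 ≤ K0 * fn θ ((fuW h W t).cov l)

theorem Win.of {c K0 θ : ℝ} {L h q : ℕ} {W : Cbx} {l : Ry} {t : ℝ} (hW : LbOk c L h W l t) (h2 : W.u2 = 1)
    (h1 : W.u1 = (1 / 2 : ℝ) ^ q) (tr : 1 ≤ K0 * fn θ ((fuW h W t).cov l)) : Win c K0 θ h q W l t := by
  have a2 := hW.α2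
  have k2 := hW.κ2
  rw [h2, mul_one] at a2 k2
  exact ⟨h2, h1, k2, a2, hW.inn, tr⟩

theorem ar1 {c K0 x : ℝ} (hc : 1 ≤ c) (hK : 0 ≤ K0) (hx : 0 ≤ x) :
    2 * K0 * (2 * c * x + (8 * c ^ 2 + c / 2) * x + c * (2 * x)) ≤ 26 * K0 * c ^ 2 * x := by
  have h1 : c ≤ c ^ 2 := by nlinarith
  have h2 : 2 * c + (8 * c ^ 2 + c / 2) + 2 * c ≤ 13 * c ^ 2 := by linarith
  have h3 := mul_le_mul_of_nonneg_left h2 (mul_nonneg hK hx)
  have e1 : 2 * K0 * (2 * c * x + (8 * c ^ 2 + c / 2) * x + c * (2 * x)) =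
      2 * (K0 * x * (2 * c + (8 * c ^ 2 + c / 2) + 2 * c)) := by ring
  have e2 : 26 * K0 * c ^ 2 * x = 2 * (K0 * x * (13 * c ^ 2)) := by ring
  rw [e1, e2]
  linarith

theorem ar2 {c K0 x : ℝ} (hc : 1 ≤ c) (hK : 1 ≤ K0) (hx : 0 ≤ x) :
    2 * K0 * (2 * c * x + (8 * c ^ 2 + c / 2) * x + 56 * K0 * c ^ 3 * x) ≤ 140 * K0 ^ 2 * c ^ 3 * x := by
  have h1 : c ≤ c ^ 2 := by nlinarith
  have h4 : 0 ≤ c ^ 2 := sq_nonneg c
  have h5 : c ^ 2 ≤ c ^ 3 := by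
    have : c ^ 3 = c * c ^ 2 := by ring
    rw [this]
    nlinarith
  have h6 : c ^ 3 ≤ K0 * c ^ 3 := by
    have : 0 ≤ c ^ 3 := h4.trans h5
    nlinarith
  have h2 : 2 * c + (8 * c ^ 2 + c / 2) + 56 * K0 * c ^ 3 ≤ 70 * (K0 * c ^ 3) := by linarith
  have h3 := mul_le_mul_of_nonneg_left h2 (mul_nonneg (by linarith : (0 : ℝ) ≤ K0) hx)
  have e1 : 2 * K0 * (2 * c * x + (8 * c ^ 2 + c / 2) * x + 56 * K0 * c ^ 3 * x) =
      2 * (K0 * x * (2 * c + (8 * c ^ 2 + c / 2) + 56 * K0 * c ^ 3)) := by ring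
  have e2 : 140 * K0 ^ 2 * c ^ 3 * x = 2 * (K0 * x * (70 * (K0 * c ^ 3))) := by ring
  rw [e1, e2]
  linarith

section pair

variable {c K0 η θ vb wc : ℝ} {h q b : ℕ} {W : Cbx} {l l' : Ry} {t t' : ℝ}

/-- two rays of the same window whose coarse data agree -/
theorem pair_core (hc : 1 ≤ c) (hK : 1 ≤ K0) (hη0 : 0 ≤ η) (hη : 3 * c * η * K0 ≤ 1) (hb : b ≤ q)
    (hl : Win c K0 θ h q W l t) (hl' : Win c K0 θ h q W l' t') (ht : fl1 h t = fl1 h t')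
    (hv : |(toR θ l').v - (toR θ l).v| ≤ (1 / 2 : ℝ) ^ b) (hw : |(toR θ l').w - (toR θ l).w| ≤ η)
    (hX : |(toR θ l').X (qa h t) - (toR θ l).X (qa h t)| ≤ (1 / 2 : ℝ) ^ (h + b))
    (hU : |((toR θ l').Z (qa h t) - vb * (toR θ l').X (qa h t) - wc * (toR θ l').N (qa h t)) -
      ((toR θ l).Z (qa h t) - vb * (toR θ l).X (qa h t) - wc * (toR θ l).N (qa h t))| ≤ (1 / 2 : ℝ) ^ (h + b))
    (hvb : |vb - (toR θ l).v| ≤ 1) (hwc : |wc - (toR θ l).w| ≤ η) :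
    |(toR θ l').N (qa h t) - (toR θ l).N (qa h t)| ≤ 26 * K0 * c ^ 2 * (1 / 2 : ℝ) ^ (h + b) ∧
    |(toR θ l).dz (toR θ l') (qa h t)| ≤ 28 * K0 * c ^ 2 * (1 / 2 : ℝ) ^ (h + b) ∧
    |(toR θ l').w - (toR θ l).w| ≤ 140 * K0 ^ 2 * c ^ 3 * (1 / 2 : ℝ) ^ b := by
  have hTT : qa h t' = qa h t := by unfold qa; rw [ht]
  have BCC := box_close hc θ (b := 0) (R := q) (by rw [hl.u2, pow_zero]) hl.u1 hl.inn hl'.inn hTT
  have hF : FW θ h W t' = FW θ h W t := FW_congr hTT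
  set T := qa h t with hT
  set F := FW θ h W t with hFd
  set R := toR θ l with hR
  set R' := toR θ l' with hR'
  have c2 : 1 ≤ c ^ 2 := one_le_pow₀ hc
  have cc2 : c ≤ c ^ 2 := by nlinarith
  have hcN : 1 ≤ K0 * F.cN R T := by
    rw [hR, hFd, hT, FW_cN]
    exact hl.tr
  have hcN' : 1 ≤ K0 * F.cN R' T := by
    rw [hR', ← hF, ← hTT, FW_cN]
    exact hl'.tr
  have hcV : |F.cV R T| ≤ 8 * c ^ 2 := by
    rw [hR, hFd, hT, FW_cV, abs_neg]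
    have := fw_le θ (x := 4 * c ^ 2) (fun k => cov_le hc (by rw [hl.u2, mul_one]; exact hl.κ2)
      (by rw [hl.u2, mul_one]; exact hl.α2) hl.inn k)
    linarith
  have hcV' : |F.cV R' T| ≤ 8 * c ^ 2 := by
    rw [hR', ← hF, ← hTT, FW_cV, abs_neg]
    have := fw_le θ (x := 4 * c ^ 2) (fun k => cov_le hc (by rw [hl'.u2, mul_one]; exact hl'.κ2)
      (by rw [hl'.u2, mul_one]; exact hl'.α2) hl'.inn k)
    linarith
  have hka : |F.ka| ≤ c := by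
    rw [hFd, FW_ka, abs_neg]
    exact hl.κ2
  have hal : |F.al| ≤ 2 * c * 2 ^ h := by
    rw [hFd, FW_al, abs_mul, abs_mul, abs_of_pos (by norm_num : (0 : ℝ) < 2), abs_of_pos (by positivity : (0 : ℝ) < 2 ^ h)]
    have := hl.α2
    have h2 : (0 : ℝ) < 2 ^ h := by positivity
    nlinarith
  have p1 : (0 : ℝ) < (1 / 2 : ℝ) ^ (h + b) := by positivity
  have p2 : (0 : ℝ) < (1 / 2 : ℝ) ^ b := by positivity
  have hb1 : (1 / 2 : ℝ) ^ b ≤ 1 := pow_le_one₀ (by norm_num) (by norm_num)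
  have q1 : (1 / 2 : ℝ) ^ (h + q) ≤ (1 / 2 : ℝ) ^ (h + b) :=
    pow_le_pow_of_le_one (by norm_num) (by norm_num) (by omega)
  have q2 : (1 / 2 : ℝ) ^ q ≤ (1 / 2 : ℝ) ^ b := pow_le_pow_of_le_one (by norm_num) (by norm_num) hb
  have η1 : η ≤ 1 := by nlinarith [mul_le_mul hc hK (by norm_num) (by linarith)]
  have hz : |R.dz R' T| ≤ 2 * (1 / 2 : ℝ) ^ (h + b) + η * |R'.N T - R.N T| := by
    have e : R.dz R' T = ((R'.Z T - vb * R'.X T - wc * R'.N T) - (R.Z T - vb * R.X T - wc * R.N T)) +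
        (vb - R.v) * (R'.X T - R.X T) + (wc - R.w) * (R'.N T - R.N T) := by
      unfold Cell.Ray.dz; ring
    rw [e]
    have t1 := abs_add_le (((R'.Z T - vb * R'.X T - wc * R'.N T) - (R.Z T - vb * R.X T - wc * R.N T)) +
        (vb - R.v) * (R'.X T - R.X T)) ((wc - R.w) * (R'.N T - R.N T))
    have t2 := abs_add_le ((R'.Z T - vb * R'.X T - wc * R'.N T) - (R.Z T - vb * R.X T - wc * R.N T))
        ((vb - R.v) * (R'.X T - R.X T))
    have t3 : |(vb - R.v) * (R'.X T - R.X T)| ≤ 1 * (1 / 2 : ℝ) ^ (h + b) := by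
      rw [abs_mul]
      exact mul_le_mul hvb hX (abs_nonneg _) (by norm_num)
    have t4 : |(wc - R.w) * (R'.N T - R.N T)| ≤ η * |R'.N T - R.N T| := by
      rw [abs_mul]
      exact mul_le_mul_of_nonneg_right hwc (abs_nonneg _)
    linarith
  have hg : |F.g R' T - F.g R T| ≤ 2 * c * (1 / 2 : ℝ) ^ (h + b) :=
    BCC.g.trans (mul_le_mul_of_nonneg_left q1 (by linarith))
  have hgd : |F.gd R' T - F.gd R T| ≤ 2 * c * (1 / 2 : ℝ) ^ b :=
    BCC.gd.trans (mul_le_mul_of_nonneg_left q2 (by linarith))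
  have dN := dN_le (by linarith : (0 : ℝ) ≤ K0) (by linarith : (0 : ℝ) ≤ c) hcN hcN' hη hw hka hcV hcV'
    (hv.trans hb1) hg hX hz (g_pair F R R' T)
  have dN' : |R'.N T - R.N T| ≤ 26 * K0 * c ^ 2 * (1 / 2 : ℝ) ^ (h + b) :=
    dN.trans (ar1 hc (by linarith) p1.le)
  have hKc : 1 ≤ K0 * c ^ 2 := by nlinarith
  have dz' : |R.dz R' T| ≤ 28 * K0 * c ^ 2 * (1 / 2 : ℝ) ^ (h + b) := by
    have e1 : η * |R'.N T - R.N T| ≤ 1 * (26 * K0 * c ^ 2 * (1 / 2 : ℝ) ^ (h + b)) :=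
      mul_le_mul η1 dN' (abs_nonneg _) (by norm_num)
    have e2 : 1 * (1 / 2 : ℝ) ^ (h + b) ≤ K0 * c ^ 2 * (1 / 2 : ℝ) ^ (h + b) := mul_le_mul_of_nonneg_right hKc p1.le
    linarith
  refine ⟨dN', dz', ?_⟩
  have hA : |F.al * R.dz R' T| ≤ 56 * K0 * c ^ 3 * (1 / 2 : ℝ) ^ b := by
    rw [abs_mul]
    refine (mul_le_mul hal dz' (abs_nonneg _) (by positivity)).trans (le_of_eq ?_)
    have := half_two h b
    linear_combination (56 * K0 * c ^ 3) * this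
  have dw := dw_le (by linarith : (0 : ℝ) ≤ K0) (by linarith : (0 : ℝ) ≤ c) hcN' hη hw hka hcV'
    (hv.trans hb1) hv hgd hA (gd_pair F R R' T)
  exact dw.trans (ar2 hc hK p2.le)

end pair

/-! ### entropies -/

theorem hc_step {Ω : Type} [Fintype Ω] (P : Law Ω) {α β γ : Type*} (X : Ω → α) (A : Ω → β) (Y : Ω → γ) {x : ℝ}
    (h : Stk.hc P A Y ≤ x) : Stk.hc P X Y ≤ x + Stk.hc P X (fun ω => (A ω, Y ω)) := by
  have := Stk.hc_le_add' P X A Y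
  linarith

theorem log_pow_le {M b : ℕ} (hM : 1 ≤ M) :
    Real.log ((2 * (M * 2 ^ b) + 2 : ℕ) : ℝ) ≤ b * Real.log 2 + Real.log (4 * M) := by
  have h1 : (1 : ℝ) ≤ M := by exact_mod_cast hM
  have h2 : (1 : ℝ) ≤ 2 ^ b := one_le_pow₀ (by norm_num)
  have e : (b : ℝ) * Real.log 2 + Real.log (4 * M) = Real.log (2 ^ b * (4 * M)) := by
    rw [Real.log_mul (x := (2 : ℝ) ^ b) (by positivity) (by positivity), Real.log_pow]
  rw [e]
  refine Real.log_le_log (by positivity) ?_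
  push_cast
  nlinarith [mul_le_mul h1 h2 (by norm_num) (by linarith)]

/-- `a·2^-m` times `2^m'` -/
theorem two_half (m k : ℕ) : (1 / 2 : ℝ) ^ m * 2 ^ (m + k) = 2 ^ k := by
  rw [pow_add, ← mul_assoc, ← mul_pow]
  norm_num

theorem abs_lin {a x y D E : ℝ} (hx : |x| ≤ D) (hy : |y| ≤ E) (hD : 0 ≤ D) : |a + x * y| ≤ |a| + D * E := by
  have t1 := abs_add_le a (x * y)
  rw [abs_mul x y] at t1
  have := mul_le_mul hx hy (abs_nonneg _) hD
  linarith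

/-- **the plank of the window block against the velocity digits** -/
theorem hc_plb_le {c K0 : ℝ} (hc : 1 ≤ c) (hK : 1 ≤ K0) : ∃ K : ℝ, 0 ≤ K ∧ ∀ (θ : ℝ) (Ω : Type) [Fintype Ω]
    (γ : Type) (P : Law Ω) (l : Ω → Ry) (t : Ω → ℝ) (Y : Ω → γ) (W : Ω → Cbx) (h q b : ℕ), b ≤ q →
    (∀ ω, 0 < P.w ω → Win c K0 θ h q (W ω) (l ω) (t ω)) →
    (∀ ω ω', 0 < P.w ω → 0 < P.w ω' → Y ω = Y ω' → W ω = W ω' ∧ fl1 h (t ω) = fl1 h (t ω')) →
    Stk.hc P (fun ω => G480.plb b h (l ω) (t ω)) Y ≤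
      Stk.hc P (fun ω => fl1 b (toR θ (l ω)).v) Y + 3 * b * Real.log 2 + K := by
  obtain ⟨C0, hC0⟩ : ∃ C0 : ℕ, 3 * c * (1 / 2 : ℝ) ^ C0 * K0 ≤ 1 := by
    obtain ⟨n, hn⟩ := exists_pow_lt_of_lt_one (by positivity : (0 : ℝ) < 1 / (3 * c * K0)) (by norm_num : (1 / 2 : ℝ) < 1)
    refine ⟨n, ?_⟩
    rw [lt_div_iff₀ (by positivity)] at hn
    linarith
  obtain ⟨M, hM⟩ := exists_nat_ge (140 * K0 ^ 2 * c ^ 3 + 4 * c * 2 ^ C0 + 100 * K0 * c ^ 2)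
  have hc0 : (0 : ℝ) < c := by linarith
  have hK00 : (0 : ℝ) < K0 := by linarith
  have m1 : 140 * K0 ^ 2 * c ^ 3 ≤ M := by
    have : 0 ≤ 4 * c * 2 ^ C0 := by positivity
    have : 0 ≤ 100 * K0 * c ^ 2 := by positivity
    linarith
  have m2 : 4 * c * 2 ^ C0 ≤ M := by
    have : 0 ≤ 140 * K0 ^ 2 * c ^ 3 := by positivity
    have : 0 ≤ 100 * K0 * c ^ 2 := by positivity
    linarith
  have m3 : 100 * K0 * c ^ 2 ≤ M := by
    have : 0 ≤ 140 * K0 ^ 2 * c ^ 3 := by positivity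
    have : 0 ≤ 4 * c * 2 ^ C0 := by positivity
    linarith
  have c2 : 1 ≤ c ^ 2 := one_le_pow₀ hc
  have cc2 : c ≤ c ^ 2 := by nlinarith
  have kc2 : c ^ 2 ≤ K0 * c ^ 2 := by nlinarith
  have m4 : 14 * c ^ 2 ≤ M := by linarith
  have hM1 : 1 ≤ M := by
    have : (1 : ℝ) ≤ M := by linarith
    exact_mod_cast this
  refine ⟨3 * Real.log (4 * M) + Real.log ((2 * M + 2 : ℕ) : ℝ) * 3 + Real.log (((2 * M + 2) ^ 2 : ℕ) : ℝ) * 2, ?_, ?_⟩
  · have e1 : 0 ≤ Real.log (4 * M) := Real.log_nonneg (by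
      have : (1 : ℝ) ≤ M := by exact_mod_cast hM1
      linarith)
    have e2 : 0 ≤ Real.log ((2 * M + 2 : ℕ) : ℝ) := Real.log_natCast_nonneg _
    have e3 : 0 ≤ Real.log (((2 * M + 2) ^ 2 : ℕ) : ℝ) := Real.log_natCast_nonneg _
    linarith
  intro θ Ω _ γ P l t Y W h q b hb hW hY
  set A1 : Ω → ℤ := fun ω => fl1 b (toR θ (l ω)).v with hA1
  set A2 : Ω → ℤ := fun ω => fl1 C0 (toR θ (l ω)).w with hA2
  set A3 : Ω → ℤ := fun ω => fl1 (h + b) ((toR θ (l ω)).X (qa h (t ω))) with hA3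
  set u4 : Ω → ℝ := fun ω => (toR θ (l ω)).Z (qa h (t ω)) - rd b (toR θ (l ω)).v * (toR θ (l ω)).X (qa h (t ω)) -
    rd C0 (toR θ (l ω)).w * (toR θ (l ω)).N (qa h (t ω)) with hu4
  set A5 : Ω → ℤ := fun ω => fl1 b (toR θ (l ω)).w with hA5
  set u6 : Ω → ℝ := fun ω => (toR θ (l ω)).Z (qa h (t ω)) - rd b (toR θ (l ω)).v * (toR θ (l ω)).X (qa h (t ω)) -
    rd b (toR θ (l ω)).w * (toR θ (l ω)).N (qa h (t ω)) with hu6
  set pb : Ω → (Fin 2 → ℤ) × (Fin 2 → ℤ) × ℤ := fun ω => G480.plb b h (l ω) (t ω) with hpb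
  -- two rays with the same `Y`
  have base : ∀ ω ω', 0 < P.w ω → 0 < P.w ω' → Y ω = Y ω' → qa h (t ω') = qa h (t ω) ∧
      BC c h 0 q (FW θ h (W ω) (t ω)) (qa h (t ω)) (toR θ (l ω)) (toR θ (l ω')) := by
    intro ω ω' hω hω' e
    obtain ⟨e1, e2⟩ := hY ω ω' hω hω' e
    have w1 := hW ω hω
    have w2 := hW ω' hω'
    rw [← e1] at w2
    have hTT : qa h (t ω') = qa h (t ω) := by unfold qa; rw [e2]
    exact ⟨hTT, box_close hc θ (b := 0) (R := q) (by rw [w1.u2, pow_zero]) w1.u1 w1.inn w2.inn hTT⟩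
  have core : ∀ ω ω', 0 < P.w ω → 0 < P.w ω' → Y ω = Y ω' → A1 ω = A1 ω' → A2 ω = A2 ω' → A3 ω = A3 ω' →
      fl1 (h + b) (u4 ω) = fl1 (h + b) (u4 ω') →
      |(toR θ (l ω')).N (qa h (t ω)) - (toR θ (l ω)).N (qa h (t ω))| ≤ 26 * K0 * c ^ 2 * (1 / 2 : ℝ) ^ (h + b) ∧
      |(toR θ (l ω)).dz (toR θ (l ω')) (qa h (t ω))| ≤ 28 * K0 * c ^ 2 * (1 / 2 : ℝ) ^ (h + b) ∧
      |(toR θ (l ω')).w - (toR θ (l ω)).w| ≤ 140 * K0 ^ 2 * c ^ 3 * (1 / 2 : ℝ) ^ b := by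
    intro ω ω' hω hω' e a1 a2 a3 a4
    obtain ⟨e1, e2⟩ := hY ω ω' hω hω' e
    have hTT : qa h (t ω') = qa h (t ω) := by unfold qa; rw [e2]
    have w1 := hW ω hω
    have w2 := hW ω' hω'
    rw [← e1] at w2
    have r1 : rd b (toR θ (l ω')).v = rd b (toR θ (l ω)).v := by unfold rd; rw [show fl1 b _ = fl1 b _ from a1]
    have r2 : rd C0 (toR θ (l ω')).w = rd C0 (toR θ (l ω)).w := by unfold rd; rw [show fl1 C0 _ = fl1 C0 _ from a2]
    refine pair_core hc hK (by positivity) hC0 hb w1 w2 e2 (fl1_sub a1.symm) (fl1_sub a2.symm) ?_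
      (vb := rd b (toR θ (l ω)).v) (wc := rd C0 (toR θ (l ω)).w) ?_ ?_ ?_
    · have := fl1_sub a3.symm
      rw [hTT] at this
      exact this
    · have := fl1_sub a4.symm
      simp only [hu4] at this
      rw [hTT, r1, r2] at this
      exact this
    · exact (rd_err b _).trans (by unfold CellD.q2; exact pow_le_one₀ (by norm_num) (by norm_num))
    · exact rd_err C0 _
  have hb1 : (1 / 2 : ℝ) ^ b ≤ 1 := pow_le_one₀ (by norm_num) (by norm_num)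
  have s1 := hc_step P pb A1 Y le_rfl
  have s2 := hc_step P pb A2 (fun ω => (A1 ω, Y ω)) (x := Real.log ((2 * M + 2 : ℕ) : ℝ)) (by
    refine hc_fl1 P _ _ _ M ?_
    intro ω ω' hω hω' e
    simp only [Prod.mk.injEq] at e
    obtain ⟨-, B⟩ := base ω ω' hω hω' e.2
    have := B.w
    rw [pow_zero, mul_one, abs_sub_comm] at this
    exact (mul_le_mul_of_nonneg_right this (by positivity)).trans m2)
  have s3 := hc_step P pb A3 (fun ω => (A2 ω, A1 ω, Y ω)) (x := b * Real.log 2 + Real.log (4 * M)) (by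
    refine (hc_fl1 P _ _ _ (M * 2 ^ b) ?_).trans (log_pow_le hM1)
    intro ω ω' hω hω' e
    simp only [Prod.mk.injEq] at e
    obtain ⟨hTT, B⟩ := base ω ω' hω hω' e.2.2
    have := B.X
    rw [add_zero, abs_sub_comm] at this
    rw [hTT]
    push_cast
    calc |(toR θ (l ω)).X (qa h (t ω)) - (toR θ (l ω')).X (qa h (t ω))| * 2 ^ (h + b) ≤
        4 * c * (1 / 2 : ℝ) ^ h * 2 ^ (h + b) := mul_le_mul_of_nonneg_right this (by positivity)
      _ = 4 * c * 2 ^ b := by rw [mul_assoc, two_half]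
      _ ≤ M * 2 ^ b := mul_le_mul_of_nonneg_right (by linarith) (by positivity))
  have s4 := hc_step P pb (fun ω => fl1 (h + b) (u4 ω)) (fun ω => (A3 ω, A2 ω, A1 ω, Y ω))
    (x := b * Real.log 2 + Real.log (4 * M)) (by
    refine (hc_fl1 P _ _ _ (M * 2 ^ b) ?_).trans (log_pow_le hM1)
    intro ω ω' hω hω' e
    simp only [Prod.mk.injEq] at e
    obtain ⟨a3, a2, a1, e⟩ := e
    obtain ⟨hTT, B⟩ := base ω ω' hω hω' e
    have r1 : rd b (toR θ (l ω')).v = rd b (toR θ (l ω)).v := by unfold rd; rw [show fl1 b _ = fl1 b _ from a1]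
    have r2 : rd C0 (toR θ (l ω')).w = rd C0 (toR θ (l ω)).w := by unfold rd; rw [show fl1 C0 _ = fl1 C0 _ from a2]
    have hx := B.X
    have hn := B.N
    have hz := B.dz
    rw [add_zero] at hx hn
    rw [mul_zero, add_zero] at hz
    have v1 : |(toR θ (l ω)).v - rd b (toR θ (l ω)).v| ≤ 1 := by
      rw [abs_sub_comm]
      exact (rd_err b _).trans (by unfold CellD.q2; exact pow_le_one₀ (by norm_num) (by norm_num))
    have w1 : |(toR θ (l ω)).w - rd C0 (toR θ (l ω)).w| ≤ 1 := by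
      rw [abs_sub_comm]
      exact (rd_err C0 _).trans (by unfold CellD.q2; exact pow_le_one₀ (by norm_num) (by norm_num))
    have id : u4 ω' - u4 ω = ((toR θ (l ω)).dz (toR θ (l ω')) (qa h (t ω)) +
        ((toR θ (l ω)).v - rd b (toR θ (l ω)).v) * ((toR θ (l ω')).X (qa h (t ω)) - (toR θ (l ω)).X (qa h (t ω)))) +
        ((toR θ (l ω)).w - rd C0 (toR θ (l ω)).w) * ((toR θ (l ω')).N (qa h (t ω)) - (toR θ (l ω)).N (qa h (t ω))) := by
      simp only [hu4]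
      rw [hTT, r1, r2]
      unfold Cell.Ray.dz
      ring
    have t1 := abs_lin (a := (toR θ (l ω)).dz (toR θ (l ω')) (qa h (t ω)) +
        ((toR θ (l ω)).v - rd b (toR θ (l ω)).v) * ((toR θ (l ω')).X (qa h (t ω)) - (toR θ (l ω)).X (qa h (t ω))))
        w1 hn (by norm_num)
    have t2 := abs_lin (a := (toR θ (l ω)).dz (toR θ (l ω')) (qa h (t ω))) v1 hx (by norm_num)
    have ph : (0 : ℝ) < (1 / 2 : ℝ) ^ h := by positivity
    have t3 : |u4 ω - u4 ω'| ≤ 14 * c ^ 2 * (1 / 2 : ℝ) ^ h := by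
      rw [abs_sub_comm, id]
      have : c * (1 / 2 : ℝ) ^ h ≤ c ^ 2 * (1 / 2 : ℝ) ^ h := mul_le_mul_of_nonneg_right cc2 ph.le
      linarith
    push_cast
    calc |u4 ω - u4 ω'| * 2 ^ (h + b) ≤ 14 * c ^ 2 * (1 / 2 : ℝ) ^ h * 2 ^ (h + b) :=
          mul_le_mul_of_nonneg_right t3 (by positivity)
      _ = 14 * c ^ 2 * 2 ^ b := by rw [mul_assoc, two_half]
      _ ≤ M * 2 ^ b := mul_le_mul_of_nonneg_right m4 (by positivity))
  have s5 := hc_step P pb A5 (fun ω => (fl1 (h + b) (u4 ω), A3 ω, A2 ω, A1 ω, Y ω))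
    (x := Real.log ((2 * M + 2 : ℕ) : ℝ)) (by
    refine hc_fl1 P _ _ _ M ?_
    intro ω ω' hω hω' e
    simp only [Prod.mk.injEq] at e
    obtain ⟨a4, a3, a2, a1, e⟩ := e
    obtain ⟨-, -, hw⟩ := core ω ω' hω hω' e a1 a2 a3 a4
    rw [abs_sub_comm] at hw
    calc |(toR θ (l ω)).w - (toR θ (l ω')).w| * 2 ^ b ≤ 140 * K0 ^ 2 * c ^ 3 * (1 / 2 : ℝ) ^ b * 2 ^ b :=
          mul_le_mul_of_nonneg_right hw (by positivity)
      _ = 140 * K0 ^ 2 * c ^ 3 := by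
          rw [mul_assoc, ← mul_pow]; norm_num
      _ ≤ M := m1)
  -- everything but the last digits of the null coordinate
  have fin5 : ∀ ω ω', 0 < P.w ω → 0 < P.w ω' → Y ω = Y ω' → A1 ω = A1 ω' → A2 ω = A2 ω' → A3 ω = A3 ω' →
      fl1 (h + b) (u4 ω) = fl1 (h + b) (u4 ω') → A5 ω = A5 ω' →
      u6 ω' - u6 ω = ((toR θ (l ω)).dz (toR θ (l ω')) (qa h (t ω)) +
        ((toR θ (l ω)).v - rd b (toR θ (l ω)).v) * ((toR θ (l ω')).X (qa h (t ω)) - (toR θ (l ω)).X (qa h (t ω)))) +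
        ((toR θ (l ω)).w - rd b (toR θ (l ω)).w) * ((toR θ (l ω')).N (qa h (t ω)) - (toR θ (l ω)).N (qa h (t ω))) ∧
      |(toR θ (l ω')).X (qa h (t ω)) - (toR θ (l ω)).X (qa h (t ω))| ≤ (1 / 2 : ℝ) ^ (h + b) := by
    intro ω ω' hω hω' e a1 a2 a3 a4 a5
    obtain ⟨hTT, -⟩ := base ω ω' hω hω' e
    have r1 : rd b (toR θ (l ω')).v = rd b (toR θ (l ω)).v := by unfold rd; rw [show fl1 b _ = fl1 b _ from a1]
    have r2 : rd b (toR θ (l ω')).w = rd b (toR θ (l ω)).w := by unfold rd; rw [show fl1 b _ = fl1 b _ from a5]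
    constructor
    · simp only [hu6]
      rw [hTT, r1, r2]
      unfold Cell.Ray.dz
      ring
    · have := fl1_sub a3.symm
      rw [hTT] at this
      exact this
  have v1 : ∀ x : ℝ, |x - rd b x| ≤ (1 / 2 : ℝ) ^ b := by
    intro x
    rw [abs_sub_comm]
    exact rd_err b x
  have pb0 : (0 : ℝ) < (1 / 2 : ℝ) ^ b := by positivity
  have phb : (0 : ℝ) < (1 / 2 : ℝ) ^ (h + b) := by positivity
  have k1 : 1 ≤ K0 * c ^ 2 := by linarith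
  have s6 := hc_step P pb (fun ω => fl1 (h + b + b) (u6 ω)) (fun ω => (A5 ω, fl1 (h + b) (u4 ω), A3 ω, A2 ω, A1 ω, Y ω))
    (x := b * Real.log 2 + Real.log (4 * M)) (by
    refine (hc_fl1 P _ _ _ (M * 2 ^ b) ?_).trans (log_pow_le hM1)
    intro ω ω' hω hω' e
    simp only [Prod.mk.injEq] at e
    obtain ⟨a5, a4, a3, a2, a1, e⟩ := e
    obtain ⟨hn, hz, hw⟩ := core ω ω' hω hω' e a1 a2 a3 a4
    obtain ⟨id, hx⟩ := fin5 ω ω' hω hω' e a1 a2 a3 a4 a5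
    have t1 := abs_lin (a := (toR θ (l ω)).dz (toR θ (l ω')) (qa h (t ω)) +
        ((toR θ (l ω)).v - rd b (toR θ (l ω)).v) * ((toR θ (l ω')).X (qa h (t ω)) - (toR θ (l ω)).X (qa h (t ω))))
        ((v1 (toR θ (l ω)).w).trans hb1) hn (by norm_num)
    have t2 := abs_lin (a := (toR θ (l ω)).dz (toR θ (l ω')) (qa h (t ω))) ((v1 (toR θ (l ω)).v).trans hb1) hx (by norm_num)
    have t3 : |u6 ω - u6 ω'| ≤ 100 * K0 * c ^ 2 * (1 / 2 : ℝ) ^ (h + b) := by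
      rw [abs_sub_comm, id]
      have := mul_le_mul_of_nonneg_right k1 phb.le
      linarith
    push_cast
    calc |u6 ω - u6 ω'| * 2 ^ (h + b + b) ≤ 100 * K0 * c ^ 2 * (1 / 2 : ℝ) ^ (h + b) * 2 ^ (h + b + b) :=
          mul_le_mul_of_nonneg_right t3 (by positivity)
      _ = 100 * K0 * c ^ 2 * 2 ^ b := by rw [mul_assoc, two_half]
      _ ≤ M * 2 ^ b := mul_le_mul_of_nonneg_right m3 (by positivity))
  set G6 : Ω → ℤ × ℤ × ℤ × ℤ × ℤ × ℤ × γ :=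
    fun ω => (fl1 (h + b + b) (u6 ω), A5 ω, fl1 (h + b) (u4 ω), A3 ω, A2 ω, A1 ω, Y ω) with hG6
  have posk : ∀ ω ω', 0 < P.w ω → 0 < P.w ω' → G6 ω = G6 ω' → qa h (t ω') = qa h (t ω) ∧
      (∀ k, |(l ω').pos (qa h (t ω)) k - (l ω).pos (qa h (t ω)) k| ≤ 27 * K0 * c ^ 2 * (1 / 2 : ℝ) ^ (h + b)) ∧
      (∀ k, |(l ω').s k - (l ω).s k| ≤ 2 * (1 / 2 : ℝ) ^ b) ∧
      |(toR θ (l ω)).dz (toR θ (l ω')) (qa h (t ω))| ≤ 28 * K0 * c ^ 2 * (1 / 2 : ℝ) ^ (h + b + b) := by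
    intro ω ω' hω hω' e
    simp only [hG6, Prod.mk.injEq] at e
    obtain ⟨a6, a5, a4, a3, a2, a1, e⟩ := e
    obtain ⟨hTT, -⟩ := base ω ω' hω hω' e
    obtain ⟨hn, hz, -⟩ := core ω ω' hω hω' e a1 a2 a3 a4
    obtain ⟨id, hx⟩ := fin5 ω ω' hω hω' e a1 a2 a3 a4 a5
    have hv := fl1_sub (n := b) (x := (toR θ (l ω')).v) (y := (toR θ (l ω)).v) a1.symm
    have hw := fl1_sub (n := b) (x := (toR θ (l ω')).w) (y := (toR θ (l ω)).w) a5.symm
    have hu := fl1_sub a6.symm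
    refine ⟨hTT, fun k => ?_, fun k => ?_, ?_⟩
    · have h1 := unrot θ (fun k => (l ω').pos (qa h (t ω)) k - (l ω).pos (qa h (t ω)) k) k
      rw [← fw_sub, ← fn_sub, ← toR_X, ← toR_X, ← toR_N, ← toR_N] at h1
      have := mul_le_mul_of_nonneg_right k1 phb.le
      linarith
    · have h1 := unrot θ (fun k => (l ω').s k - (l ω).s k) k
      rw [← fw_sub, ← fn_sub] at h1
      have h2 : |fw θ (l ω').s - fw θ (l ω).s| ≤ (1 / 2 : ℝ) ^ b := hv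
      have h3 : |fn θ (l ω').s - fn θ (l ω).s| ≤ (1 / 2 : ℝ) ^ b := hw
      linarith
    · have t1 := abs_lin (a := (u6 ω' - u6 ω) - ((toR θ (l ω)).v - rd b (toR θ (l ω)).v) *
        ((toR θ (l ω')).X (qa h (t ω)) - (toR θ (l ω)).X (qa h (t ω))))
        (x := -((toR θ (l ω)).w - rd b (toR θ (l ω)).w)) (by rw [abs_neg]; exact v1 _) hn pb0.le
      have t2 := abs_lin (a := u6 ω' - u6 ω) (x := -((toR θ (l ω)).v - rd b (toR θ (l ω)).v))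
        (by rw [abs_neg]; exact v1 _) hx pb0.le
      have id2 : (toR θ (l ω)).dz (toR θ (l ω')) (qa h (t ω)) = (u6 ω' - u6 ω) -
        ((toR θ (l ω)).v - rd b (toR θ (l ω)).v) * ((toR θ (l ω')).X (qa h (t ω)) - (toR θ (l ω)).X (qa h (t ω))) +
        -((toR θ (l ω)).w - rd b (toR θ (l ω)).w) * ((toR θ (l ω')).N (qa h (t ω)) - (toR θ (l ω)).N (qa h (t ω))) := by
        rw [id]; ring
      have id3 : (u6 ω' - u6 ω) - ((toR θ (l ω)).v - rd b (toR θ (l ω)).v) *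
        ((toR θ (l ω')).X (qa h (t ω)) - (toR θ (l ω)).X (qa h (t ω))) = (u6 ω' - u6 ω) +
        -((toR θ (l ω)).v - rd b (toR θ (l ω)).v) * ((toR θ (l ω')).X (qa h (t ω)) - (toR θ (l ω)).X (qa h (t ω))) := by
        ring
      rw [← id2, id3] at t1
      have e1 : (1 / 2 : ℝ) ^ b * (26 * K0 * c ^ 2 * (1 / 2 : ℝ) ^ (h + b)) =
          26 * K0 * c ^ 2 * (1 / 2 : ℝ) ^ (h + b + b) := by rw [pow_add (1 / 2 : ℝ) (h + b) b]; ring
      have e2 : (1 / 2 : ℝ) ^ b * (1 / 2 : ℝ) ^ (h + b) = (1 / 2 : ℝ) ^ (h + b + b) := by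
        rw [pow_add (1 / 2 : ℝ) (h + b) b]; ring
      have p3 : (0 : ℝ) < (1 / 2 : ℝ) ^ (h + b + b) := by positivity
      have := mul_le_mul_of_nonneg_right k1 p3.le
      rw [e1] at t1
      rw [e2] at t2
      linarith
  set P1 : Ω → Fin 2 → ℤ := fun ω => fl b (l ω).s with hP1
  set P2 : Ω → Fin 2 → ℤ := fun ω => fl b (bl h (l ω) (t ω)).y with hP2
  set u9 : Ω → ℝ := fun ω => (bl h (l ω) (t ω)).z +
    ∑ k, (bl h (l ω) (t ω)).y k * ((l ω).s k - (fl b (l ω).s k : ℝ) / 2 ^ b) with hu9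
  have hpbe : pb = fun ω => (P1 ω, (P2 ω, fl1 (2 * b) (u9 ω))) := rfl
  have s7 : Stk.hc P P1 G6 ≤ Real.log (((2 * M + 2) ^ 2 : ℕ) : ℝ) := by
    refine hc_fl P _ _ _ M ?_
    intro ω ω' hω hω' e k
    obtain ⟨-, -, hs, -⟩ := posk ω ω' hω hω' e
    have := hs k
    rw [abs_sub_comm] at this
    calc |(l ω).s k - (l ω').s k| * 2 ^ b ≤ 2 * (1 / 2 : ℝ) ^ b * 2 ^ b :=
          mul_le_mul_of_nonneg_right this (by positivity)
      _ = 2 := by rw [mul_assoc, ← mul_pow]; norm_num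
      _ ≤ M := by linarith
  have s8 : Stk.hc P P2 (fun ω => (P1 ω, G6 ω)) ≤ Real.log (((2 * M + 2) ^ 2 : ℕ) : ℝ) := by
    refine hc_fl P _ _ _ M ?_
    intro ω ω' hω hω' e k
    obtain ⟨hTT, hp, -, -⟩ := posk ω ω' hω hω' (congrArg Prod.snd e)
    have := hp k
    rw [abs_sub_comm] at this
    have e1 : (bl h (l ω) (t ω)).y k - (bl h (l ω') (t ω')).y k =
        2 ^ h * ((l ω).pos (qa h (t ω)) k - (l ω').pos (qa h (t ω)) k) := by
      simp only [bl]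
      rw [hTT]
      ring
    rw [e1, abs_mul, abs_of_pos (by positivity : (0 : ℝ) < 2 ^ h)]
    calc 2 ^ h * |(l ω).pos (qa h (t ω)) k - (l ω').pos (qa h (t ω)) k| * 2 ^ b ≤
        2 ^ h * (27 * K0 * c ^ 2 * (1 / 2 : ℝ) ^ (h + b)) * 2 ^ b :=
          mul_le_mul_of_nonneg_right (mul_le_mul_of_nonneg_left this (by positivity)) (by positivity)
      _ = 27 * K0 * c ^ 2 * ((1 / 2 : ℝ) ^ (h + b) * 2 ^ (h + b)) := by rw [pow_add (2 : ℝ) h b]; ring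
      _ = 27 * K0 * c ^ 2 := by rw [← mul_pow]; norm_num
      _ ≤ M := by linarith
  have s9 : Stk.hc P (fun ω => fl1 (2 * b) (u9 ω)) (fun ω => (P2 ω, (P1 ω, G6 ω))) ≤
      Real.log ((2 * M + 2 : ℕ) : ℝ) := by
    refine hc_fl1 P _ _ _ M ?_
    intro ω ω' hω hω' e
    simp only [Prod.mk.injEq] at e
    obtain ⟨-, ep, eg⟩ := e
    obtain ⟨hTT, hp, -, hz⟩ := posk ω ω' hω hω' eg
    have es : ∀ k, fl b (l ω').s k = fl b (l ω).s k := fun k => (congrFun ep k).symm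
    have key : u9 ω' - u9 ω = 2 ^ h * ((toR θ (l ω)).dz (toR θ (l ω')) (qa h (t ω)) +
        (((l ω).s 0 - (fl b (l ω).s 0 : ℝ) / 2 ^ b) * ((l ω').pos (qa h (t ω)) 0 - (l ω).pos (qa h (t ω)) 0) +
        ((l ω).s 1 - (fl b (l ω).s 1 : ℝ) / 2 ^ b) * ((l ω').pos (qa h (t ω)) 1 - (l ω).pos (qa h (t ω)) 1))) := by
      rw [toR_dz]
      simp only [hu9, bl, Ry.pos, Ry.hgt, Fin.sum_univ_two]
      rw [hTT, es 0, es 1]
      ring
    have sk : ∀ k, |(l ω).s k - (fl b (l ω).s k : ℝ) / 2 ^ b| ≤ (1 / 2 : ℝ) ^ b := fun k => v1 ((l ω).s k)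
    have t0 := mul_le_mul (sk 0) (hp 0) (abs_nonneg _) pb0.le
    have t1 := mul_le_mul (sk 1) (hp 1) (abs_nonneg _) pb0.le
    rw [← abs_mul] at t0 t1
    have e1 : (1 / 2 : ℝ) ^ b * (27 * K0 * c ^ 2 * (1 / 2 : ℝ) ^ (h + b)) =
        27 * K0 * c ^ 2 * (1 / 2 : ℝ) ^ (h + b + b) := by rw [pow_add (1 / 2 : ℝ) (h + b) b]; ring
    rw [e1] at t0 t1
    have t2 := abs_add_le ((toR θ (l ω)).dz (toR θ (l ω')) (qa h (t ω)))
      (((l ω).s 0 - (fl b (l ω).s 0 : ℝ) / 2 ^ b) * ((l ω').pos (qa h (t ω)) 0 - (l ω).pos (qa h (t ω)) 0) +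
        ((l ω).s 1 - (fl b (l ω).s 1 : ℝ) / 2 ^ b) * ((l ω').pos (qa h (t ω)) 1 - (l ω).pos (qa h (t ω)) 1))
    have t3 := abs_add_le (((l ω).s 0 - (fl b (l ω).s 0 : ℝ) / 2 ^ b) * ((l ω').pos (qa h (t ω)) 0 - (l ω).pos (qa h (t ω)) 0))
      (((l ω).s 1 - (fl b (l ω).s 1 : ℝ) / 2 ^ b) * ((l ω').pos (qa h (t ω)) 1 - (l ω).pos (qa h (t ω)) 1))
    have t4 : |u9 ω - u9 ω'| ≤ 2 ^ h * (82 * K0 * c ^ 2 * (1 / 2 : ℝ) ^ (h + b + b)) := by
      rw [abs_sub_comm, key, abs_mul, abs_of_pos (by positivity : (0 : ℝ) < 2 ^ h)]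
      exact mul_le_mul_of_nonneg_left (by linarith) (by positivity)
    calc |u9 ω - u9 ω'| * 2 ^ (2 * b) ≤ 2 ^ h * (82 * K0 * c ^ 2 * (1 / 2 : ℝ) ^ (h + b + b)) * 2 ^ (2 * b) :=
          mul_le_mul_of_nonneg_right t4 (by positivity)
      _ = 82 * K0 * c ^ 2 * ((1 / 2 : ℝ) ^ (h + b + b) * 2 ^ (h + b + b)) := by
          rw [pow_add (2 : ℝ) (h + b) b, pow_add (2 : ℝ) h b, two_mul, pow_add (2 : ℝ) b b]; ring
      _ = 82 * K0 * c ^ 2 := by rw [← mul_pow]; norm_num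
      _ ≤ M := by
        have : 0 ≤ K0 * c ^ 2 := by positivity
        linarith
  have s10 : Stk.hc P pb G6 ≤ Real.log (((2 * M + 2) ^ 2 : ℕ) : ℝ) + (Real.log (((2 * M + 2) ^ 2 : ℕ) : ℝ) +
      Real.log ((2 * M + 2 : ℕ) : ℝ)) := by
    rw [hpbe, Stk.hc_pair, Stk.hc_pair]
    linarith
  linarith

/-- **GROW for the velocity digits** -/
theorem grow_v : ∀ lam N k k' β β' : ℝ, 0 ≤ lam → lam ≤ 1 → 0 ≤ k → k ≤ k' → 0 ≤ N →
    FIXA lam N k' β' → ∀ c : ℝ, 1 ≤ c → ∀ K0 : ℝ, 1 ≤ K0 → ∀ ε : ℝ, 0 < ε → ∃ K : ℝ, 0 ≤ K ∧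
      ∀ (d θ : ℝ) (Ω : Type) [Fintype Ω] (γ : Type) (P : Law Ω) (l : Ω → Ry) (t : Ω → ℝ) (C : Ω → γ) (L h q : ℕ)
      (W : Ω → Cbx), 1 ≤ h → NEx c lam N k β d P l t C L h q W →
      (∀ ω, 0 < P.w ω → 1 ≤ K0 * fn θ ((fuW h (W ω) (t ω)).cov (l ω))) →
      ∀ (Ω' : Type) [Fintype Ω'] (P' : Law Ω') (π : Ω' → Ω), (∀ ω, P'.pr π ω = P.w ω) →
      ∀ (δ : Type) (G : Ω' → δ) (b : ℕ), b ≤ q →
      (lam - k') * b * Real.log 2 ≤
        Stk.hc P' (fun ω => fl1 b (toR θ (l (π ω))).v) (fun ω => (W (π ω), fl1 h (t (π ω)), C (π ω), G ω)) +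
        (β' + ε - β + d) * h * Real.log 2 +
        Stk.hc P' G (fun ω => (W (π ω), fl1 h (t (π ω)), C (π ω))) +
        N * Stk.hc P' G (fun ω => (l (π ω), C (π ω))) + K := by
  intro lam N k k' β β' h0 h1 hk hkk hN hF c hc K0 hK0 ε hε
  obtain ⟨K1, hK1, H1⟩ := G480.growv H489.pCls H523.pLab lam N k k' β β' h0 h1 hk hkk hN hF c hc ε hε
  obtain ⟨K2, hK2, H2⟩ := hc_plb_le hc hK0
  refine ⟨K1 + K2, by linarith, ?_⟩
  intro d θ Ω _ γ P l t C L h q W hh hne htr Ω' _ P' π hπ δ G b hb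
  have e1 := H1 d Ω γ P l t C L h q W hh hne Ω' P' π hπ δ G b hb
  have hpos : ∀ ω, 0 < P'.w ω → 0 < P.w (π ω) := fun ω hω => by
    rw [← hπ]
    exact P'.pr_pos π hω
  have e2 := H2 θ Ω' _ P' (fun ω => l (π ω)) (fun ω => t (π ω))
    (fun ω => (W (π ω), fl1 h (t (π ω)), C (π ω), G ω)) (fun ω => W (π ω)) h q b hb (fun ω hω => by
      obtain ⟨w1, w2, w3⟩ := hne.lb (π ω) (hpos ω hω)
      exact Win.of w1 w2 w3 (htr (π ω) (hpos ω hω))) (fun ω ω' _ _ e => by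
      simp only [Prod.mk.injEq] at e
      exact ⟨e.1, e.2.1⟩)
  have e3 : (lam - k') * b * Real.log 2 + 3 * b * Real.log 2 + k' * b * Real.log 2 = (3 + lam) * b * Real.log 2 := by ring
  linarith

end Vale.Agent.P106.U.H786.Adp
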