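import Vale.Agent.P106.U.S3.F2
import Vale.Agent.P106.U.H931.Base
import Vale.Agent.P106.U.H958.Mfz

/-!
# P106 / U / H786 : collisions of the time and of the own slope given the cells of the V windows (helper786)

`R : S3.Run`, `D : Mtd` = 785's data of the run, `k ≤ q`, `R.Good p ε b q` (the time step of the level of `k`).

* `al_Z ka_Z cN_Z u_Z` : curvature, kappa, N-coefficient and `u` of the run given `Z q`.
* `MR R D k` : `D` is the run at the step `k` (true by `rfl` for the record instance; `rk`, `pf`, `gv` arbitrary).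
* `EL` : the two exceptional events of the letter; `lt_Z` : outside of them the letter is a function of `Z q`.
* `mtr_Z` : the same for the whole cell `mtr k b`.
* `cT_mtr` : time given `mtr k b`; `cT_Dp`, `cF_Dp` : time and slope given the cell and the slope digits, for ANY path `C'` with
  letter `lt k` at `k`; `cT_mfz`, `cF_mfz`, `cTD_mfz`, `cFD_mfz` : for 958's `mfz D k` (also in the form `DpM`).
* `cTE`, `cTE_Dp`, `cFE_Dp` : abstract versions, any letter which is a function of `Z q` outside of an event `E`.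
-/

set_option autoImplicit false

namespace Vale.Agent.P106.U.H786.CollV

open Finset Vale.Agent.P127 Vale.Agent.P127.Stk Vale.Agent.P106.W
open Vale.Agent.P106.K (Ry RyOk bl Bin)
open Vale.Agent.P127.U.CellD (q2 rd Nb q2_pos q2_add q2_le q2_mul_pow rd_le lt_rd)
open Vale.Agent.P127.U.Mic (colp colp_mono_cond colp_mono_var colp_nonneg colp_congr)
open Vale.Agent.P106.U.Cell (Pth Ray)
open Vale.Agent.P106.U.S3 (Run kaL uL)
open Vale.Agent.P106.U.H404 (fl1_le)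
open Vale.Agent.P106.U.H683 (Dp slR Side)
open Vale.Agent.P106.U.H785.Mtr (Mtd Lt)
open Vale.Agent.P106.U.H958 (mfz mfz_a mfz_rf mfz_T_iff mfz_cell_iff DpM)

/-! ### the numbers of the run given the ray side -/

section num

variable {Ω : Type} [Fintype Ω] {τ υ : Type} {R : Run Ω τ υ} {p : Run.Num} {K c' g' gU : ℝ} {k q : ℕ} {x y : Ω}

theorem Z_le (h : R.Ok p K c' g' gU) (hkq : k ≤ q) (hx : 0 < R.Q.w x) (hy : 0 < R.Q.w y) (e : R.Z q x = R.Z q y) :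
    R.Z k x = R.Z k y := h.Um k q hkq x y hx hy e

theorem l_Z (h : R.Ok p K c' g' gU) (e : R.Z q x = R.Z q y) : R.C.l x = R.C.l y := by
  have h1 : R.ry x = R.ry y := congrArg Prod.fst e
  rw [h.Cl, h.Cl, h1]

theorem td_Z (h : R.Ok p K c' g' gU) (hkq : k ≤ q) (hq : q ≤ R.n + p.J) (hx : 0 < R.Q.w x) (hy : 0 < R.Q.w y)
    (e : R.Z q x = R.Z q y) : fl1 (R.C.a k) (R.t x) = fl1 (R.C.a k) (R.t y) :=
  fl1_le (R.C.ha hkq) (h.Ut q hq x y hx hy e)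

theorem s_Z (h : R.Ok p K c' g' gU) (hkq : k ≤ q) (hq : q ≤ R.n + p.J) (hx : 0 < R.Q.w x) (hy : 0 < R.Q.w y)
    (e : R.Z q x = R.Z q y) : R.C.s k x = R.C.s k y := by
  have h1 := td_Z h hkq hq hx hy e
  unfold Pth.s rd
  rw [h.Ct, h.Ct, h1]

theorem al_Z (h : R.Ok p K c' g' gU) (hkq : k ≤ q) (hq : q ≤ R.n + p.J) (hx : 0 < R.Q.w x) (hy : 0 < R.Q.w y)
    (e : R.Z q x = R.Z q y) : R.al k x = R.al k y :=
  h.Ua k (hkq.trans hq) x y hx hy (Z_le h hkq hx hy e)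

/-- kappa of the line at the time of the step -/
theorem ka_Z (h : R.Ok p K c' g' gU) (hkq : k ≤ q) (hq : q ≤ R.n + p.J) (hx : 0 < R.Q.w x) (hy : 0 < R.Q.w y)
    (e : R.Z q x = R.Z q y) : |kaL R k y - kaL R k x| ≤ K * q2 (R.rI k) := by
  have h1 := h.lin k (hkq.trans hq) x y hx hy (Z_le h hkq hx hy e)
  have h2 := al_Z h hkq hq hx hy e
  have h3 := s_Z h hkq hq hx hy e
  have e1 : kaL R k y - kaL R k x = R.κ y - R.κ x + R.al k x * (R.tW y - R.tW x) := by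
    unfold kaL
    rw [h2, h3]
    ring
  rw [e1]
  exact h1

theorem fl1_close {n : ℕ} {x y : ℝ} (h : fl1 n x = fl1 n y) : |x - y| ≤ q2 n := by
  have h1 := rd_le n x
  have h2 := lt_rd n x
  have h3 := rd_le n y
  have h4 := lt_rd n y
  have h5 : rd n x = rd n y := by unfold rd; rw [h]
  rw [abs_le]
  constructor <;> linarith

theorem K_sq {K c : ℝ} (hK : 1 ≤ K) (hc : 0 < c) : K * c ≤ K ^ 2 * c := by
  have : K ≤ K ^ 2 := by nlinarith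
  exact mul_le_mul_of_nonneg_right this hc.le

/-- a normalised pair is determined by its slope -/
theorem nrm_dif {u v a b e δ K : ℝ} (hK : 1 ≤ K) (hu : 1 ≤ 2 * K * u) (hv : 1 ≤ 2 * K * v) (ha : |a| ≤ 1)
    (hb : |b| ≤ 1) (he1 : e ≤ 1) (h1 : |u ^ 2 * (1 + a ^ 2) - 1| ≤ e)
    (h2 : |v ^ 2 * (1 + b ^ 2) - 1| ≤ e) (hab : |a - b| ≤ δ) : |u - v| ≤ K * (2 * e + 4 * δ) := by
  have hu0 : 0 < u := by
    by_contra hc
    push Not at hc
    nlinarith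
  have hv0 : 0 < v := by
    by_contra hc
    push Not at hc
    nlinarith
  rw [abs_le] at h1 h2 ha hb
  have hδ : 0 ≤ δ := (abs_nonneg _).trans hab
  have he0 : 0 ≤ e := by linarith [h1.1, h1.2]
  have hv2 : v ^ 2 ≤ 2 := by
    have : v ^ 2 * 1 ≤ v ^ 2 * (1 + b ^ 2) :=
      mul_le_mul_of_nonneg_left (by nlinarith [sq_nonneg b]) (sq_nonneg _)
    linarith [h2.2]
  have k4 : |a ^ 2 - b ^ 2| ≤ 2 * δ := by
    have e0 : a ^ 2 - b ^ 2 = (a - b) * (a + b) := by ring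
    rw [e0, abs_mul]
    have g1 : |a + b| ≤ 2 := by rw [abs_le]; constructor <;> linarith [ha.1, ha.2, hb.1, hb.2]
    calc |a - b| * |a + b| ≤ δ * 2 := mul_le_mul hab g1 (abs_nonneg _) hδ
      _ = 2 * δ := by ring
  have k5 : |u ^ 2 - v ^ 2| ≤ 2 * e + 4 * δ := by
    have e0 : (u ^ 2 - v ^ 2) * (1 + a ^ 2) = (u ^ 2 * (1 + a ^ 2) - 1) - (v ^ 2 * (1 + b ^ 2) - 1) -
        v ^ 2 * (a ^ 2 - b ^ 2) := by ring
    have g1 : |(u ^ 2 - v ^ 2) * (1 + a ^ 2)| ≤ 2 * e + 4 * δ := by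
      rw [e0]
      have f1 : |v ^ 2 * (a ^ 2 - b ^ 2)| ≤ 2 * (2 * δ) := by
        rw [abs_mul, abs_of_nonneg (sq_nonneg _)]
        exact mul_le_mul hv2 k4 (abs_nonneg _) (by norm_num)
      have f2 := abs_le.1 f1
      rw [abs_le]
      constructor <;> linarith [h1.1, h1.2, h2.1, h2.2, f2.1, f2.2]
    rw [abs_mul, abs_of_pos (by positivity : (0 : ℝ) < 1 + a ^ 2)] at g1
    have g2 : |u ^ 2 - v ^ 2| * 1 ≤ |u ^ 2 - v ^ 2| * (1 + a ^ 2) :=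
      mul_le_mul_of_nonneg_left (by nlinarith [sq_nonneg a]) (abs_nonneg _)
    linarith
  have e0 : u ^ 2 - v ^ 2 = (u - v) * (u + v) := by ring
  rw [e0, abs_mul, abs_of_pos (by linarith : 0 < u + v)] at k5
  have g1 : |u - v| * 1 ≤ |u - v| * (K * (u + v)) :=
    mul_le_mul_of_nonneg_left (by nlinarith) (abs_nonneg _)
  have g2 := mul_le_mul_of_nonneg_left k5 (by linarith : 0 ≤ K)
  nlinarith

/-- the N-coefficient of the functional of `W` at the ray -/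
theorem cN_Z (h : R.Ok p K c' g' gU) (hK : 1 ≤ K) (hq : q ≤ R.n) (hqA : R.IsA q) (hJ : 1 ≤ p.J)
    (hr : 2 * K ^ 2 * q2 (R.C.rk q) ≤ 1)
    (hx : 0 < R.Q.w x) (hy : 0 < R.Q.w y) (e : R.Z q x = R.Z q y) :
    |(R.FW y).cN (R.C.l y) (R.tW y) - (R.FW x).cN (R.C.l x) (R.tW x)| ≤ 6 * K ^ 2 * q2 (R.rI q) := by
  have hI := h.pth.leI q (by omega) hqA
  have hF := h.pth.leF q (by omega)
  have hQ := h.pth.rF
  have hp : |R.C.p y - R.C.p x| ≤ q2 (R.rI q) := by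
    have e1 := h.Uf q (by omega) x y hx hy e
    have e2 := fl1_close e1
    rw [abs_sub_comm]
    exact e2.trans (q2_le hI.2.1)
  have pos : ∀ ω, 0 < R.Q.w ω → 1 ≤ 2 * K * ((R.FW ω).cN (R.C.l ω) (R.tW ω)) ∧ |R.C.p ω| ≤ 1 ∧
      |((R.FW ω).cN (R.C.l ω) (R.tW ω)) ^ 2 * (1 + R.C.p ω ^ 2) - 1| ≤ K * q2 (R.rI q) := by
    intro ω hω
    have L := H931.lat h hq le_rfl hω
    have h1 := L.ca
    have h2 := (h.ok ω hω).n1 q
    rw [abs_le] at h1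
    have h3 := (h.ok ω hω).p1
    refine ⟨?_, h3.trans (Pth.q2_le_one _), ?_⟩
    · have h4 := mul_le_mul_of_nonneg_left h1.1 (by linarith : (0 : ℝ) ≤ K)
      nlinarith
    · have h5 := h.FWn ω hω
      rw [← h.Cp ω hω] at h5
      have e0 : ((R.FW ω).cN (R.C.l ω) (R.tW ω)) ^ 2 * (1 + R.C.p ω ^ 2) - 1 =
          ((R.FW ω).cN (R.C.l ω) (R.tW ω)) ^ 2 + (R.C.p ω * (R.FW ω).cN (R.C.l ω) (R.tW ω)) ^ 2 - 1 := by ring
      rw [e0]
      exact h5.trans (mul_le_mul_of_nonneg_left (q2_le (by omega)) (by linarith))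
  obtain ⟨a1, a2, a3⟩ := pos y hy
  obtain ⟨b1, b2, b3⟩ := pos x hx
  have hKq : K * q2 (R.rI q) ≤ 1 := by
    have h1 : q2 (R.rI q) ≤ q2 (R.C.rk q) := q2_le hI.1
    have h2 := q2_pos (R.C.rk q)
    have h3 := q2_pos (R.rI q)
    nlinarith
  have key := nrm_dif hK a1 b1 a2 b2 hKq a3 b3 hp
  refine key.trans ?_
  have h3 := K_sq hK (q2_pos (R.rI q))
  have e0 : K * (2 * (K * q2 (R.rI q)) + 4 * q2 (R.rI q)) = 2 * (K ^ 2 * q2 (R.rI q)) + 4 * (K * q2 (R.rI q)) := by ring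
  rw [e0]
  linarith

/-- the gamma number of the letter -/
theorem u_Z (h : R.Ok p K c' g' gU) (hK : 1 ≤ K) (hkq : k ≤ q) (hq : q ≤ R.n) (hqA : R.IsA q) (hJ : 1 ≤ p.J)
    (hr : 2 * K ^ 2 * q2 (R.C.rk q) ≤ 1) (o : Fin 7 → ℝ)
    (hx : 0 < R.Q.w x) (hy : 0 < R.Q.w y) (e : R.Z q x = R.Z q y) :
    |uL R o k y - uL R o k x| ≤ 8 * K ^ 2 * q2 (R.rI k) := by
  have h1 := cN_Z h hK hq hqA hJ hr hx hy e
  have h2 := ka_Z h hkq (by omega) hx hy e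
  have h3 := al_Z h hkq (by omega) hx hy e
  have h4 := s_Z h hkq (by omega) hx hy e
  have h5 := l_Z h e
  have h6 : |(R.C.l y).w| ≤ 2 := (h.ok y hy).w1
  have e1 : uL R o k y - uL R o k x = ((R.FW y).cN (R.C.l y) (R.tW y) - (R.FW x).cN (R.C.l x) (R.tW x)) +
      (kaL R k y - kaL R k x) * (R.C.l y).w := by
    unfold uL S3.unL
    rw [h3, h4, h5]
    ring
  rw [e1]
  refine (abs_add_le _ _).trans ?_
  have h7 : |(kaL R k y - kaL R k x) * (R.C.l y).w| ≤ K * q2 (R.rI k) * 2 := by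
    rw [abs_mul]
    exact mul_le_mul h2 h6 (abs_nonneg _) ((abs_nonneg _).trans h2)
  have h8 : q2 (R.rI q) ≤ q2 (R.rI k) := q2_le (h.pth.mI hkq)
  have h9 : 6 * K ^ 2 * q2 (R.rI q) ≤ 6 * K ^ 2 * q2 (R.rI k) := mul_le_mul_of_nonneg_left h8 (by positivity)
  have h10 := K_sq hK (q2_pos (R.rI k))
  linarith

end num

/-! ### the letter of the V windows -/

section letter

variable {Ω : Type} [Fintype Ω] {τ υ π : Type} {R : Run Ω τ υ} {p : Run.Num} {K c' g' gU : ℝ} {k q : ℕ} {x y : Ω}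
  {D : Mtd Ω π}

/-- `D` is the run at the step `k` (`rk`, `pf`, `gv` arbitrary) -/
structure MR (R : Run Ω τ υ) (D : Mtd Ω π) (k : ℕ) : Prop where
  a : D.a k = R.C.a k
  rf : D.rf k = R.C.rf k
  l : D.l = R.C.l
  t : D.t = R.C.t
  p : D.p = R.C.p
  un : ∀ ω, D.un ω = (R.FW ω).cN (R.C.l ω) (R.tW ω)
  κ : ∀ ω, D.κ k ω = kaL R k ω
  al : ∀ ω, D.al k ω = R.al k ω

theorem MR.s (M : MR R D k) (ω : Ω) : D.s k ω = R.C.s k ω := by
  unfold Mtd.s Pth.s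
  rw [M.a, M.t]

theorem MR.u (M : MR R D k) (ω : Ω) : D.u k ω = uL R D.o k ω := by
  unfold Mtd.u uL S3.unL Mtd.Nr Mtd.nN
  rw [M.un, M.κ, M.al, M.l, M.s, M.a]

/-- the exceptional events of the letter -/
def EL (D : Mtd Ω π) (r1 r2 : ℝ) (k : ℕ) (ω : Ω) : Prop :=
  Nb (D.rr k) (D.κ k ω + D.oκ) r1 ∨ Nb (D.rr k) (D.u k ω + D.oγ) r2

/-- **the letter is a function of `Z q` outside of `EL`** -/
theorem lt_Z (h : R.Ok p K c' g' gU) (hK : 1 ≤ K) (M : MR R D k) (hkq : k ≤ q) (hq : q ≤ R.n) (hqA : R.IsA q)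
    (hJ : 1 ≤ p.J) (hr : 2 * K ^ 2 * q2 (R.C.rk q) ≤ 1) (hx : 0 < R.Q.w x) (hy : 0 < R.Q.w y)
    (e : R.Z q x = R.Z q y) (hpf : D.pf k x = D.pf k y)
    (hE : ¬ EL D (K * q2 (R.rI k)) (8 * K ^ 2 * q2 (R.rI k)) k x) : D.lt k x = D.lt k y := by
  unfold EL at hE
  push Not at hE
  have h1 := td_Z h hkq (by omega) hx hy e
  have h2 := l_Z h e
  have h3 := ka_Z h hkq (by omega) hx hy e
  have h4 := u_Z h hK hkq hq hqA hJ hr D.o hx hy e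
  have h5 := s_Z h hkq (by omega) hx hy e
  have hq0 := q2_pos (R.rI k)
  have e1 : fl1 (D.a k) (D.t x) = fl1 (D.a k) (D.t y) := by
    rw [M.a, M.t, h.Ct, h.Ct]
    exact h1
  have e2 : D.kN k x = D.kN k y := by
    refine Nb.eq hE.1 ?_ ?_
    · rw [sub_self, abs_zero]
      positivity
    · rw [M.κ, M.κ]
      have : kaL R k y + D.oκ - (kaL R k x + D.oκ) = kaL R k y - kaL R k x := by ring
      rw [this]
      exact h3
  have e3 : D.uN k x = D.uN k y := by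
    refine Nb.eq hE.2 ?_ ?_
    · rw [sub_self, abs_zero]
      positivity
    · rw [M.u, M.u]
      have : uL R D.o k y + D.oγ - (uL R D.o k x + D.oγ) = uL R D.o k y - uL R D.o k x := by ring
      rw [this]
      exact h4
  have e4 : D.nN k x = D.nN k y := by
    unfold Mtd.nN
    rw [M.s, M.s, M.l, h5, h2]
  unfold Mtd.lt
  rw [e1, hpf, e2, e3, e4]

/-- ray, letter and own slope determine the cell -/
theorem mtr_eq (M : MR R D k) (b : ℕ) (hl : R.C.l x = R.C.l y) (hp : fl1 (R.C.rf k) (R.C.p x) = fl1 (R.C.rf k) (R.C.p y))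
    (e : D.lt k x = D.lt k y) : D.mtr k b x = D.mtr k b y := by
  rw [← D.p1_cell_iff k 0 b x y]
  refine H683.cell_side ?_ ?_ ?_
  · show D.l x = D.l y
    rw [M.l]
    exact hl
  · show (D.lt k x, fun j => if j < 0 then some (D.lt k x) else none) =
      (D.lt k y, fun j => if j < 0 then some (D.lt k y) else none)
    rw [e]
  · show fl1 (D.rf k) (D.p x) = fl1 (D.rf k) (D.p y)
    rw [M.rf, M.p]
    exact hp

/-- **the cell is a function of `Z q` outside of `EL`** -/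
theorem mtr_Z (h : R.Ok p K c' g' gU) (hK : 1 ≤ K) (M : MR R D k) (hkq : k ≤ q) (hq : q ≤ R.n) (hqA : R.IsA q)
    (hJ : 1 ≤ p.J) (hr : 2 * K ^ 2 * q2 (R.C.rk q) ≤ 1) (b : ℕ) (hx : 0 < R.Q.w x) (hy : 0 < R.Q.w y)
    (e : R.Z q x = R.Z q y) (hpf : D.pf k x = D.pf k y)
    (hE : ¬ EL D (K * q2 (R.rI k)) (8 * K ^ 2 * q2 (R.rI k)) k x) : D.mtr k b x = D.mtr k b y :=
  mtr_eq M b (l_Z h e) (fl1_le (R.C.hf hkq) (h.Uf q (by omega) x y hx hy e))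
    (lt_Z h hK M hkq hq hqA hJ hr hx hy e hpf hE)

end letter

/-! ### the collisions, abstract -/

section abs

variable {Ω : Type} [Fintype Ω] {τ υ : Type} {R : Run Ω τ υ} {p : Run.Num} {K c' g' gU : ℝ} {ε : ℝ} {b b' k q g : ℕ}

theorem tb_le (h : R.Ok p K c' g' gU) (G : R.Good p ε b q) (ha : R.C.a k = R.C.a q) (hmg : R.m ≤ g) :
    colp R.Q (fun ω => fl1 (R.C.a k + g) (R.C.t ω)) (R.Z q) ≤ ε := by
  refine le_trans (colp_mono_cond R.Q _ ?_) (H931.time_le h G ha hmg)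
  exact fun _ _ _ _ e => congrArg Prod.fst e

theorem fb_le (G : R.Good p ε b q) (h1 : R.C.rf q < p.QF) (h2 : R.C.rf q < R.rI q + p.B₁)
    (hfg : R.C.rf q + R.m ≤ R.C.rf k + g) :
    colp R.Q (fun ω => fl1 (R.C.rf k + g) (R.C.p ω)) (R.Z q) ≤ ε := by
  refine le_trans ?_ (G.phi h1 h2)
  refine le_trans (colp_mono_cond R.Q (Z := fun ω => (R.Z q ω, R.C.cell q b ω)) _
    fun _ _ _ _ e => congrArg Prod.fst e) ?_
  refine colp_mono_var R.Q _ ?_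
  intro x y _ _ e
  have h3 : fl1 (R.C.rf k + g) (R.C.p x) = fl1 (R.C.rf k + g) (R.C.p y) := (Prod.mk.inj e).1
  exact fl1_le hfg h3

/-- **time**, given a letter which is a function of `Z q` outside of `E` -/
theorem cTE (h : R.Ok p K c' g' gU) (G : R.Good p ε b q) (ha : R.C.a k = R.C.a q) (hmg : R.m ≤ g) {U : Type*}
    (X : Ω → U) (E : Ω → Prop)
    (hE : ∀ x y, 0 < R.Q.w x → 0 < R.Q.w y → ¬ E x → ¬ E y → R.Z q x = R.Z q y → X x = X y) :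
    colp R.Q (fun ω => fl1 (R.C.a k + g) (R.C.t ω)) X ≤ 2 * ε + 3 * prE R.Q E := by
  have h1 := H300.colp_bad R.Q (fun ω => fl1 (R.C.a k + g) (R.C.t ω)) X (R.Z q) E hE
  have h2 := tb_le h G ha hmg
  linarith

/-- **own slope**, given a letter which is a function of `Z q` outside of `E` -/
theorem cFE (G : R.Good p ε b q) (h1 : R.C.rf q < p.QF) (h2 : R.C.rf q < R.rI q + p.B₁)
    (hfg : R.C.rf q + R.m ≤ R.C.rf k + g) {U : Type*} (X : Ω → U) (E : Ω → Prop)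
    (hE : ∀ x y, 0 < R.Q.w x → 0 < R.Q.w y → ¬ E x → ¬ E y → R.Z q x = R.Z q y → X x = X y) :
    colp R.Q (fun ω => fl1 (R.C.rf k + g) (R.C.p ω)) X ≤ 2 * ε + 3 * prE R.Q E := by
  have h3 := H300.colp_bad R.Q (fun ω => fl1 (R.C.rf k + g) (R.C.p ω)) X (R.Z q) E hE
  have h4 := fb_le (k := k) (g := g) G h1 h2 hfg
  linarith

variable {τ' : Type} {C' : Pth Ω τ'} {K' : ℝ} {j : ℕ}

/-- **time, given cell and slope digits of a path `C'`** whose data are determined by `X` at the step `j` -/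
theorem cTE_Dp (h : R.Ok p K c' g' gU) (G : R.Good p ε b q) (ha : R.C.a k = R.C.a q) (hmg : R.m ≤ g) {U : Type*}
    (X : Ω → U) (E : Ω → Prop)
    (hE : ∀ x y, 0 < R.Q.w x → 0 < R.Q.w y → ¬ E x → ¬ E y → R.Z q x = R.Z q y → X x = X y)
    (hS : Side R.Q C' j X) (hok : ∀ ω, 0 < R.Q.w ω → C'.Ok K' ω) {M : ℕ} (hM : K' ≤ M) :
    colp R.Q (fun ω => fl1 (R.C.a k + g) (R.C.t ω)) (Dp C' j b') ≤
      Real.sqrt (((2 * M + 3 : ℕ) : ℝ) * (2 * ε + 3 * prE R.Q E)) :=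
  (H683.colp_Dp R.Q _ hS hok hM).trans
    (Real.sqrt_le_sqrt (mul_le_mul_of_nonneg_left (cTE h G ha hmg X E hE) (Nat.cast_nonneg _)))

/-- **slope** -/
theorem cFE_Dp (G : R.Good p ε b q) (h1 : R.C.rf q < p.QF) (h2 : R.C.rf q < R.rI q + p.B₁)
    (hfg : R.C.rf q + R.m ≤ R.C.rf k + g) {U : Type*} (X : Ω → U) (E : Ω → Prop)
    (hE : ∀ x y, 0 < R.Q.w x → 0 < R.Q.w y → ¬ E x → ¬ E y → R.Z q x = R.Z q y → X x = X y)
    (hS : Side R.Q C' j X) (hp : C'.p = R.C.p) (hok : ∀ ω, 0 < R.Q.w ω → C'.Ok K' ω) {M : ℕ} (hM : K' ≤ M) :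
    colp R.Q (fun ω => fl1 (R.C.rf k + g) (slR C' j b' ω)) (Dp C' j b') ≤
      Real.sqrt (((2 * M + 3 : ℕ) : ℝ) * ((2 * (M + 1 : ℕ) + 1) * (2 * ε + 3 * prE R.Q E))) := by
  refine (H683.colp_slR R.Q hS hok hM _).trans ?_
  refine Real.sqrt_le_sqrt (mul_le_mul_of_nonneg_left (mul_le_mul_of_nonneg_left ?_ (by positivity))
    (Nat.cast_nonneg _))
  rw [hp]
  exact cFE (k := k) (g := g) G h1 h2 hfg X E hE

end abs

/-! ### the collisions for `mtr` and for 958's `mfz` -/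

section conc

variable {Ω : Type} [Fintype Ω] {τ υ π : Type} {R : Run Ω τ υ} {p : Run.Num} {K c' g' gU : ℝ} {ε : ℝ} {b b' k q g : ℕ}
  {D : Mtd Ω π} {K' : ℝ}

/-- **time given `mtr k b`** ; `Ep` = exceptional event of the prefix letter (`fun _ => False` if it is a function of `Z k`) -/
theorem cT_mtr (h : R.Ok p K c' g' gU) (hK : 1 ≤ K) (G : R.Good p ε b q) (M : MR R D k) (hkq : k ≤ q) (hq : q ≤ R.n)
    (hJ : 1 ≤ p.J) (hr : 2 * K ^ 2 * q2 (R.C.rk q) ≤ 1) (ha : R.C.a k = R.C.a q) (hmg : R.m ≤ g) (Ep : Ω → Prop)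
    (hpf : ∀ x y, 0 < R.Q.w x → 0 < R.Q.w y → ¬ Ep x → ¬ Ep y → R.Z q x = R.Z q y → D.pf k x = D.pf k y) :
    colp R.Q (fun ω => fl1 (D.a k + g) (D.t ω)) (D.mtr k b') ≤ 2 * ε +
      3 * prE R.Q (fun ω => Ep ω ∨ EL D (K * q2 (R.rI k)) (8 * K ^ 2 * q2 (R.rI k)) k ω) := by
  rw [M.a, M.t]
  refine cTE h G ha hmg _ _ ?_
  intro x y hx hy n1 n2 e
  push Not at n1 n2
  exact mtr_Z h hK M hkq hq G.isA hJ hr b' hx hy e (hpf x y hx hy n1.1 n2.1 e) n1.2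

theorem side_mfz (h : R.Ok p K c' g' gU) (M : MR R D k) (hkq : k ≤ q) (hq : q ≤ R.n + p.J) :
    Side R.Q (mfz D k) k (fun ω => (R.Z q ω, D.lt k ω)) := by
  intro x y hx hy e
  simp only [Prod.mk.injEq] at e
  refine ⟨?_, ?_, ?_⟩
  · show D.l x = D.l y
    rw [M.l]
    exact l_Z h e.1
  · exact (mfz_T_iff (by omega)).2 ⟨e.2, congrArg Prod.fst e.2⟩
  · rw [mfz_rf (by omega), M.rf]
    show fl1 (R.C.rf k) (D.p x) = fl1 (R.C.rf k) (D.p y)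
    rw [M.p]
    exact fl1_le (R.C.hf hkq) (h.Uf q hq x y hx hy e.1)

theorem ZX (h : R.Ok p K c' g' gU) (hK : 1 ≤ K) (G : R.Good p ε b q) (M : MR R D k) (hkq : k ≤ q) (hq : q ≤ R.n)
    (hJ : 1 ≤ p.J) (hr : 2 * K ^ 2 * q2 (R.C.rk q) ≤ 1) (Ep : Ω → Prop)
    (hpf : ∀ x y, 0 < R.Q.w x → 0 < R.Q.w y → ¬ Ep x → ¬ Ep y → R.Z q x = R.Z q y → D.pf k x = D.pf k y) :
    ∀ x y, 0 < R.Q.w x → 0 < R.Q.w y →
      ¬ (Ep x ∨ EL D (K * q2 (R.rI k)) (8 * K ^ 2 * q2 (R.rI k)) k x) →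
      ¬ (Ep y ∨ EL D (K * q2 (R.rI k)) (8 * K ^ 2 * q2 (R.rI k)) k y) → R.Z q x = R.Z q y →
      (R.Z q x, D.lt k x) = (R.Z q y, D.lt k y) := by
  intro x y hx hy n1 n2 e
  push Not at n1 n2
  exact Prod.ext e (lt_Z h hK M hkq hq G.isA hJ hr hx hy e (hpf x y hx hy n1.1 n2.1 e) n1.2)

/-- **time given `Dp` of 958's frozen path** (`MIC.cT` in the form of 958) -/
theorem cT_mfz (h : R.Ok p K c' g' gU) (hK : 1 ≤ K) (G : R.Good p ε b q) (M : MR R D k) (hkq : k ≤ q) (hq : q ≤ R.n)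
    (hJ : 1 ≤ p.J) (hr : 2 * K ^ 2 * q2 (R.C.rk q) ≤ 1) (ha : R.C.a k = R.C.a q) (hmg : R.m ≤ g) (Ep : Ω → Prop)
    (hpf : ∀ x y, 0 < R.Q.w x → 0 < R.Q.w y → ¬ Ep x → ¬ Ep y → R.Z q x = R.Z q y → D.pf k x = D.pf k y)
    (hok : ∀ ω, 0 < R.Q.w ω → (mfz D k).Ok K' ω) {M' : ℕ} (hM : K' ≤ M') :
    colp R.Q (fun ω => fl1 (D.a k + g) (D.t ω)) (Dp (mfz D k) k b') ≤ Real.sqrt (((2 * M' + 3 : ℕ) : ℝ) * (2 * ε +
      3 * prE R.Q (fun ω => Ep ω ∨ EL D (K * q2 (R.rI k)) (8 * K ^ 2 * q2 (R.rI k)) k ω))) := by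
  rw [M.a, M.t]
  exact cTE_Dp h G ha hmg _ _ (ZX h hK G M hkq hq hJ hr Ep hpf) (side_mfz h M hkq (by omega)) hok hM

/-- **slope given `Dp` of 958's frozen path** -/
theorem cF_mfz (h : R.Ok p K c' g' gU) (hK : 1 ≤ K) (G : R.Good p ε b q) (M : MR R D k) (hkq : k ≤ q) (hq : q ≤ R.n)
    (hJ : 1 ≤ p.J) (hr : 2 * K ^ 2 * q2 (R.C.rk q) ≤ 1) (h1 : R.C.rf q < p.QF) (h2 : R.C.rf q < R.rI q + p.B₁)
    (hfg : R.C.rf q + R.m ≤ R.C.rf k + g) (Ep : Ω → Prop)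
    (hpf : ∀ x y, 0 < R.Q.w x → 0 < R.Q.w y → ¬ Ep x → ¬ Ep y → R.Z q x = R.Z q y → D.pf k x = D.pf k y)
    (hok : ∀ ω, 0 < R.Q.w ω → (mfz D k).Ok K' ω) {M' : ℕ} (hM : K' ≤ M') :
    colp R.Q (fun ω => fl1 (D.rf k + g) (slR (mfz D k) k b' ω)) (Dp (mfz D k) k b') ≤
      Real.sqrt (((2 * M' + 3 : ℕ) : ℝ) * ((2 * (M' + 1 : ℕ) + 1) * (2 * ε +
      3 * prE R.Q (fun ω => Ep ω ∨ EL D (K * q2 (R.rI k)) (8 * K ^ 2 * q2 (R.rI k)) k ω)))) := by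
  rw [M.rf]
  exact cFE_Dp (k := k) (g := g) G h1 h2 hfg _ _ (ZX h hK G M hkq hq hJ hr Ep hpf) (side_mfz h M hkq (by omega))
    M.p hok hM

/-- `Dp` of the frozen path = 958's `DpM` -/
theorem colp_DpM {S : Type} (X : Ω → S) : colp R.Q X (Dp (mfz D k) k b') = colp R.Q X (DpM D k b') := by
  have e0 : (mfz D k).rf k = D.rf k := mfz_rf (by omega)
  have e : ∀ ω ω', Dp (mfz D k) k b' ω = Dp (mfz D k) k b' ω' ↔ DpM D k b' ω = DpM D k b' ω' := by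
    intro ω ω'
    unfold H683.Dp H958.DpM
    rw [e0]
    simp only [Prod.mk.injEq]
    exact and_congr_left' (mfz_cell_iff b' ω ω')
  exact colp_congr R.Q (fun _ _ _ _ e => congrArg Prod.fst e) (fun _ _ _ _ e => congrArg Prod.fst e)
    (fun ω ω' _ _ e' => (e ω ω').2 e') (fun ω ω' _ _ e' => (e ω ω').1 e')

/-- **time given `DpM`** (958's `satPhi_mfz`) -/
theorem cTD_mfz (h : R.Ok p K c' g' gU) (hK : 1 ≤ K) (G : R.Good p ε b q) (M : MR R D k) (hkq : k ≤ q) (hq : q ≤ R.n)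
    (hJ : 1 ≤ p.J) (hr : 2 * K ^ 2 * q2 (R.C.rk q) ≤ 1) (ha : R.C.a k = R.C.a q) (hmg : R.m ≤ g) (Ep : Ω → Prop)
    (hpf : ∀ x y, 0 < R.Q.w x → 0 < R.Q.w y → ¬ Ep x → ¬ Ep y → R.Z q x = R.Z q y → D.pf k x = D.pf k y)
    (hok : ∀ ω, 0 < R.Q.w ω → (mfz D k).Ok K' ω) {M' : ℕ} (hM : K' ≤ M') :
    colp R.Q (fun ω => fl1 (D.a k + g) (D.t ω)) (DpM D k b') ≤ Real.sqrt (((2 * M' + 3 : ℕ) : ℝ) * (2 * ε +
      3 * prE R.Q (fun ω => Ep ω ∨ EL D (K * q2 (R.rI k)) (8 * K ^ 2 * q2 (R.rI k)) k ω))) := by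
  rw [← colp_DpM]
  exact cT_mfz h hK G M hkq hq hJ hr ha hmg Ep hpf hok hM

/-- **slope given `DpM`** -/
theorem cFD_mfz (h : R.Ok p K c' g' gU) (hK : 1 ≤ K) (G : R.Good p ε b q) (M : MR R D k) (hkq : k ≤ q) (hq : q ≤ R.n)
    (hJ : 1 ≤ p.J) (hr : 2 * K ^ 2 * q2 (R.C.rk q) ≤ 1) (h1 : R.C.rf q < p.QF) (h2 : R.C.rf q < R.rI q + p.B₁)
    (hfg : R.C.rf q + R.m ≤ R.C.rf k + g) (Ep : Ω → Prop)
    (hpf : ∀ x y, 0 < R.Q.w x → 0 < R.Q.w y → ¬ Ep x → ¬ Ep y → R.Z q x = R.Z q y → D.pf k x = D.pf k y)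
    (hok : ∀ ω, 0 < R.Q.w ω → (mfz D k).Ok K' ω) {M' : ℕ} (hM : K' ≤ M') :
    colp R.Q (fun ω => fl1 (D.rf k + g) (slR (mfz D k) k b' ω)) (DpM D k b') ≤
      Real.sqrt (((2 * M' + 3 : ℕ) : ℝ) * ((2 * (M' + 1 : ℕ) + 1) * (2 * ε +
      3 * prE R.Q (fun ω => Ep ω ∨ EL D (K * q2 (R.rI k)) (8 * K ^ 2 * q2 (R.rI k)) k ω)))) := by
  rw [← colp_DpM]
  exact cF_mfz h hK G M hkq hq hJ hr h1 h2 hfg Ep hpf hok hM

end conc

end Vale.Agent.P106.U.H786.CollV
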