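import Vale.Agent.P106.U.H786.CollV
import Vale.Agent.P106.U.H785.MtrF2
import Vale.Agent.P106.U.H518.FzW
import Vale.Agent.P106.U.H958.EqAt
import Vale.Agent.P106.U.H457.UnkD

/-!
# P106 / U / H786 : collisions of the V windows, summed (helper786; row [SC], kinds 1 and 2)

`Cx` : the hypotheses (record, `F2`, the sums `F2o` at the margin `μ`). `b = m b1`.

* `xL k`, `xK k`, `xP k i` : exceptional probabilities (fields `offL`, `offK`, `offP` of `F2o`), `E1`, `E2` : the events.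
* `lt_W`, `lt0_of_lt` : the letters of `mt`, `mt0` are functions of `W'`; `fz_W` : the cells of the frozen paths, `mtr_W`, `dp_W`.
* `Tq` : the good time step `q` of the step `k`.
* kind 1 (kappa regime, `mt`) : `cT1`, `cY1`, `pA1`, `cc1`; **`sum1`**, **`kap1`**.
* kind 2 (deep phi regime, `mt0`) : `cT2`, `cF2`, `cY2`, `cc2`, `reg_of`; **`sum2`**, **`kap2`**.
-/

set_option autoImplicit false

namespace Vale.Agent.P106.U.H786.SC

open Finset Vale.Agent.P127 Vale.Agent.P106.W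
open Vale.Agent.P127.Stk hiding cst
open Vale.Agent.P127.U.CellD (q2 rd Nb q2_pos q2_add q2_le q2_mul_pow rd_sub fl1_fl1)
open Vale.Agent.P127.U.Mic (colp colp_nonneg)
open Vale.Agent.P106.U.Cell
open Vale.Agent.P106.U.S3 (Run kaL uL mt mt0 F2 F2o IdK IdP At' exc lv Pf)
open Vale.Agent.P106.U.H785.Mtr
open Vale.Agent.P106.U.H384.MtrW
open Vale.Agent.P106.U.H364.N4 (cst ClW OkW one_le_cst)
open Vale.Agent.P106.U.H518.FzW
open Vale.Agent.P106.U.H786.CollV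
open Vale.Agent.P106.U.H958 (mfz DpM eqAt_mfz)

/-! ### numbers -/

lemma Nb_mono {n n' : ℕ} {z r r' : ℝ} (hn : n ≤ n') (hr : r ≤ r') (h : Nb n z r) : Nb n' z r' := by
  obtain ⟨y, h1, h2, h3⟩ := h
  by_contra hc
  have r0 : 0 ≤ r := by linarith
  refine h3 (fl1_fl1 hn (Nb.eq hc ?_ ?_))
  · rw [abs_le]; constructor <;> linarith
  · rw [abs_le]; constructor <;> linarith

lemma cst_le {K c : ℝ} (h1 : 1 ≤ K) (c1 : 1 ≤ c) (c2 : c ≤ 1000) :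
    4 * cst (8 * (4 * K)) (6 * c ^ 2 * K) ≤ (100 * K) ^ 20 := by
  have e1 : c ^ 4 ≤ 1000 ^ 4 := pow_le_pow_left₀ (by linarith) c2 4
  have e2 : K ^ 9 ≤ K ^ 20 := pow_le_pow_right₀ h1 (by norm_num)
  have e3 : 4 * cst (8 * (4 * K)) (6 * c ^ 2 * K) = 28800 * 32 ^ 7 * (c ^ 4 * K ^ 9) := by
    unfold cst; ring
  have e4 : c ^ 4 * K ^ 9 ≤ 1000 ^ 4 * K ^ 20 := mul_le_mul e1 e2 (by positivity) (by norm_num)
  have e5 : (100 * K) ^ 20 = 100 ^ 20 * K ^ 20 := by ring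
  have e6 : 0 < K ^ 20 := by positivity
  rw [e3, e5]
  nlinarith

lemma rad_le {K c : ℝ} (h1 : 1 ≤ K) (c1 : 1 ≤ c) (c2 : c ≤ 1000) :
    8 * (4 * K) * (6 * c ^ 2 * K) ≤ (100 * K) ^ 20 := by
  have e1 : c ^ 2 ≤ 1000 ^ 2 := pow_le_pow_left₀ (by linarith) c2 2
  have e2 : K ^ 2 ≤ K ^ 20 := pow_le_pow_right₀ h1 (by norm_num)
  have e4 : c ^ 2 * K ^ 2 ≤ 1000 ^ 2 * K ^ 20 := mul_le_mul e1 e2 (by positivity) (by norm_num)
  have e5 : (100 * K) ^ 20 = 100 ^ 20 * K ^ 20 := by ring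
  have e6 : 0 < K ^ 20 := by positivity
  rw [e5]
  nlinarith

lemma big_le {K c : ℝ} (h1 : 1 ≤ K) (c1 : 1 ≤ c) (c2 : c ≤ 1000) :
    (8 * (4 * K)) ^ 2 * (6 * c ^ 2 * K) ≤ (100 * K) ^ 20 := by
  have e1 : c ^ 2 ≤ 1000 ^ 2 := pow_le_pow_left₀ (by linarith) c2 2
  have e2 : K ^ 3 ≤ K ^ 20 := pow_le_pow_right₀ h1 (by norm_num)
  have e4 : c ^ 2 * K ^ 3 ≤ 1000 ^ 2 * K ^ 20 := mul_le_mul e1 e2 (by positivity) (by norm_num)
  have e5 : (100 * K) ^ 20 = 100 ^ 20 * K ^ 20 := by ring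
  have e6 : 0 < K ^ 20 := by positivity
  rw [e5]
  nlinarith

lemma pow_le20 {K : ℝ} (h1 : 1 ≤ K) {n : ℕ} (hn : n ≤ 20) {a : ℝ} (ha : a ≤ 100 ^ 20) :
    a * K ^ n ≤ (100 * K) ^ 20 := by
  have e2 : K ^ n ≤ K ^ 20 := pow_le_pow_right₀ h1 hn
  have e5 : (100 * K) ^ 20 = 100 ^ 20 * K ^ 20 := by ring
  rw [e5]
  exact mul_le_mul ha e2 (by positivity) (by norm_num)

/-! ### the hypotheses -/

section

variable {Ω : Type} [Fintype Ω] {τ υ π : Type}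

/-- **the hypotheses** -/
structure Cx (R : Run Ω τ υ) (p : Run.Num) (K c' g' gU c εc : ℝ) (B bS bV : ℕ) (F : Pf R π) (Vs Xs : Finset ℕ)
    (μ : ℕ) (K' : ℝ) (o : Fin 7 → ℝ) (o' : ℕ → ℝ) : Prop where
  ok : R.Ok p K c' g' gU
  f2 : F2 R p K B bS bV F Vs Xs
  fo : F2o R p B bS bV F Vs Xs μ K' o o'
  cap : R.Cap p B εc
  lb : ∀ ω, 0 < R.Q.w ω → LbOk c R.L R.h (R.W ω) (R.ry ω) (R.t ω) ∧ (R.W ω).u2 = 1 ∧ (R.W ω).u1 = (1 / 2 : ℝ) ^ R.q
  K1 : 1 ≤ K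
  c1 : 1 ≤ c
  c2 : c ≤ 1000
  KB : (100 * K) ^ 20 ≤ (B : ℝ)
  r0 : 100 * (R.m * B) ≤ R.r0
  μB : μ ≤ B
  μC : μ ≤ R.C.μ
  KK : (100 * K) ^ 20 ≤ K'
  /-- levels of the steps -/
  aA : ∀ k ≤ R.n, R.C.a k ≤ p.A'
  q : ∀ k ≤ R.n, R.C.rk k + 2 * (R.m * R.b1) ≤ R.q

variable {R : Run Ω τ υ} {p : Run.Num} {K c' g' gU c εc : ℝ} {B bS bV μ : ℕ}
  {F : Pf R π} {Vs Xs : Finset ℕ} {K' : ℝ} {o : Fin 7 → ℝ} {o' : ℕ → ℝ} {k q i g : ℕ} {x y ω : Ω}

section cx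

variable (h : Cx R p K c' g' gU c εc B bS bV F Vs Xs μ K' o o')

include h

lemma Cx.rk_ge (k : ℕ) : R.r0 ≤ R.C.rk k := h.ok.pth.k0 ▸ R.C.hk (Nat.zero_le k)

lemma Cx.mB : B ≤ R.m * B := Nat.le_mul_of_pos_left B h.ok.pth.m1

lemma Cx.B1 : 1 ≤ B := by
  by_contra hc
  have e : B = 0 := by omega
  have h1 := h.KB
  rw [e] at h1
  have : (1 : ℝ) ≤ (100 * K) ^ 20 := one_le_pow₀ (by linarith [h.K1])
  norm_num at h1
  linarith

lemma Cx.b8 : 8 * B ≤ R.m * R.b1 := by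
  have h1 := h.cap.low
  have h2 : R.b1 ≤ R.m * R.b1 := Nat.le_mul_of_pos_left _ h.ok.pth.m1
  omega

lemma Cx.r2 (k : ℕ) : 2 * K ^ 2 * q2 (R.C.rk k) ≤ 1 := by
  have h1 := h.rk_ge k
  have h2 := h.r0
  have h3 := h.mB
  have := H785.Mtr.small h.K1 h.KB (n := R.C.rk k) (by omega)
  have := q2_pos (R.C.rk k)
  nlinarith [sq_nonneg K]

lemma Cx.big : (8 * (4 * K)) ^ 2 * (6 * c ^ 2 * K) * q2 (2 * (R.m * R.b1)) ≤ 1 := by
  have h1 := h.b8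
  have e1 : q2 (2 * (R.m * R.b1)) ≤ q2 B := q2_le (by omega)
  have e2 : (B : ℝ) ≤ 2 ^ B := by
    have : B < 2 ^ B := Nat.lt_two_pow_self
    exact_mod_cast this.le
  have e3 := (big_le h.K1 h.c1 h.c2).trans (h.KB.trans e2)
  calc _ ≤ 2 ^ B * q2 B := mul_le_mul e3 e1 (q2_pos _).le (by positivity)
    _ = 1 := q2_mul_pow B

lemma Cx.M1 : 1 ≤ 6 * c ^ 2 * K := by
  have h1 := h.K1
  have h2 := h.c1
  nlinarith [sq_nonneg (c - 1)]

lemma Cx.room : p.A' + 2 * (R.m * R.b1) ≤ R.h := by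
  have h1 := h.cap.room
  have h2 : R.m * R.b1 ≤ R.m * (R.b1 + B) := Nat.mul_le_mul_left _ (Nat.le_add_right _ _)
  omega

lemma Cx.J1 : 1 ≤ p.J := h.ok.pth.J1

/-- two points of one value of `W'` -/
lemma Cx.t_h (hx : 0 < R.Q.w x) (hy : 0 < R.Q.w y) (e : R.W' x = R.W' y) : fl1 R.h (R.t x) = fl1 R.h (R.t y) :=
  congrArg (fun z => z.1.2) (H931.F0_W' h.ok hx hy e).1

lemma Cx.FW_W (hx : 0 < R.Q.w x) (hy : 0 < R.Q.w y) (e : R.W' x = R.W' y) : R.FW x = R.FW y ∧ R.tW x = R.tW y := by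
  refine ⟨h.ok.FWf x y hx hy (H931.F0_W' h.ok hx hy e).1, ?_⟩
  show rd R.h (R.t x) = rd R.h (R.t y)
  unfold rd
  rw [h.t_h hx hy e]

lemma Cx.t_a {n : ℕ} (hn : n ≤ R.h) (hx : 0 < R.Q.w x) (hy : 0 < R.Q.w y) (e : R.W' x = R.W' y) :
    fl1 n (R.C.t x) = fl1 n (R.C.t y) := by
  rw [h.ok.Ct, h.ok.Ct]
  exact fl1_fl1 hn (h.t_h hx hy e)

lemma Cx.ts (hi : R.C.a i ≤ R.h) (ω : Ω) : |R.tW ω - R.C.s i ω| ≤ q2 (R.C.a i) := by
  unfold Run.tW Pth.s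
  rw [h.ok.Ct]
  exact rd_sub hi _

/-- the label at a point, for data which are the run at the step `k` -/
lemma Cx.lbM {π' : Type} {D : Mtd Ω π'} (M : MR R D k) (hk : k ≤ R.n) (hrk : D.rk k ≤ R.C.rk k) (hω : 0 < R.Q.w ω)
    (hg : |(R.C.F k ω).al - D.g k ω| * q2 (R.C.a k) ≤ 3 * K * q2 (D.rk k)) :
    LbM D (4 * K) p.A' k (R.FW ω) (R.tW ω) ω := by
  have K0 : 0 < K := by linarith [h.K1]
  have w := H931.okW h.ok h.K1 hk (h.r2 k) hω
  have pos : 0 ≤ (R.FW ω).cN (R.C.l ω) (R.tW ω) := by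
    by_contra hn
    push Not at hn
    have := w.n1
    nlinarith
  have qk : q2 (R.C.rk k) ≤ q2 (D.rk k) := q2_le hrk
  refine ⟨?_, ?_, ?_, ?_, ?_, ?_, ?_, ?_, ?_⟩
  · rw [M.l]
    have := w.n1
    nlinarith
  · rw [M.l]
    have := w.n2
    linarith
  · have := w.k1
    linarith
  · have := w.a1
    linarith
  · rw [M.l, M.p, M.rf, h.ok.Cp ω hω, sub_self, abs_zero]
    have := q2_pos (R.C.rf k)
    positivity
  · rw [M.un, M.l]
  · rw [M.κ, M.s, M.al]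
    unfold kaL Run.κ
    ring
  · have a1 := (h.ok.agW ω hω k hk).al
    have a1' : |(R.FW ω).al - (R.C.F k ω).al| * q2 p.A' ≤ K * q2 (R.C.rk k) := a1
    have a2 : |(R.C.F k ω).al - D.g k ω| * q2 p.A' ≤ |(R.C.F k ω).al - D.g k ω| * q2 (R.C.a k) :=
      mul_le_mul_of_nonneg_left (q2_le (h.aA k hk)) (abs_nonneg _)
    have a3 : |(R.FW ω).al - D.g k ω| ≤ |(R.FW ω).al - (R.C.F k ω).al| + |(R.C.F k ω).al - D.g k ω| :=
      abs_sub_le _ _ _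
    have a4 := mul_le_mul_of_nonneg_right a3 (q2_pos p.A').le
    have a5 := mul_le_mul_of_nonneg_left qk K0.le
    nlinarith
  · rw [M.s, M.a]
    refine h.ts ?_ ω
    have := h.aA k hk
    have := h.room
    omega

/-- levels of the step `k` at the base -/
lemma Cx.lvM {π' : Type} {D : Mtd Ω π'} (M : MR R D k) (hk : k ≤ R.n) (hμ : D.μ = μ) (hν : D.ν = μ / 2)
    (hrk : D.rk k ≤ R.C.rk k) (hr0 : R.r0 ≤ D.rk k) :
    LvM D (4 * K) (6 * c ^ 2 * K) k (R.m * R.b1) p.A' R.h R.q := by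
  have h1 := h.b8
  have h2 := h.μB
  have h3 := h.mB
  have h4 := h.r0
  have h5 := h.q k hk
  have h6 := R.C.hkf k
  have e : D.R k (R.m * R.b1) = min (D.rk k - μ / 2 + R.m * R.b1) (R.C.rf k) := by
    unfold Mtd.R Mtd.rr
    rw [hν, M.rf]
  refine ⟨?_, ?_, ?_, h.room, ?_, h.big⟩
  · rw [hμ]; omega
  · rw [e, hμ]; omega
  · rw [M.a]; exact h.aA k hk
  · rw [e]; omega

/-- the two points -/
lemma Cx.same {π' : Type} {D : Mtd Ω π'} (M : MR R D k) (hk : k ≤ R.n) (hx : 0 < R.Q.w x) (hy : 0 < R.Q.w y)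
    (e : R.W' x = R.W' y) (ep : D.pf k x = D.pf k y) :
    Same D (6 * c ^ 2 * K) k (R.m * R.b1) R.h R.q (R.FW x) (R.tW x) x y := by
  refine ⟨?_, ?_, ep, ?_⟩
  · rw [M.a, M.t]
    refine h.t_a ?_ hx hy e
    have := h.aA k hk
    have := h.room
    omega
  · rw [M.l]
    exact (H931.F0_W' h.ok hx hy e).2
  · rw [M.l]
    exact H931.clW h.ok h.K1 h.c1 h.lb hx hy (H931.F0_W' h.ok hx hy e).1

omit h in
lemma mr_mt (R : Run Ω τ υ) (F : Pf R π) (μ : ℕ) (o : Fin 7 → ℝ) (o' : ℕ → ℝ) (k : ℕ) : MR R (mt R F μ o o') k :=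
  ⟨rfl, rfl, rfl, rfl, rfl, fun _ => rfl, fun _ => rfl, fun _ => rfl⟩

omit h in
lemma mr_mt0 (R : Run Ω τ υ) (F : Pf R π) (μ : ℕ) (o : Fin 7 → ℝ) (o' : ℕ → ℝ) (k : ℕ) : MR R (mt0 R F μ o o') k :=
  ⟨rfl, rfl, rfl, rfl, rfl, fun _ => rfl, fun _ => rfl, fun _ => rfl⟩

lemma Cx.gF (hk : k ≤ R.n) (hω : 0 < R.Q.w ω) :
    |(R.C.F k ω).al - (mt R F μ o o').g k ω| * q2 (R.C.a k) ≤ 3 * K * q2 ((mt R F μ o o').rk k) := by
  have h1 := h.f2.gvF k (by omega) ω hω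
  have h2 := q2_pos (R.C.rk k)
  have h3 := h.K1
  show |(R.C.F k ω).al - F.gv k (F.pf k ω)| * q2 (R.C.a k) ≤ 3 * K * q2 (R.C.rk k)
  nlinarith

lemma Cx.gF0 (hk : k ≤ R.n) (hω : 0 < R.Q.w ω) :
    |(R.C.F k ω).al - (mt0 R F μ o o').g k ω| * q2 (R.C.a k) ≤ 3 * K * q2 ((mt0 R F μ o o').rk k) := by
  have h1 := h.f2.gvF k (by omega) ω hω
  have h2 := h.f2.gvA k (by omega) ω hω
  have h3 := h.f2.gv0A k (by omega) ω hω
  have h4 : q2 (R.C.rk k) ≤ q2 (F.rk0 k) := q2_le (F.l0 k)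
  have h5 := h.K1
  show |(R.C.F k ω).al - F.gv0 k (F.pf k ω)| * q2 (R.C.a k) ≤ 3 * K * q2 (F.rk0 k)
  have e : |(R.C.F k ω).al - F.gv0 k (F.pf k ω)| ≤ |(R.C.F k ω).al - F.gv k (F.pf k ω)| +
      |R.al k ω - F.gv k (F.pf k ω)| + |R.al k ω - F.gv0 k (F.pf k ω)| := by
    have e1 : (R.C.F k ω).al - F.gv0 k (F.pf k ω) = ((R.C.F k ω).al - F.gv k (F.pf k ω)) -
        (R.al k ω - F.gv k (F.pf k ω)) + (R.al k ω - F.gv0 k (F.pf k ω)) := by ring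
    rw [e1]
    refine (abs_add_le _ _).trans (add_le_add ((abs_sub _ _).trans le_rfl) le_rfl)
  have e2 := mul_le_mul_of_nonneg_right e (q2_pos (R.C.a k)).le
  have e3 := mul_le_mul_of_nonneg_left h4 (by linarith : 0 ≤ K)
  nlinarith

omit h in
/-- the exceptional events of the letter -/
def E1 (R : Run Ω τ υ) (μ : ℕ) (K' : ℝ) (o : Fin 7 → ℝ) (o' : ℕ → ℝ) (k : ℕ) (ω : Ω) : Prop :=
  Nb (R.C.rk k - μ / 2) (kaL R k ω + o' 0) (K' * q2 (R.C.rk k)) ∨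
    Nb (R.C.rk k - μ / 2) (uL R o k ω + o' 1) (K' * q2 (R.C.rk k))

omit h in
def E2 (R : Run Ω τ υ) (μ : ℕ) (K' : ℝ) (o : Fin 7 → ℝ) (k : ℕ) (ω : Ω) : Prop :=
  Nb (R.C.a k + R.m * R.b1 - μ) ((R.C.l ω).N (R.C.s k ω) + o 2) (K' * q2 (R.C.a k + R.m * R.b1))

/-- **the letter of the cap is a function of `W'`** -/
theorem Cx.lt_W (hk : k ≤ R.n) (hV : lv R k ∈ Vs) (hx : 0 < R.Q.w x) (hy : 0 < R.Q.w y) (e : R.W' x = R.W' y)
    (n1 : ¬ E1 R μ K' o o' k x) (n2 : ¬ E2 R μ K' o k x) :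
    (mt R F μ o o').lt k x = (mt R F μ o o').lt k y := by
  have K4 : 1 ≤ 4 * K := by linarith [h.K1]
  have hI : k ∈ YI R p Vs := ⟨by omega, hV⟩
  have M := mr_mt R F μ o o' k
  have hyx := hy_mt (o := o) (o' := o') h.ok h.f2 h.K1 h.KB h.r0 h.μB h.μC hx
  have hyy := hy_mt (o := o) (o' := o') h.ok h.f2 h.K1 h.KB h.r0 h.μB h.μC hy
  have hw := h.lbM M hk le_rfl hx (h.gF hk hx)
  have hw' := h.lbM M hk le_rfl hy (h.gF hk hy)
  rw [← (h.FW_W hx hy e).1, ← (h.FW_W hx hy e).2] at hw'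
  have L := h.lvM M hk rfl rfl le_rfl (h.rk_ge k)
  have ep : (mt R F μ o o').pf k x = (mt R F μ o o').pf k y := h.f2.pfW k (by omega) x y hx hy e
  have hs := h.same M hk hx hy e ep
  have hN := nr_W K4 h.M1 hyx hyy hI hw hw' L hs
  have hK := h.KK
  have c1 := one_le_cst (K := 8 * (4 * K)) (M := 6 * c ^ 2 * K) (by linarith) h.M1
  have cl := cst_le h.K1 h.c1 h.c2
  have eN : (mt R F μ o o').nN k x = (mt R F μ o o').nN k y := by
    have qa := q2_pos (R.C.a k + R.m * R.b1)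
    have e2 : |((R.C.l y).N (R.C.s k x) + o 2) - ((R.C.l x).N (R.C.s k x) + o 2)| ≤
        K' * q2 (R.C.a k + R.m * R.b1) := by
      rw [add_sub_add_right_eq_sub]
      refine le_trans hN ?_
      refine mul_le_mul_of_nonneg_right ?_ qa.le
      linarith
    have e3 := Nb.eq n2 (y := (R.C.l x).N (R.C.s k x) + o 2) (y' := (R.C.l y).N (R.C.s k x) + o 2)
      (by rw [sub_self, abs_zero]; exact (abs_nonneg _).trans e2) e2
    have e4 : (mt R F μ o o').s k y = (mt R F μ o o').s k x := s_dif hs.et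
    show fl1 (R.C.a k) ((R.C.l x).N (R.C.s k x) + o 2) = fl1 (R.C.a k) ((R.C.l y).N (R.C.s k y) + o 2)
    rw [show R.C.s k y = R.C.s k x from e4]
    have h8 := h.b8
    have hμ := h.μB
    exact fl1_fl1 (by omega) e3
  have ek := ka_dif hyx hyy hI hw hw' hs.et hs.ep
  have eu := u_dif K4 h.M1 hyx hyy hI hw hw' hs.et hs.ep eN hs.cl.N L.a (by have := L.A; omega)
  have qk := q2_pos (R.C.rk k)
  have rl := rad_le h.K1 h.c1 h.c2
  have M1 := h.M1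
  have K0 : 0 < K := by linarith [h.K1]
  unfold E1 at n1
  push Not at n1
  have e1 : (mt R F μ o o').kN k x = (mt R F μ o o').kN k y := by
    refine Nb.eq n1.1 (y := kaL R k x + o' 0) (y' := kaL R k y + o' 0) ?_ ?_
    · rw [sub_self, abs_zero]
      exact mul_nonneg (by nlinarith) qk.le
    · rw [add_sub_add_right_eq_sub]
      refine le_trans ek ?_
      show 2 * (4 * K) * q2 (R.C.rk k) ≤ K' * q2 (R.C.rk k)
      refine mul_le_mul_of_nonneg_right ?_ qk.le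
      nlinarith
  have e2 : (mt R F μ o o').uN k x = (mt R F μ o o').uN k y := by
    refine Nb.eq n1.2 (y := uL R o k x + o' 1) (y' := uL R o k y + o' 1) ?_ ?_
    · rw [sub_self, abs_zero]
      exact mul_nonneg (by nlinarith) qk.le
    · rw [add_sub_add_right_eq_sub]
      have eu' : |uL R o k y - uL R o k x| ≤ 8 * (4 * K) * (6 * c ^ 2 * K) * q2 (R.C.rk k) := by
        have a1 := M.u x
        have a2 := M.u y
        rw [a1, a2] at eu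
        exact eu
      refine eu'.trans (mul_le_mul_of_nonneg_right (rl.trans hK) qk.le)
  unfold Mtd.lt
  rw [hs.et, hs.ep, e1, e2, eN]

omit h in
/-- the letter with the numbers of the precision `rk0` is a function of the letter of the cap -/
theorem lt0_of_lt (e : (mt R F μ o o').lt k x = (mt R F μ o o').lt k y) :
    (mt0 R F μ o o').lt k x = (mt0 R F μ o o').lt k y := by
  have M := mr_mt R F μ o o' k
  have M0 := mr_mt0 R F μ o o' k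
  have e1 : fl1 (R.C.a k) (R.C.t x) = fl1 (R.C.a k) (R.C.t y) := congrArg (fun z => z.1) e
  have e2 : F.pf k x = F.pf k y := congrArg (fun z => z.2.1) e
  have e3 : fl1 (R.C.rk k - μ / 2) (kaL R k x + o' 0) = fl1 (R.C.rk k - μ / 2) (kaL R k y + o' 0) :=
    congrArg (fun z => z.2.2.1) e
  have e4' : (mt R F μ o o').uN k x = (mt R F μ o o').uN k y := congrArg (fun z => z.2.2.2.1) e
  have e4 : fl1 (R.C.rk k - μ / 2) (uL R o k x + o' 1) = fl1 (R.C.rk k - μ / 2) (uL R o k y + o' 1) := by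
    unfold Mtd.uN at e4'
    rw [M.u, M.u] at e4'
    exact e4'
  have e5 : (mt R F μ o o').nN k x = (mt R F μ o o').nN k y := congrArg (fun z => z.2.2.2.2) e
  have hr : F.rk0 k - μ / 2 ≤ R.C.rk k - μ / 2 := Nat.sub_le_sub_right (F.l0 k) _
  have u0 : (mt0 R F μ o o').uN k x = (mt0 R F μ o o').uN k y := by
    unfold Mtd.uN
    rw [M0.u, M0.u]
    exact fl1_fl1 hr e4
  have k0 : (mt0 R F μ o o').kN k x = (mt0 R F μ o o').kN k y := fl1_fl1 hr e3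
  have p0 : (mt0 R F μ o o').pf k x = (mt0 R F μ o o').pf k y := by
    show (F.pf k x, _, _) = (F.pf k y, _, _)
    rw [e2, e3, e4]
  have t0 : fl1 ((mt0 R F μ o o').a k) ((mt0 R F μ o o').t x) = fl1 ((mt0 R F μ o o').a k) ((mt0 R F μ o o').t y) := e1
  have n0 : (mt0 R F μ o o').nN k x = (mt0 R F μ o o').nN k y := e5
  unfold Mtd.lt
  rw [t0, p0, k0, u0, n0]

/-- **cells of the frozen path given the letter** -/
theorem Cx.fz_W {π' : Type} {D : Mtd Ω π'} {I : Set ℕ} (M : MR R D k) (ha : D.a = R.C.a) (hf : D.rf = R.C.rf)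
    (hμ : D.μ = μ) (hν : D.ν = μ / 2) (hrk : D.rk k ≤ R.C.rk k) (hr0 : R.r0 ≤ D.rk k)
    (hH : ∀ ω, 0 < R.Q.w ω → D.Hy (4 * K) I ω) (hI : k ∈ I)
    (hg : ∀ ω, 0 < R.Q.w ω → |(R.C.F k ω).al - D.g k ω| * q2 (R.C.a k) ≤ 3 * K * q2 (D.rk k))
    (hki : k ≤ i) (hi : i ≤ R.n) (hx : 0 < R.Q.w x) (hy : 0 < R.Q.w y) (e : R.W' x = R.W' y)
    (hl : D.lt k x = D.lt k y) (hB : ¬ (D.fz k k).Bad K' i (R.m * R.b1) x) :
    (D.fz k k).cell i (R.m * R.b1) x = (D.fz k k).cell i (R.m * R.b1) y := by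
  have K4 : 1 ≤ 4 * K := by linarith [h.K1]
  have hk : k ≤ R.n := by omega
  have at1 : ∀ ω, 0 < R.Q.w ω → AtF D (4 * K) I p.A' i k k (R.FW ω) (R.tW ω) ω := by
    intro ω hω
    refine ⟨hH ω hω, h.lbM M hk hrk hω (hg ω hω), ?_, ?_⟩
    · rw [M.l, M.p]
      exact (h.ok.Cp ω hω).symm
    · rw [max_eq_left hki, ha]
      have e1 : D.s i ω = R.C.s i ω := by
        unfold Mtd.s Pth.s
        rw [ha, M.t]
      rw [e1]
      refine h.ts ?_ ω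
      have := h.aA i hi
      have := h.room
      omega
  have H := at1 x hx
  have H' := at1 y hy
  rw [← (h.FW_W hx hy e).1, ← (h.FW_W hx hy e).2] at H'
  have h1 := h.b8
  have h2 := h.μB
  have h3 := h.mB
  have h4 := h.r0
  have h5 := h.q k hk
  have h6 := R.C.hkf k
  have h7 := R.C.hf hki
  have eR : (D.fz k k).R i (R.m * R.b1) = min (D.rk k - μ / 2 + R.m * R.b1) (R.C.rf i) := by
    rw [Pth.R_eq, Mtd.fz_rk D hki hki, Mtd.fz_rf D hki, hf]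
    unfold Mtd.rr
    rw [hν]
  have L : LvF D (4 * K) (6 * c ^ 2 * K) i k k (R.m * R.b1) p.A' R.h R.q := by
    refine ⟨?_, ?_, ?_, h.room, ?_, h.big⟩
    · rw [hμ]; omega
    · rw [eR, hμ]; omega
    · rw [max_eq_left hki, ha]; exact h.aA i hi
    · rw [eR]; omega
  have ep : D.pf k x = D.pf k y := congrArg (fun z => z.2.1) hl
  have et : fl1 (D.a (max i k)) (D.t x) = fl1 (D.a (max i k)) (D.t y) := by
    rw [max_eq_left hki, ha, M.t]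
    refine h.t_a ?_ hx hy e
    have := h.aA i hi
    have := h.room
    omega
  have hc := clo_fz K4 h.M1 hI rfl H H' L (h.same M hk hx hy e ep) et hl
  refine hc.cell ⟨L.l1, L.l2⟩ (one_le_cst (by linarith) h.M1) fun hb => hB ?_
  exact Pth.Bad_mono ((cst_le h.K1 h.c1 h.c2).trans h.KK) hb

/-! ### the exceptional probabilities -/

omit h in
lemma E2_bad {π' : Type} {D : Mtd Ω π'} (M : MR R D k) (hμ : D.μ = μ) (ho : D.o = o) (hb : μ ≤ R.m * R.b1)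
    (hE : E2 R μ K' o k ω) : (D.fz k k).Bad K' k (R.m * R.b1) ω := by
  refine ⟨2, ?_⟩
  have e1 : (D.fz k k).lv k (R.m * R.b1) 2 = R.C.a k + R.m * R.b1 - μ := by
    show D.a (max k k) + R.m * R.b1 - D.μ = _
    rw [max_self, M.a, hμ]
  have e2 : (D.fz k k).va k (R.m * R.b1) ω 2 = (R.C.l ω).N (R.C.s k ω) := by
    show (D.l ω).N (rd (D.a (max k k)) (D.t ω)) = _
    rw [max_self, M.a, M.t, M.l]
    rfl
  have e3 : (D.fz k k).o 2 = o 2 := by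
    show D.o 2 = o 2
    rw [ho]
  have e4 : (D.fz k k).μ = μ := hμ
  rw [e1, e2, e3, e4, show R.C.a k + R.m * R.b1 - μ + μ = R.C.a k + R.m * R.b1 by omega]
  exact hE

/-- probability of the exceptional events of the letter -/
noncomputable def xL (R : Run Ω τ υ) (μ : ℕ) (K' : ℝ) (o : Fin 7 → ℝ) (o' : ℕ → ℝ) (k : ℕ) : ℝ :=
  prE R.Q (fun ω => Nb (R.C.rk k - μ / 2) (kaL R k ω + o' 0) (K' * q2 (R.C.rk k))) +
    prE R.Q (fun ω => Nb (R.C.rk k - μ / 2) (uL R o k ω + o' 1) (K' * q2 (R.C.rk k)))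

/-- .. of the frozen path, kappa regime -/
noncomputable def xK (R : Run Ω τ υ) (F : Pf R π) (μ : ℕ) (K' : ℝ) (o : Fin 7 → ℝ) (o' : ℕ → ℝ) (k : ℕ) : ℝ :=
  prE R.Q (((mt R F μ o o').fz k k).Bad K' k (R.m * R.b1))

/-- .. of the frozen path, deep phi regime, with the late step `i` -/
noncomputable def xP (R : Run Ω τ υ) (F : Pf R π) (μ : ℕ) (K' : ℝ) (o : Fin 7 → ℝ) (o' : ℕ → ℝ) (k i : ℕ) : ℝ :=
  prE R.Q (((mt0 R F μ o o').fz k k).Bad K' k (R.m * R.b1)) +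
    prE R.Q (((mt0 R F μ o o').fz k k).Bad K' i (R.m * R.b1)) +
      prE R.Q (H420.BadS ((mt0 R F μ o o').fz k k) K' k (R.m * R.b1))

omit h in
lemma xL_nonneg (k : ℕ) : 0 ≤ xL R μ K' o o' k := add_nonneg (prE_nonneg _ _) (prE_nonneg _ _)

omit h in
lemma prE_E1 (k : ℕ) : prE R.Q (E1 R μ K' o o' k) ≤ xL R μ K' o o' k :=
  H457.prE_add_le R.Q fun _ _ h => h

omit h in
/-- the events of `EL` -/
lemma EL_sub {π' : Type} {D : Mtd Ω π'} (M : MR R D k) (hν : D.ν = μ / 2) (ho : D.o = o) (hκ : D.oκ = o' 0)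
    (hγ : D.oγ = o' 1) (hrk : D.rk k ≤ R.C.rk k) {r1 r2 : ℝ} (h1 : r1 ≤ K' * q2 (R.C.rk k))
    (h2 : r2 ≤ K' * q2 (R.C.rk k)) (hE : EL D r1 r2 k ω) : E1 R μ K' o o' k ω := by
  have hr : D.rr k ≤ R.C.rk k - μ / 2 := by
    unfold Mtd.rr
    rw [hν]
    omega
  rcases hE with hE | hE
  · left
    rw [M.κ, hκ] at hE
    exact Nb_mono hr h1 hE
  · right
    rw [M.u, ho, hγ] at hE
    exact Nb_mono hr h2 hE

lemma Cx.rad (hk : k ≤ R.n) (hV : lv R k ∈ Vs) :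
    K * q2 (R.rI k) ≤ K' * q2 (R.C.rk k) ∧ 8 * K ^ 2 * q2 (R.rI k) ≤ K' * q2 (R.C.rk k) := by
  have h1 := h.f2.deep k (by omega) hV
  have h2 : q2 (R.rI k) ≤ q2 (R.C.rk k) := q2_le (by omega)
  have h3 := pow_le20 h.K1 (n := 1) (a := 1) (by norm_num) (by norm_num)
  have h4 := pow_le20 h.K1 (n := 2) (a := 8) (by norm_num) (by norm_num)
  have h5 := h.KK
  have h6 := h.K1
  constructor
  · refine mul_le_mul (by linarith) h2 (q2_pos _).le (by linarith)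
  · refine mul_le_mul (by linarith) h2 (q2_pos _).le ?_
    have : 0 ≤ K ^ 2 := sq_nonneg K
    linarith

/-! ### kind 1 : kappa regime -/

/-- **the cell is a function of `W'`** -/
theorem Cx.mtr_W (hk : k ≤ R.n) (hV : lv R k ∈ Vs) (hx : 0 < R.Q.w x) (hy : 0 < R.Q.w y) (e : R.W' x = R.W' y)
    (n1 : ¬ E1 R μ K' o o' k x) (n2 : ¬ ((mt R F μ o o').fz k k).Bad K' k (R.m * R.b1) x) :
    (mt R F μ o o').mtr k (R.m * R.b1) x = (mt R F μ o o').mtr k (R.m * R.b1) y := by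
  have h1 := h.b8
  have h2 := h.μB
  have hl := h.lt_W hk hV hx hy e n1 fun hE => n2 (E2_bad (μ := μ) (mr_mt R F μ o o' k) rfl rfl (by omega) hE)
  refine (Mtd.fz_cell_iff _ le_rfl _ _ _).1 ?_
  exact h.fz_W (I := YI R p Vs) (mr_mt R F μ o o' k) rfl rfl rfl rfl le_rfl (h.rk_ge k)
    (fun ω hω => hy_mt h.ok h.f2 h.K1 h.KB h.r0 h.μB h.μC hω) ⟨by omega, hV⟩ (fun ω hω => h.gF hk hω) le_rfl hk
    hx hy e hl n2

/-- **time** -/
theorem Cx.cT1 {ε : ℝ} {b b' : ℕ} (G : R.Good p ε b q) (hV : lv R k ∈ Vs) (hkq : k ≤ q) (hq : q ≤ R.n)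
    (ha : R.C.a k = R.C.a q) (hmg : R.m ≤ g) :
    colp R.Q (fun ω => fl1 (R.C.a k + g) (R.C.t ω)) ((mt R F μ o o').mtr k b') ≤ 2 * ε + 3 * xL R μ K' o o' k := by
  have hr := h.rad (by omega) hV
  have h1 := cT_mtr (b' := b') h.ok h.K1 G (mr_mt R F μ o o' k) hkq hq h.J1 (h.r2 q) ha hmg (fun _ => False)
    fun x y hx hy _ _ e => h.f2.pfZ k (by omega) x y hx hy (Z_le h.ok hkq hx hy e)
  refine h1.trans ?_
  have h2 : prE R.Q (fun ω => False ∨ EL (mt R F μ o o') (K * q2 (R.rI k)) (8 * K ^ 2 * q2 (R.rI k)) k ω) ≤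
      xL R μ K' o o' k := by
    refine (H457.prE_mono' R.Q fun ω _ hE => ?_).trans (prE_E1 k)
    rcases hE with hE | hE
    · exact hE.elim
    · exact EL_sub (mr_mt R F μ o o' k) rfl rfl rfl rfl le_rfl hr.1 hr.2 hE
  linarith

/-- **direction** -/
theorem Cx.cY1 (hk : k ≤ R.n) (hV : lv R k ∈ Vs) (hmg : R.m ≤ g) :
    colp R.Q (fun ω => fl1 (R.m * R.b1 + g) (R.C.l ω).v) ((mt R F μ o o').mtr k (R.m * R.b1)) ≤
      2 * εc + 3 * (xK R F μ K' o o' k + xL R μ K' o o' k) := by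
  have h1 := H931.colp_v hmg ((mt R F μ o o').mtr k (R.m * R.b1))
    (fun ω => ((mt R F μ o o').fz k k).Bad K' k (R.m * R.b1) ω ∨ E1 R μ K' o o' k ω)
    fun x y hx hy n e => by
      push Not at n
      exact h.mtr_W hk hV hx hy e n.2 n.1
  have h2 := h.cap.act
  have h3 : prE R.Q (fun ω => ((mt R F μ o o').fz k k).Bad K' k (R.m * R.b1) ω ∨ E1 R μ K' o o' k ω) ≤
      xK R F μ K' o o' k + xL R μ K' o o' k :=
    (H457.prE_add_le R.Q fun _ _ h => h).trans (add_le_add le_rfl (prE_E1 k))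
  linarith

end cx

/-- a letter which is a function of `G` outside of `E` -/
theorem near_fn {γ δ : Type*} (P : Law Ω) (G : Ω → γ) (D : Ω → δ) (E : Ω → Prop)
    (hD : ∀ x y, 0 < P.w x → 0 < P.w y → ¬ E x → G x = G y → D x = D y) :
    ∃ f : γ → δ, prE P (fun ω => D ω ≠ f (G ω)) ≤ prE P E := by
  classical
  by_cases hne : Nonempty Ω
  · obtain ⟨ω0⟩ := hne
    refine ⟨fun z => if hz : ∃ y, 0 < P.w y ∧ ¬ E y ∧ G y = z then D hz.choose else D ω0, ?_⟩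
    refine H457.prE_mono' P fun ω hω hn => ?_
    by_contra hE
    have hz : ∃ y, 0 < P.w y ∧ ¬ E y ∧ G y = G ω := ⟨ω, hω, hE, rfl⟩
    apply hn
    simp only [hz, dif_pos]
    obtain ⟨h1, _, h3⟩ := hz.choose_spec
    exact hD ω hz.choose hω h1 hE h3.symm
  · exfalso
    rw [not_nonempty_iff] at hne
    have h1 := P.sum_one
    rw [Finset.univ_eq_empty, Finset.sum_empty] at h1
    exact zero_ne_one h1

section cx

variable (h : Cx R p K c' g' gU c εc B bS bV F Vs Xs μ K' o o')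

include h

/-- **curvature** : hypothesis `hu` of 416's `satH_unk` / 572's `satG_unk` with `c := c' / 2`, `D := mtr k b`; `B` = any family of
events contained in `|al q - x| 2^-a ≤ 2^-(rk q + m)` -/
theorem Cx.pA1 {κ : Type*} (hV : lv R k ∈ Vs) (hkq : k ≤ q) (hq : q < R.n) (hA : R.IsA q) (ha : R.C.a k = R.C.a q)
    (c'0 : 0 < c') (c'1 : c' ≤ 1) (Bf : κ → Ω → Prop) (f : κ → ℝ)
    (hB : ∀ x ω, 0 < R.Q.w ω → Bf x ω → |R.al q ω - f x| * q2 (R.C.a q) ≤ q2 (R.C.rk q + R.m)) :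
    R.Q.ex (fun ω => Law.ind (∃ x, (1 - c' / 2) * R.Q.pr ((mt R F μ o o').mtr k (R.m * R.b1))
      ((mt R F μ o o').mtr k (R.m * R.b1) ω) < prE R.Q (fun ω' => (mt R F μ o o').mtr k (R.m * R.b1) ω' =
        (mt R F μ o o').mtr k (R.m * R.b1) ω ∧ Bf x ω'))) ≤
      4 * (xK R F μ K' o o' k + xL R μ K' o o' k) / c' := by
  have hk : k ≤ R.n := by omega
  obtain ⟨ff, hff⟩ := near_fn R.Q R.W' ((mt R F μ o o').mtr k (R.m * R.b1))
    (fun ω => ((mt R F μ o o').fz k k).Bad K' k (R.m * R.b1) ω ∨ E1 R μ K' o o' k ω)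
    fun x y hx hy n e => by
      push Not at n
      exact h.mtr_W hk hV hx hy e n.2 n.1
  have h3 : prE R.Q (fun ω => ((mt R F μ o o').fz k k).Bad K' k (R.m * R.b1) ω ∨ E1 R μ K' o o' k ω) ≤
      xK R F μ K' o o' k + xL R μ K' o o' k :=
    (H457.prE_add_le R.Q fun _ _ h => h).trans (add_le_add le_rfl (prE_E1 k))
  refine H457.unk_near R.Q R.W' _ ff Bf c'0 c'1 ?_ (hff.trans h3)
  intro ω hω x
  have hVq : lv R q ∈ Vs := by
    have : lv R q = lv R k := by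
      unfold lv
      rw [ha]
    rw [this]
    exact hV
  have hd := h.f2.deep q (by omega) hVq
  have hB1 := h.B1
  have hm := h.ok.pth.m1
  have hlt : R.C.rk q + p.s * R.m < R.rI q := by
    have e : R.m * (B + p.s) = R.m * B + p.s * R.m := by ring
    have : 1 ≤ R.m * B := Nat.mul_pos hm hB1
    omega
  refine le_trans (H457.prE_mono' R.Q fun ω' hω' hE => ?_) (h.ok.unk q hq hA hlt ω hω (f x)).le
  exact ⟨hE.1, hB x ω' hω' hE.2⟩

/-- the events for the curvature `Ao` of the line -/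
theorem Cx.Bf_Ao (hV : lv R k ∈ Vs) (hq : q ≤ R.n) (ha : R.C.a k = R.C.a q)
    (hs : K * q2 (R.C.rk q + R.m * B) ≤ q2 (R.C.rk q + R.m + 1)) (x : ℝ) (ω : Ω) (hω : 0 < R.Q.w ω)
    (hB : |F.Ao (lv R k) ω - x| * q2 (R.C.a k) ≤ q2 (R.C.rk q + R.m + 1)) :
    |R.al q ω - x| * q2 (R.C.a q) ≤ q2 (R.C.rk q + R.m) := by
  have e0 : lv R q = lv R k := by
    unfold lv
    rw [ha]
  have h1 := h.f2.aoA q (by omega) (by rw [e0]; exact hV) ω hω
  rw [e0] at h1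
  rw [ha] at hB
  have h2 : |R.al q ω - x| ≤ |R.al q ω - F.Ao (lv R k) ω| + |F.Ao (lv R k) ω - x| := abs_sub_le _ _ _
  have h3 := mul_le_mul_of_nonneg_right h2 (q2_pos (R.C.a q)).le
  have h4 : q2 (R.C.rk q + R.m) = 2 * q2 (R.C.rk q + R.m + 1) := by
    have e1 : q2 1 = 1 / 2 := by unfold q2; norm_num
    rw [q2_add (R.C.rk q + R.m) 1, e1]
    ring
  rw [h4]
  nlinarith

/-! ### kind 2 : deep phi regime -/

/-- **the cell and the digits of the slope are functions of `W'`**; `i` = a late step -/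
theorem Cx.dp_W (hk : k ≤ R.n) (hV : lv R k ∈ Vs) (hki : k ≤ i) (hi : i ≤ R.n)
    (hR : H683.Reg ((mt0 R F μ o o').fz k k) k i (R.m * R.b1))
    (hx : 0 < R.Q.w x) (hy : 0 < R.Q.w y) (e : R.W' x = R.W' y)
    (n1 : ¬ E1 R μ K' o o' k x) (n2 : ¬ ((mt0 R F μ o o').fz k k).Bad K' k (R.m * R.b1) x)
    (n3 : ¬ ((mt0 R F μ o o').fz k k).Bad K' i (R.m * R.b1) x)
    (n4 : ¬ H420.BadS ((mt0 R F μ o o').fz k k) K' k (R.m * R.b1) x) :
    H683.Dp ((mt0 R F μ o o').fz k k) k (R.m * R.b1) x = H683.Dp ((mt0 R F μ o o').fz k k) k (R.m * R.b1) y := by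
  have h1 := h.b8
  have h2 := h.μB
  have M0 := mr_mt0 R F μ o o' k
  have hI : k ∈ YI R p Vs := ⟨by omega, hV⟩
  have hl := lt0_of_lt (h.lt_W hk hV hx hy e n1 fun hE => n2 (E2_bad (μ := μ) M0 rfl rfl (by omega) hE))
  have hH : ∀ ω, 0 < R.Q.w ω → (mt0 R F μ o o').Hy (4 * K) (YI R p Vs) ω := fun ω hω =>
    hy_mt0 h.ok h.f2 h.K1 h.KB h.r0 h.μB h.μC hω h.f2.lo0
  have hc : ∀ j, k ≤ j → j ≤ R.n → ¬ ((mt0 R F μ o o').fz k k).Bad K' j (R.m * R.b1) x →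
      ((mt0 R F μ o o').fz k k).cell j (R.m * R.b1) x = ((mt0 R F μ o o').fz k k).cell j (R.m * R.b1) y :=
    fun j hj hj' hn => h.fz_W (I := YI R p Vs) M0 rfl rfl rfl rfl (F.l0 k) (h.f2.lo0 k) hH hI
      (fun ω hω => h.gF0 hk hω) hj hj' hx hy e hl hn
  have ok : ∀ ω, 0 < R.Q.w ω → ((mt0 R F μ o o').fz k k).Ok (32 * K) ω := fun ω hω =>
    fz_mt0 h.ok h.f2 h.K1 h.KB h.r0 h.μB h.μC hω h.f2.lo0 hI rfl
  refine H683.Dp_of_late hR (ok x hx) (ok y hy) (hc k le_rfl hk n2) (hc i hki hi n3) fun hB => n4 ?_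
  refine Nb_mono le_rfl ?_ hB
  have hq := q2_pos (((mt0 R F μ o o').fz k k).rf k + 5 * ((mt0 R F μ o o').fz k k).μ)
  have e1 : q2 (((mt0 R F μ o o').fz k k).rf k + 5 * ((mt0 R F μ o o').fz k k).μ) ≤
      q2 (((mt0 R F μ o o').fz k k).rf k + ((mt0 R F μ o o').fz k k).μ) := q2_le (by omega)
  have e2 := pow_le20 h.K1 (n := 3) (a := 24 * 32 ^ 3) (by norm_num) (by norm_num)
  have e3 := h.KK
  have e4 : 24 * (32 * K) ^ 3 = 24 * 32 ^ 3 * K ^ 3 := by ring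
  have K0 := h.K1
  refine mul_le_mul ?_ e1 hq.le ?_
  · rw [e4]; linarith
  · have : 0 < K ^ 3 := by positivity
    linarith

lemma Cx.side0 (hkq : k ≤ q) (hq : q ≤ R.n + p.J) :
    H683.Side R.Q ((mt0 R F μ o o').fz k k) k (fun ω => (R.Z q ω, (mt0 R F μ o o').lt k ω)) := by
  intro x y hx hy e
  simp only [Prod.mk.injEq] at e
  refine ⟨l_Z h.ok e.1, ?_, ?_⟩
  · refine Prod.ext e.2 ?_
    show fl1 (R.C.a (max k k)) (R.C.t x) = fl1 (R.C.a (max k k)) (R.C.t y)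
    rw [max_self]
    exact congrArg Prod.fst e.2
  · show fl1 (R.C.rf (max k k)) (R.C.p x) = fl1 (R.C.rf (max k k)) (R.C.p y)
    rw [max_self]
    exact H404.fl1_le (R.C.hf hkq) (h.ok.Uf q hq x y hx hy e.1)

lemma Cx.ZX0 {ε : ℝ} {b : ℕ} (G : R.Good p ε b q) (hV : lv R k ∈ Vs) (hkq : k ≤ q) (hq : q ≤ R.n) :
    ∀ x y, 0 < R.Q.w x → 0 < R.Q.w y → ¬ E1 R μ K' o o' k x → ¬ E1 R μ K' o o' k y → R.Z q x = R.Z q y →
      (R.Z q x, (mt0 R F μ o o').lt k x) = (R.Z q y, (mt0 R F μ o o').lt k y) := by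
  intro x y hx hy n1 _ e
  have hr := h.rad (by omega) hV
  refine Prod.ext e (lt0_of_lt ?_)
  exact lt_Z h.ok h.K1 (mr_mt R F μ o o' k) hkq hq G.isA h.J1 (h.r2 q) hx hy e
    (h.f2.pfZ k (by omega) x y hx hy (Z_le h.ok hkq hx hy e))
    fun hE => n1 (EL_sub (mr_mt R F μ o o' k) rfl rfl rfl rfl le_rfl hr.1 hr.2 hE)

omit h in
lemma dpm_eq {π' S : Type} {D : Mtd Ω π'} (X : Ω → S) {b' : ℕ} :
    colp R.Q X (H683.Dp (D.fz k k) k b') = colp R.Q X (DpM D k b') := by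
  rw [← colp_DpM (R := R) (D := D) (k := k) (b' := b') X, (eqAt_mfz (D := D) le_rfl le_rfl).Dp]

lemma Cx.ok0 (hk : k ≤ R.n) (hV : lv R k ∈ Vs) (hω : 0 < R.Q.w ω) : ((mt0 R F μ o o').fz k k).Ok (32 * K) ω :=
  fz_mt0 h.ok h.f2 h.K1 h.KB h.r0 h.μB h.μC hω h.f2.lo0 ⟨by omega, hV⟩ rfl

/-- **time** -/
theorem Cx.cT2 {ε : ℝ} {b b' : ℕ} (G : R.Good p ε b q) (hV : lv R k ∈ Vs) (hkq : k ≤ q) (hq : q ≤ R.n)
    (ha : R.C.a k = R.C.a q) (hmg : R.m ≤ g) {M : ℕ} (hM : 32 * K ≤ M) :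
    colp R.Q (fun ω => fl1 (R.C.a k + g) (R.C.t ω)) (DpM (mt0 R F μ o o') k b') ≤
      Real.sqrt (((2 * M + 3 : ℕ) : ℝ) * (2 * ε + 3 * xL R μ K' o o' k)) := by
  rw [← dpm_eq]
  refine (cTE_Dp h.ok G ha hmg _ _ (h.ZX0 G hV hkq hq) (h.side0 hkq (by omega))
    (fun ω hω => h.ok0 (by omega) hV hω) hM).trans ?_
  refine Real.sqrt_le_sqrt (mul_le_mul_of_nonneg_left ?_ (Nat.cast_nonneg _))
  have := prE_E1 (R := R) (μ := μ) (K' := K') (o := o) (o' := o') k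
  linarith

/-- **slope** -/
theorem Cx.cF2 {ε : ℝ} {b b' : ℕ} (G : R.Good p ε b q) (hV : lv R k ∈ Vs) (hkq : k ≤ q) (hq : q ≤ R.n)
    (h1 : R.C.rf q < p.QF) (h2 : R.C.rf q < R.rI q + p.B₁) (hfg : R.C.rf q + R.m ≤ R.C.rf k + g) {M : ℕ}
    (hM : 32 * K ≤ M) :
    colp R.Q (fun ω => fl1 (R.C.rf k + g) (H683.slR (mfz (mt0 R F μ o o') k) k b' ω)) (DpM (mt0 R F μ o o') k b') ≤
      Real.sqrt (((2 * M + 3 : ℕ) : ℝ) * ((2 * (M + 1 : ℕ) + 1) * (2 * ε + 3 * xL R μ K' o o' k))) := by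
  rw [← dpm_eq, (eqAt_mfz (D := mt0 R F μ o o') (j := k) (k := k) (i := k) le_rfl le_rfl).slR]
  refine (cFE_Dp (k := k) (g := g) G h1 h2 hfg _ _ (h.ZX0 G hV hkq hq) (h.side0 hkq (by omega)) rfl
    (fun ω hω => h.ok0 (by omega) hV hω) hM).trans ?_
  refine Real.sqrt_le_sqrt (mul_le_mul_of_nonneg_left (mul_le_mul_of_nonneg_left ?_ (by positivity))
    (Nat.cast_nonneg _))
  have := prE_E1 (R := R) (μ := μ) (K' := K') (o := o) (o' := o') k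
  linarith

/-- **direction** -/
theorem Cx.cY2 (hk : k ≤ R.n) (hV : lv R k ∈ Vs) (hki : k ≤ i) (hi : i ≤ R.n)
    (hR : H683.Reg ((mt0 R F μ o o').fz k k) k i (R.m * R.b1)) (hmg : R.m ≤ g) :
    colp R.Q (fun ω => fl1 (R.m * R.b1 + g) (R.C.l ω).v) (DpM (mt0 R F μ o o') k (R.m * R.b1)) ≤
      2 * εc + 3 * (xP R F μ K' o o' k i + xL R μ K' o o' k) := by
  rw [← dpm_eq]
  have h1 := H931.colp_v hmg (H683.Dp ((mt0 R F μ o o').fz k k) k (R.m * R.b1))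
    (fun ω => ((((mt0 R F μ o o').fz k k).Bad K' k (R.m * R.b1) ω ∨
      ((mt0 R F μ o o').fz k k).Bad K' i (R.m * R.b1) ω) ∨
        H420.BadS ((mt0 R F μ o o').fz k k) K' k (R.m * R.b1) ω) ∨ E1 R μ K' o o' k ω)
    fun x y hx hy n e => by
      push Not at n
      exact h.dp_W hk hV hki hi hR hx hy e n.2 n.1.1.1 n.1.1.2 n.1.2
  have h2 := h.cap.act
  have h3 : prE R.Q (fun ω => ((((mt0 R F μ o o').fz k k).Bad K' k (R.m * R.b1) ω ∨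
      ((mt0 R F μ o o').fz k k).Bad K' i (R.m * R.b1) ω) ∨
        H420.BadS ((mt0 R F μ o o').fz k k) K' k (R.m * R.b1) ω) ∨ E1 R μ K' o o' k ω) ≤
      xP R F μ K' o o' k i + xL R μ K' o o' k := by
    refine (H457.prE_add_le R.Q fun _ _ h => h).trans (add_le_add ?_ (prE_E1 k))
    refine (H457.prE_add_le R.Q fun _ _ h => h).trans (add_le_add ?_ le_rfl)
    exact H457.prE_add_le R.Q fun _ _ h => h
  linarith

/-! ### the sums -/

omit h in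
lemma rf_le (hP : R.Path p) {j : ℕ} (hki : k ≤ j) (hj : j ≤ R.n + p.J) : R.C.rf j ≤ R.C.rf k + R.m * (j - k) := by
  induction j, hki using Nat.le_induction with
  | base => simp
  | succ j hj' ih =>
    have h1 := ih (by omega)
    have e : R.m * (j + 1 - k) = R.m * (j - k) + R.m := by
      rw [show j + 1 - k = (j - k) + 1 by omega, Nat.mul_add, Nat.mul_one]
    rcases hP.stp j (by omega) with h2 | h2 | h2
    · rw [h2.2.1, e]; omega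
    · rw [h2.2.1, e]; omega
    · rw [h2.2.1, e]; omega

/-- **the regime of the late step** -/
theorem Cx.reg_of {d : ℕ} (hS : k ∈ IdP R F B Vs Xs) (hi : i ∈ At' R p B d k) (h8 : 8 * μ ≤ d * R.m)
    (hd : d * R.m + 9 * μ ≤ 2 * (R.m * B)) (hf : R.C.rf k + 8 * μ ≤ R.C.rf i) :
    H683.Reg ((mt0 R F μ o o').fz k k) k i (R.m * R.b1) := by
  classical
  unfold IdP at hS
  unfold At' at hi
  rw [Finset.mem_filter] at hS hi
  obtain ⟨h1, h2, h3, h4, h5⟩ := hi.2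
  have hb := h.b8
  have hμ := h.μB
  have hmB := h.mB
  have hr := h.r0
  have h6 := h.rk_ge k
  have h7 := R.C.hkf k
  have h9 := hS.2.2.2
  have h10 := F.l0 k
  have h11 := rf_le h.ok.pth h1.le h3
  have h12 : R.m * (i - k) ≤ R.m * B := Nat.mul_le_mul_left _ (by omega)
  have h13 := h.f2.lo0 k
  have e1 : ((mt0 R F μ o o').fz k k).rf k = R.C.rf k := Mtd.fz_rf _ le_rfl
  have e2 : ((mt0 R F μ o o').fz k k).rf i = R.C.rf i := Mtd.fz_rf _ h1.le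
  have e3 : ((mt0 R F μ o o').fz k k).a k = R.C.a k := Mtd.fz_a' _ le_rfl
  have e4 : ((mt0 R F μ o o').fz k k).a i = R.C.a i := Mtd.fz_a' _ h1.le
  have e5 : ((mt0 R F μ o o').fz k k).rk k = F.rk0 k - μ / 2 := Mtd.fz_rk _ le_rfl le_rfl
  have e6 : ((mt0 R F μ o o').fz k k).rk i = F.rk0 k - μ / 2 := Mtd.fz_rk _ h1.le h1.le
  have e7 : ((mt0 R F μ o o').fz k k).μ = μ := rfl
  refine ⟨h1.le, ?_, ?_, ?_, ?_, ?_, ?_⟩
  · rw [e7]; omega
  · rw [e7, e1]; omega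
  · rw [e3, e4, e7]; omega
  · rw [e1, e2, e7]; exact hf
  · rw [e1, e4, e7, e5, e3]; omega
  · rw [e2, e6]; omega

lemma Cx.K'0 : 0 ≤ K' := by
  have h1 := h.KK
  have h2 : (0 : ℝ) ≤ (100 * K) ^ 20 := by
    have := h.K1
    positivity
  linarith

/-- the right side of the exceptional sums -/
noncomputable def xS (R : Run Ω τ υ) (p : Run.Num) (μ : ℕ) (K' : ℝ) : ℝ :=
  K' ^ 2 * (R.n + p.J + 1) * q2 (μ / 4)

lemma Cx.sum_xL {S : Finset ℕ} (hS : S ⊆ range (R.n + 1)) : ∑ k ∈ S, xL R μ K' o o' k ≤ xS R p μ K' :=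
  (Finset.sum_le_sum_of_subset_of_nonneg hS fun k _ _ => xL_nonneg k).trans h.fo.offL

omit h in
lemma exc_nonneg {τ' : Type} (C : Pth Ω τ') (i b : ℕ) : 0 ≤ exc R.Q C K' i b :=
  add_nonneg (add_nonneg (prE_nonneg _ _) (prE_nonneg _ _)) (prE_nonneg _ _)

omit h in
lemma bad_exc {τ' : Type} (C : Pth Ω τ') (i b : ℕ) : prE R.Q (C.Bad K' i b) ≤ exc R.Q C K' i b := by
  have h1 := prE_nonneg R.Q (H420.BadS C K' i b)
  have h2 := prE_nonneg R.Q (H300.BadR C K' i b)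
  unfold exc
  linarith

omit h in
lemma badS_exc {τ' : Type} (C : Pth Ω τ') (i b : ℕ) :
    prE R.Q (C.Bad K' i b) + prE R.Q (H420.BadS C K' i b) ≤ exc R.Q C K' i b := by
  have h2 := prE_nonneg R.Q (H300.BadR C K' i b)
  unfold exc
  linarith

lemma Cx.sum_xK {S : Finset ℕ} (hS : S ⊆ IdK R Vs Xs) : ∑ k ∈ S, xK R F μ K' o o' k ≤ xS R p μ K' := by
  have h1 := h.fo.offK 0 (Nat.zero_le _)
  have h0 : ∀ k, 0 ≤ ∑ i ∈ At' R p B 0 k, exc R.Q ((mt R F μ o o').fz k k) K' i (R.m * R.b1) := fun k =>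
    Finset.sum_nonneg fun i _ => exc_nonneg _ _ _
  have h2 : K' ^ 2 * (((0 : ℕ) : ℝ) + 1) ^ 2 * (R.n + p.J + 1) * q2 (μ / 4) = xS R p μ K' := by
    unfold xS
    push_cast
    ring
  rw [h2] at h1
  refine le_trans ?_ h1
  refine le_trans ?_ (Finset.sum_le_sum_of_subset_of_nonneg hS fun k _ _ => ?_)
  · refine Finset.sum_le_sum fun k _ => ?_
    have := bad_exc (R := R) (K' := K') ((mt R F μ o o').fz k k) k (R.m * R.b1)
    have := exc_nonneg (R := R) (K' := K') ((mt R F μ o o').fz k k) k bV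
    have := h0 k
    unfold xK
    linarith
  · have := exc_nonneg (R := R) (K' := K') ((mt R F μ o o').fz k k) k (R.m * R.b1)
    have := exc_nonneg (R := R) (K' := K') ((mt R F μ o o').fz k k) k bV
    have := h0 k
    linarith

lemma Cx.sum_xP {S : Finset ℕ} (hS : S ⊆ IdP R F B Vs Xs) {d : ℕ} (hd : d ≤ B) (ι : ℕ → ℕ)
    (hι : ∀ k ∈ S, ι k ∈ At' R p B d k) : ∑ k ∈ S, xP R F μ K' o o' k (ι k) ≤ ((d : ℝ) + 1) ^ 2 * xS R p μ K' := by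
  have h1 := h.fo.offP d hd
  have h0 : ∀ k, 0 ≤ ∑ i ∈ At' R p B d k, exc R.Q ((mt0 R F μ o o').fz k k) K' i (R.m * R.b1) := fun k =>
    Finset.sum_nonneg fun i _ => exc_nonneg _ _ _
  have h2 : K' ^ 2 * ((d : ℝ) + 1) ^ 2 * (R.n + p.J + 1) * q2 (μ / 4) = ((d : ℝ) + 1) ^ 2 * xS R p μ K' := by
    unfold xS
    ring
  rw [h2] at h1
  refine le_trans ?_ h1
  refine le_trans ?_ (Finset.sum_le_sum_of_subset_of_nonneg hS fun k _ _ => ?_)
  · refine Finset.sum_le_sum fun k hk => ?_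
    have a1 := badS_exc (R := R) (K' := K') ((mt0 R F μ o o').fz k k) k (R.m * R.b1)
    have a2 := exc_nonneg (R := R) (K' := K') ((mt0 R F μ o o').fz k k) k bV
    have a3 := bad_exc (R := R) (K' := K') ((mt0 R F μ o o').fz k k) (ι k) (R.m * R.b1)
    have a4 := Finset.single_le_sum (f := fun i => exc R.Q ((mt0 R F μ o o').fz k k) K' i (R.m * R.b1))
      (fun i _ => exc_nonneg _ _ _) (hι k hk)
    unfold xP
    linarith
  · have := exc_nonneg (R := R) (K' := K') ((mt0 R F μ o o').fz k k) k (R.m * R.b1)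
    have := exc_nonneg (R := R) (K' := K') ((mt0 R F μ o o').fz k k) k bV
    have := h0 k
    linarith

omit h in
lemma mem_IdK (hk : k ∈ IdK R Vs Xs) : 1 ≤ k ∧ k ≤ R.n ∧ lv R k ∈ Vs := by
  classical
  unfold IdK at hk
  rw [Finset.mem_filter, Finset.mem_Icc] at hk
  exact ⟨hk.1.1, hk.1.2, hk.2.1⟩

omit h in
lemma mem_IdP (hk : k ∈ IdP R F B Vs Xs) : 1 ≤ k ∧ k ≤ R.n ∧ lv R k ∈ Vs := by
  classical
  unfold IdP at hk
  rw [Finset.mem_filter, Finset.mem_Icc] at hk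
  exact ⟨hk.1.1, hk.1.2, hk.2.1⟩

omit h in
/-- the step `k` and its good time step `q` -/
structure Tq (R : Run Ω τ υ) (p : Run.Num) (ε : ℝ) (b0 k q : ℕ) : Prop where
  kq : k ≤ q
  qn : q < R.n
  good : R.Good p ε b0 q
  a : R.C.a k = R.C.a q

omit h in
lemma Tq.of_nq {ε : ℝ} {b0 x M : ℕ} (n : H931.Nq R p ε b0 x M k q) : Tq R p ε b0 k q := ⟨n.kq, n.qn, n.good, n.a⟩

omit h in
/-- the three terms of kind 1 -/
noncomputable def cc1 {κ : Type*} (R : Run Ω τ υ) (F : Pf R π) (μ : ℕ) (o : Fin 7 → ℝ) (o' : ℕ → ℝ) (c' : ℝ) (g b' : ℕ)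
    (Bf : ℕ → κ → Ω → Prop) (k : ℕ) : ℝ :=
  colp R.Q (fun ω => fl1 (R.C.a k + g) (R.C.t ω)) ((mt R F μ o o').mtr k b') +
    colp R.Q (fun ω => fl1 (R.m * R.b1 + g) (R.C.l ω).v) ((mt R F μ o o').mtr k (R.m * R.b1)) +
    R.Q.ex (fun ω => Law.ind (∃ x, (1 - c' / 2) * R.Q.pr ((mt R F μ o o').mtr k (R.m * R.b1))
      ((mt R F μ o o').mtr k (R.m * R.b1) ω) < prE R.Q (fun ω' => (mt R F μ o o').mtr k (R.m * R.b1) ω' =
        (mt R F μ o o').mtr k (R.m * R.b1) ω ∧ Bf k x ω')))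

/-- **[SC], kind 1** -/
theorem Cx.sum1 {κ : Type*} {ε : ℝ} {b0 b' : ℕ} (hmg : R.m ≤ g) (c'0 : 0 < c') (c'1 : c' ≤ 1) {S : Finset ℕ}
    (hS : S ⊆ IdK R Vs Xs) (qf : ℕ → ℕ) (hq : ∀ k ∈ S, Tq R p ε b0 k (qf k)) (Bf : ℕ → κ → Ω → Prop)
    (f : ℕ → κ → ℝ) (hB : ∀ k ∈ S, ∀ x ω, 0 < R.Q.w ω → Bf k x ω →
      |R.al (qf k) ω - f k x| * q2 (R.C.a (qf k)) ≤ q2 (R.C.rk (qf k) + R.m)) :
    ∑ k ∈ S, cc1 R F μ o o' c' g b' Bf k ≤ S.card * (2 * ε + 2 * εc) + (9 + 8 / c') * xS R p μ K' := by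
  have hS' : S ⊆ range (R.n + 1) := fun k hk => Finset.mem_range.2 (by have := (mem_IdK (hS hk)).2.1; omega)
  have s1 := h.sum_xL hS'
  have s2 := h.sum_xK hS
  have key : ∀ k ∈ S, cc1 R F μ o o' c' g b' Bf k ≤ (2 * ε + 2 * εc) + ((6 + 4 / c') * xL R μ K' o o' k +
      (3 + 4 / c') * xK R F μ K' o o' k) := by
    intro k hk
    obtain ⟨k1, k2, k3⟩ := mem_IdK (hS hk)
    have t := hq k hk
    have a1 := h.cT1 (b' := b') t.good k3 t.kq t.qn.le t.a hmg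
    have a2 := h.cY1 (g := g) k2 k3 hmg
    have a3 := h.pA1 k3 t.kq t.qn t.good.isA t.a c'0 c'1 (Bf k) (f k) (hB k hk)
    have e : 4 * (xK R F μ K' o o' k + xL R μ K' o o' k) / c' =
        4 / c' * xK R F μ K' o o' k + 4 / c' * xL R μ K' o o' k := by ring
    rw [e] at a3
    unfold cc1
    linarith
  refine (Finset.sum_le_sum key).trans ?_
  rw [Finset.sum_add_distrib, Finset.sum_const, nsmul_eq_mul, Finset.sum_add_distrib, ← Finset.mul_sum,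
    ← Finset.mul_sum]
  have c0 : 0 ≤ 4 / c' := by positivity
  have m1 := mul_le_mul_of_nonneg_left s1 (by linarith : 0 ≤ 6 + 4 / c')
  have m2 := mul_le_mul_of_nonneg_left s2 (by linarith : 0 ≤ 3 + 4 / c')
  have e : (9 + 8 / c') * xS R p μ K' = (6 + 4 / c') * xS R p μ K' + (3 + 4 / c') * xS R p μ K' := by ring
  rw [e]
  linarith

omit h in
/-- the three terms of kind 2 -/
noncomputable def cc2 (R : Run Ω τ υ) (F : Pf R π) (μ : ℕ) (o : Fin 7 → ℝ) (o' : ℕ → ℝ) (g b' : ℕ) (k : ℕ) : ℝ :=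
  colp R.Q (fun ω => fl1 (R.C.a k + g) (R.C.t ω)) (DpM (mt0 R F μ o o') k b') +
    colp R.Q (fun ω => fl1 (R.C.rf k + g) (H683.slR (mfz (mt0 R F μ o o') k) k b' ω)) (DpM (mt0 R F μ o o') k b') +
    colp R.Q (fun ω => fl1 (R.m * R.b1 + g) (R.C.l ω).v) (DpM (mt0 R F μ o o') k (R.m * R.b1))

omit h in
lemma sqrt_sum (S : Finset ℕ) (f : ℕ → ℝ) (hf : ∀ i, 0 ≤ f i) :
    ∑ i ∈ S, Real.sqrt (f i) ≤ Real.sqrt (∑ i ∈ S, f i) * Real.sqrt S.card := by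
  have h1 := Real.sum_sqrt_mul_sqrt_le S (f := f) (g := fun _ => 1) hf fun _ => zero_le_one
  simpa using h1

omit h in
lemma sqrt_add_le' {a b : ℝ} (ha : 0 ≤ a) (hb : 0 ≤ b) : Real.sqrt (a + b) ≤ Real.sqrt a + Real.sqrt b := by
  rw [Real.sqrt_le_left (by positivity)]
  have h1 := Real.sq_sqrt ha
  have h2 := Real.sq_sqrt hb
  have h3 := Real.sqrt_nonneg a
  have h4 := Real.sqrt_nonneg b
  nlinarith [mul_nonneg h3 h4]

omit h in
lemma sqrt_q2 (μ : ℕ) : Real.sqrt (q2 (μ / 4)) ≤ q2 (μ / 8) := by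
  rw [show q2 (μ / 8) = Real.sqrt (q2 (μ / 8) ^ 2) from (Real.sqrt_sq (q2_pos _).le).symm]
  refine Real.sqrt_le_sqrt ?_
  have e : q2 (μ / 8) ^ 2 = q2 (μ / 8 + μ / 8) := by rw [q2_add]; ring
  rw [e]
  exact q2_le (by omega)

/-- **[SC], kind 2** ; `ι k` = late step, `d` = number of levels -/
theorem Cx.sum2 {ε : ℝ} {b0 b' d : ℕ} (hε : 0 ≤ ε) (hmg : R.m ≤ g) {S : Finset ℕ}
    (hS : S ⊆ IdP R F B Vs Xs) (qf ι : ℕ → ℕ) (hq : ∀ k ∈ S, Tq R p ε b0 k (qf k))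
    (hph : ∀ k ∈ S, R.C.rf (qf k) < p.QF ∧ R.C.rf (qf k) < R.rI (qf k) + p.B₁ ∧
      R.C.rf (qf k) + R.m ≤ R.C.rf k + g)
    (hd : d ≤ B) (hι : ∀ k ∈ S, ι k ∈ At' R p B d k ∧ ι k ≤ R.n ∧ R.C.rf k + 8 * μ ≤ R.C.rf (ι k))
    (h8 : 8 * μ ≤ d * R.m) (hd' : d * R.m + 9 * μ ≤ 2 * (R.m * B)) {M : ℕ} (hM : 32 * K ≤ M) :
    ∑ k ∈ S, cc2 R F μ o o' g b' k ≤ ((R.n : ℝ) + p.J + 1) * (2 * (2 * M + 3) * (Real.sqrt (2 * ε) +
      2 * K' * q2 (μ / 8)) + 2 * εc) + 3 * (((d : ℝ) + 1) ^ 2 + 1) * xS R p μ K' := by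
  have hS' : S ⊆ range (R.n + 1) := fun k hk => Finset.mem_range.2 (by have := (mem_IdP (hS hk)).2.1; omega)
  have s1 := h.sum_xL hS'
  have s2 := h.sum_xP hS hd ι fun k hk => (hι k hk).1
  set L : ℝ := 2 * M + 3 with hL
  have L1 : 1 ≤ L := by
    have : (0 : ℝ) ≤ M := Nat.cast_nonneg _
    linarith
  have key : ∀ k ∈ S, cc2 R F μ o o' g b' k ≤ (2 * L * Real.sqrt (2 * ε) + 2 * εc) +
      (2 * L * Real.sqrt (3 * xL R μ K' o o' k) + (3 * xP R F μ K' o o' k (ι k) + 3 * xL R μ K' o o' k)) := by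
    intro k hk
    obtain ⟨k1, k2, k3⟩ := mem_IdP (hS hk)
    have t := hq k hk
    obtain ⟨p1, p2, p3⟩ := hph k hk
    obtain ⟨i1, i2, i3⟩ := hι k hk
    have hki : k ≤ ι k := by
      classical
      unfold At' at i1
      rw [Finset.mem_filter] at i1
      exact i1.2.1.le
    have a1 := h.cT2 (b' := b') t.good k3 t.kq t.qn.le t.a hmg hM
    have a2 := h.cF2 (b' := b') t.good k3 t.kq t.qn.le p1 p2 p3 hM
    have a3 := h.cY2 (g := g) k2 k3 hki i2 (h.reg_of (hS hk) i1 h8 hd' i3) hmg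
    have x0 := xL_nonneg (R := R) (μ := μ) (K' := K') (o := o) (o' := o') k
    have y0 : 0 ≤ 2 * ε + 3 * xL R μ K' o o' k := by linarith
    have e1 : ((2 * M + 3 : ℕ) : ℝ) = L := by rw [hL]; push_cast; ring
    have e2 : (2 * ((M + 1 : ℕ) : ℝ) + 1) = L := by rw [hL]; push_cast; ring
    rw [e1] at a1 a2
    rw [e2] at a2
    have b1 : Real.sqrt (L * (2 * ε + 3 * xL R μ K' o o' k)) ≤ L * Real.sqrt (2 * ε + 3 * xL R μ K' o o' k) := by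
      rw [Real.sqrt_mul (by linarith)]
      refine mul_le_mul_of_nonneg_right ?_ (Real.sqrt_nonneg _)
      rw [Real.sqrt_le_left (by linarith)]
      nlinarith
    have b2 : Real.sqrt (L * (L * (2 * ε + 3 * xL R μ K' o o' k))) = L * Real.sqrt (2 * ε + 3 * xL R μ K' o o' k) := by
      rw [← mul_assoc, Real.sqrt_mul (by nlinarith), Real.sqrt_mul_self (by linarith)]
    have b3 : Real.sqrt (2 * ε + 3 * xL R μ K' o o' k) ≤ Real.sqrt (2 * ε) + Real.sqrt (3 * xL R μ K' o o' k) :=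
      sqrt_add_le' (by linarith) (by linarith)
    have b4 := mul_le_mul_of_nonneg_left b3 (by linarith : 0 ≤ L)
    rw [b2] at a2
    unfold cc2
    linarith
  refine (Finset.sum_le_sum key).trans ?_
  rw [Finset.sum_add_distrib, Finset.sum_const, nsmul_eq_mul, Finset.sum_add_distrib, Finset.sum_add_distrib,
    ← Finset.mul_sum, ← Finset.mul_sum, ← Finset.mul_sum]
  have hK := h.K'0
  have N0 : (0 : ℝ) ≤ (R.n : ℝ) + p.J + 1 := by positivity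
  have cS : (S.card : ℝ) ≤ (R.n : ℝ) + p.J + 1 := by
    have h1 := Finset.card_le_card hS'
    rw [Finset.card_range] at h1
    have h2 : (S.card : ℝ) ≤ ((R.n + 1 : ℕ) : ℝ) := by exact_mod_cast h1
    push_cast at h2
    have : (0 : ℝ) ≤ p.J := Nat.cast_nonneg _
    linarith
  -- the square roots
  have r1 := sqrt_sum S (fun k => 3 * xL R μ K' o o' k) fun k => by
    have := xL_nonneg (R := R) (μ := μ) (K' := K') (o := o) (o' := o') k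
    linarith
  rw [← Finset.mul_sum] at r1
  have r2 : Real.sqrt (3 * ∑ k ∈ S, xL R μ K' o o' k) ≤ 2 * K' * q2 (μ / 8) * Real.sqrt ((R.n : ℝ) + p.J + 1) := by
    have e1 : Real.sqrt (3 * ∑ k ∈ S, xL R μ K' o o' k) ≤
        Real.sqrt ((2 * K') ^ 2 * (((R.n : ℝ) + p.J + 1) * q2 (μ / 4))) := by
      refine Real.sqrt_le_sqrt ?_
      have e2 : 3 * ∑ k ∈ S, xL R μ K' o o' k ≤ 4 * xS R p μ K' := by
        have : 0 ≤ ∑ k ∈ S, xL R μ K' o o' k := Finset.sum_nonneg fun k _ => xL_nonneg k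
        linarith
      refine e2.trans (le_of_eq ?_)
      unfold xS
      ring
    refine e1.trans ?_
    rw [Real.sqrt_mul (by positivity), Real.sqrt_sq (by linarith), Real.sqrt_mul N0]
    have e3 := mul_le_mul_of_nonneg_left (sqrt_q2 μ) (Real.sqrt_nonneg ((R.n : ℝ) + p.J + 1))
    calc 2 * K' * (Real.sqrt ((R.n : ℝ) + p.J + 1) * Real.sqrt (q2 (μ / 4))) ≤
        2 * K' * (Real.sqrt ((R.n : ℝ) + p.J + 1) * q2 (μ / 8)) := mul_le_mul_of_nonneg_left e3 (by linarith)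
      _ = _ := by ring
  have r3 : ∑ k ∈ S, Real.sqrt (3 * xL R μ K' o o' k) ≤ ((R.n : ℝ) + p.J + 1) * (2 * K' * q2 (μ / 8)) := by
    refine r1.trans ?_
    have q0 := q2_pos (μ / 8)
    calc _ ≤ 2 * K' * q2 (μ / 8) * Real.sqrt ((R.n : ℝ) + p.J + 1) * Real.sqrt ((R.n : ℝ) + p.J + 1) :=
          mul_le_mul r2 (Real.sqrt_le_sqrt cS) (Real.sqrt_nonneg _) (by positivity)
      _ = 2 * K' * q2 (μ / 8) * (Real.sqrt ((R.n : ℝ) + p.J + 1) * Real.sqrt ((R.n : ℝ) + p.J + 1)) := by ring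
      _ = 2 * K' * q2 (μ / 8) * ((R.n : ℝ) + p.J + 1) := by rw [Real.mul_self_sqrt N0]
      _ = _ := by ring
  have r4 := mul_le_mul_of_nonneg_left r3 (by linarith : 0 ≤ 2 * L)
  have εc0 : 0 ≤ εc := (colp_nonneg _ _ _).trans h.cap.act
  have r5 : (S.card : ℝ) * (2 * L * Real.sqrt (2 * ε) + 2 * εc) ≤
      ((R.n : ℝ) + p.J + 1) * (2 * L * Real.sqrt (2 * ε) + 2 * εc) := by
    refine mul_le_mul_of_nonneg_right cS ?_
    have := mul_nonneg (by linarith : 0 ≤ 2 * L) (Real.sqrt_nonneg (2 * ε))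
    linarith
  have e : ((R.n : ℝ) + p.J + 1) * (2 * L * (Real.sqrt (2 * ε) + 2 * K' * q2 (μ / 8)) + 2 * εc) +
      3 * (((d : ℝ) + 1) ^ 2 + 1) * xS R p μ K' =
      ((R.n : ℝ) + p.J + 1) * (2 * L * Real.sqrt (2 * ε) + 2 * εc) +
        (2 * L * (((R.n : ℝ) + p.J + 1) * (2 * K' * q2 (μ / 8))) +
          (3 * (((d : ℝ) + 1) ^ 2 * xS R p μ K') + 3 * xS R p μ K')) := by ring
  rw [e]
  linarith

/-- **[SC], kind 1**, final form -/
theorem Cx.kap1 {κ : Type*} {ε : ℝ} {b0 b' : ℕ} (hε : 0 ≤ ε) (hmg : R.m ≤ g) (c'0 : 0 < c') (c'1 : c' ≤ 1)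
    {S : Finset ℕ} (hS : S ⊆ IdK R Vs Xs) (qf : ℕ → ℕ) (hq : ∀ k ∈ S, Tq R p ε b0 k (qf k))
    (Bf : ℕ → κ → Ω → Prop) (f : ℕ → κ → ℝ) (hB : ∀ k ∈ S, ∀ x ω, 0 < R.Q.w ω → Bf k x ω →
      |R.al (qf k) ω - f k x| * q2 (R.C.a (qf k)) ≤ q2 (R.C.rk (qf k) + R.m)) {C0 κ0 : ℝ}
    (hN : (R.m : ℝ) * (R.n + p.J + 1) ≤ C0 * R.h)
    (hκ : C0 * (2 * ε + 2 * εc + (9 + 8 / c') * (K' ^ 2 * q2 (μ / 4))) ≤ κ0) :
    (R.m : ℝ) * ∑ k ∈ S, cc1 R F μ o o' c' g b' Bf k ≤ κ0 * R.h := by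
  have h1 := h.sum1 (b' := b') hmg c'0 c'1 hS qf hq Bf f hB
  have εc0 : 0 ≤ εc := (colp_nonneg _ _ _).trans h.cap.act
  have cS : (S.card : ℝ) ≤ (R.n : ℝ) + p.J + 1 := by
    have h1 := Finset.card_le_card (hS.trans fun k hk => Finset.mem_range.2
      (show k < R.n + 1 by have := (mem_IdK hk).2.1; omega))
    rw [Finset.card_range] at h1
    have h2 : (S.card : ℝ) ≤ ((R.n + 1 : ℕ) : ℝ) := by exact_mod_cast h1
    push_cast at h2
    have : (0 : ℝ) ≤ p.J := Nat.cast_nonneg _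
    linarith
  have h2 : ∑ k ∈ S, cc1 R F μ o o' c' g b' Bf k ≤
      (R.n + p.J + 1) * (2 * ε + 2 * εc + (9 + 8 / c') * (K' ^ 2 * q2 (μ / 4))) := by
    have h3 := mul_le_mul_of_nonneg_right cS (by linarith : 0 ≤ 2 * ε + 2 * εc)
    refine h1.trans ?_
    unfold xS
    nlinarith
  have m0 : (0 : ℝ) ≤ R.m := Nat.cast_nonneg _
  have h0 : (0 : ℝ) ≤ R.h := Nat.cast_nonneg _
  have q0 := q2_pos (μ / 4)
  have z : 0 ≤ 2 * ε + 2 * εc + (9 + 8 / c') * (K' ^ 2 * q2 (μ / 4)) := by positivity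
  calc (R.m : ℝ) * ∑ k ∈ S, cc1 R F μ o o' c' g b' Bf k
      ≤ R.m * ((R.n + p.J + 1) * (2 * ε + 2 * εc + (9 + 8 / c') * (K' ^ 2 * q2 (μ / 4)))) :=
        mul_le_mul_of_nonneg_left h2 m0
    _ = R.m * (R.n + p.J + 1) * (2 * ε + 2 * εc + (9 + 8 / c') * (K' ^ 2 * q2 (μ / 4))) := by ring
    _ ≤ C0 * R.h * (2 * ε + 2 * εc + (9 + 8 / c') * (K' ^ 2 * q2 (μ / 4))) := mul_le_mul_of_nonneg_right hN z
    _ = C0 * (2 * ε + 2 * εc + (9 + 8 / c') * (K' ^ 2 * q2 (μ / 4))) * R.h := by ring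
    _ ≤ κ0 * R.h := mul_le_mul_of_nonneg_right hκ h0

/-- **[SC], kind 2**, final form -/
theorem Cx.kap2 {ε : ℝ} {b0 b' d : ℕ} (hε : 0 ≤ ε) (hmg : R.m ≤ g) {S : Finset ℕ}
    (hS : S ⊆ IdP R F B Vs Xs) (qf ι : ℕ → ℕ) (hq : ∀ k ∈ S, Tq R p ε b0 k (qf k))
    (hph : ∀ k ∈ S, R.C.rf (qf k) < p.QF ∧ R.C.rf (qf k) < R.rI (qf k) + p.B₁ ∧
      R.C.rf (qf k) + R.m ≤ R.C.rf k + g)
    (hd : d ≤ B) (hι : ∀ k ∈ S, ι k ∈ At' R p B d k ∧ ι k ≤ R.n ∧ R.C.rf k + 8 * μ ≤ R.C.rf (ι k))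
    (h8 : 8 * μ ≤ d * R.m) (hd' : d * R.m + 9 * μ ≤ 2 * (R.m * B)) {C0 κ0 : ℝ}
    (hN : (R.m : ℝ) * (R.n + p.J + 1) ≤ C0 * R.h)
    (hκ : C0 * (138 * K * (Real.sqrt (2 * ε) + 2 * K' * q2 (μ / 8)) + 2 * εc +
      3 * (((d : ℝ) + 1) ^ 2 + 1) * (K' ^ 2 * q2 (μ / 4))) ≤ κ0) :
    (R.m : ℝ) * ∑ k ∈ S, cc2 R F μ o o' g b' k ≤ κ0 * R.h := by
  have K1 := h.K1
  have hK' := h.K'0
  have hM : 32 * K ≤ (⌈32 * K⌉₊ : ℝ) := Nat.le_ceil _
  have hM' : (⌈32 * K⌉₊ : ℝ) ≤ 32 * K + 1 := (Nat.ceil_lt_add_one (by linarith)).le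
  have h1 := h.sum2 (b' := b') hε hmg hS qf ι hq hph hd hι h8 hd' hM
  have εc0 : 0 ≤ εc := (colp_nonneg _ _ _).trans h.cap.act
  have m0 : (0 : ℝ) ≤ R.m := Nat.cast_nonneg _
  have h0 : (0 : ℝ) ≤ R.h := Nat.cast_nonneg _
  have q0 := q2_pos (μ / 4)
  have q1 := q2_pos (μ / 8)
  have N0 : (0 : ℝ) ≤ (R.n : ℝ) + p.J + 1 := by positivity
  have s0 := Real.sqrt_nonneg (2 * ε)
  set Z : ℝ := 138 * K * (Real.sqrt (2 * ε) + 2 * K' * q2 (μ / 8)) + 2 * εc +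
    3 * (((d : ℝ) + 1) ^ 2 + 1) * (K' ^ 2 * q2 (μ / 4)) with hZ
  have z : 0 ≤ Z := by positivity
  have h2 : ∑ k ∈ S, cc2 R F μ o o' g b' k ≤ (R.n + p.J + 1) * Z := by
    refine h1.trans ?_
    have w : 0 ≤ Real.sqrt (2 * ε) + 2 * K' * q2 (μ / 8) := by positivity
    have e1 : 2 * (2 * (⌈32 * K⌉₊ : ℝ) + 3) * (Real.sqrt (2 * ε) + 2 * K' * q2 (μ / 8)) ≤
        138 * K * (Real.sqrt (2 * ε) + 2 * K' * q2 (μ / 8)) :=
      mul_le_mul_of_nonneg_right (by linarith) w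
    have e2 := mul_le_mul_of_nonneg_left e1 N0
    have e3 : ((R.n : ℝ) + p.J + 1) * Z = ((R.n : ℝ) + p.J + 1) * (138 * K * (Real.sqrt (2 * ε) +
        2 * K' * q2 (μ / 8))) + ((R.n : ℝ) + p.J + 1) * (2 * εc) + 3 * (((d : ℝ) + 1) ^ 2 + 1) * xS R p μ K' := by
      rw [hZ]
      unfold xS
      ring
    rw [e3, mul_add]
    linarith
  calc (R.m : ℝ) * ∑ k ∈ S, cc2 R F μ o o' g b' k
      ≤ R.m * ((R.n + p.J + 1) * Z) := mul_le_mul_of_nonneg_left h2 m0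
    _ = R.m * (R.n + p.J + 1) * Z := by ring
    _ ≤ C0 * R.h * Z := mul_le_mul_of_nonneg_right hN z
    _ = C0 * Z * R.h := by ring
    _ ≤ κ0 * R.h := mul_le_mul_of_nonneg_right hκ h0

end cx

end

end Vale.Agent.P106.U.H786.SC
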