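import Vale.Agent.P106.U.H786.L2C
import Vale.Agent.P106.U.H425.RowL2
import Vale.Agent.P106.U.H336.SwS

/-!
# P106 / U / H786 : input (c) of the row `RowL 2` (helper786)
-/

set_option autoImplicit false

namespace Vale.Agent.P106.U.H786.SC

open Finset Vale.Agent.P127
open Vale.Agent.P106.U.S5 (Bs Cst Thr Gv)
open Vale.Agent.P106.U.MIC
open Vale.Agent.P106.U.H336 (SwL)
open Vale.Agent.P106.U.H652 (Ev3)

/-- **input (c) of `rowL2_of`** : the collisions of the light windows of kind 2 -/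
theorem hsc2 : H425.HSC2 := by
  intro κc hκc b hb η hη x δh e3 hx hδh he3
  refine ⟨1, one_pos, fun θ _ _ => ⟨1, one_pos, fun δ1 _ _ σ _ hσ => ?_⟩⟩
  obtain ⟨ε0, hε0, H⟩ := col2_ev hσ hκc
  refine ⟨ε0, hε0, fun ε hε hε' ρ hρ Lk hLk L1 L2 _ _ κ hκ => ?_⟩
  have h1 : Suf σ ε fun g m B h => ∀ s : St η x σ ε ρ g m B h,
      (m : ℝ) * (SwL s.R B s.Vs s.Xs (L1 + H683.L2.KrS x ρ.J)).card ≤ κ * h :=
    H336.sw_suf η x σ ε ρ hκ (L1 + H683.L2.KrS x ρ.J)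
  have h2 : Suf σ ε fun _ m B h => ∀ (η : ℝ) (g : Gv) (s : St η x σ ε ρ g m B h)
      (L1 L2 Lk L : ℕ) (Sw : Finset ℕ), H683.L2.KrS x ρ.J ≤ Lk → L1 + H683.L2.KrS x ρ.J ≤ L →
      SwL s.R B s.Vs s.Xs L ⊆ Sw →
      (m : ℝ) * ∑ j ∈ range s.N, H683.L2.colL s Sw L1 L2 Lk (H683.L2.KrS x ρ.J) j ≤ κc * h :=
    Suf.of_ev3 fun _ _ => (H ε hε hε' ρ hρ x).out
  refine (h1.and h2).mono fun g m B h _ H12 s => ⟨_, H12.1 s, fun Sw hSw => ?_⟩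
  exact H12.2 η g s L1 L2 Lk _ Sw hLk le_rfl hSw

end Vale.Agent.P106.U.H786.SC
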