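import Vale.Agent.P106.U.H786.SCs
import Vale.Agent.P106.U.H357.USg
import Vale.Agent.P106.U.H357.HV
import Vale.Agent.P106.U.H459.XB

/-!
# P106 / U / H786 : collisions of the heavy row, kind 1 (helper786; input `hcK` of helper357's `us1`)

* `idk_ak` : the index `J = ix (j + 1)` of an a-step of kind 1 outside `XL` is in `IdK`.
* `cc_pt` : `cTL + cYL` at the frozen path of `J` is at most `cc1` at `J`.
* **`cc_K`** : `m * ∑ j ∈ AK .. {1} \ XB, (cTL + cYL) ≤ κ h` over the situation of a scale.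
-/

set_option autoImplicit false

namespace Vale.Agent.P106.U.H786.SC

open Finset Vale.Agent.P127 Vale.Agent.P127.Stk
open Vale.Agent.P127.U.CellD (q2)
open Vale.Agent.P127.U.Mic (colp colp_nonneg)
open Vale.Agent.P106.U.Cell
open Vale.Agent.P106.U.S3 (Run mt mt0 F2 IdK IdP At' Pf LDk)
open Vale.Agent.P106.U.H785.Mtr
open Vale.Agent.P106.U.S5
open Vale.Agent.P106.U.MIC
open Vale.Agent.P106.U.H833 (aN RN lev_a)
open Vale.Agent.P106.U.H118 (Sdat)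
open Vale.Agent.P106.U.H336 (SwL kd)
open Vale.Agent.P106.U.H357 (cTL cYL AK mem_AK XLv gd_of)
open Vale.Agent.P106.U.H459 (XB XB_good)
open Vale.Agent.P106.U.H931 (nx)
open Vale.Agent.P106.U.H652

section

variable {Ω : Type} [Fintype Ω] {τ υ π : Type} {R : Run Ω τ υ} {p : Run.Num} {K : ℝ} {B bS bV μ : ℕ}
  {F : Pf R π} {Vs Xs : Finset ℕ} {o : Fin 7 → ℝ} {o' : ℕ → ℝ} {i0 L : ℕ} {gd : ℕ → Prop} {XL : Finset ℕ}

/-- the index after an a-step of kind 1 is in `IdK` -/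
theorem idk_ak (hP : R.Path p) (D : Sdat (nz R i0) gd (az R i0) (rz R i0)) (h : F2 R p K B bS bV F Vs Xs) (hB : 1 ≤ B)
    (hX : XLv R B Vs Xs i0 L XL) (hL : 3 ≤ L) {j : ℕ} (hj : j ∈ AK R Vs i0 XL {1}) : ix R i0 (j + 1) ∈ IdK R Vs Xs := by
  classical
  obtain ⟨j1, j2, j3, j4⟩ := mem_AK.1 hj
  have G := gd_of hP D h hB hX (d := 1) (q := 2) le_rfl (by norm_num) (by omega) j1 j2 j3
  have e : aN R (ix R i0 (j + 1)) = az R i0 (j + 1) := rfl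
  have hn : ix R i0 (j + 1) ≤ R.n := H459.ix_n i0 (j + 1)
  obtain ⟨r1, r2, r3, r4, r5, r6, r7⟩ := G.reg (ix R i0 (j + 1)) hn (by omega) (by omega)
  obtain ⟨s1, s2, s3⟩ := r5 (Finset.mem_singleton.1 j4)
  unfold IdK
  rw [mem_filter, mem_Icc]
  exact ⟨⟨r1, hn⟩, s1, r2, s2⟩

/-- time and direction at the frozen path -/
theorem cc_pt {k g : ℕ} {c' : ℝ} (hk : k ∈ IdK R Vs Xs) :
    cTL R.Q ((mt R F μ o o').fz k k) (R.m * R.b1) k g + cYL R.Q ((mt R F μ o o').fz k k) (R.m * R.b1) k g ≤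
      cc1 R F μ o o' c' g (R.m * R.b1) (fun (_ : ℕ) (_ : Unit) (_ : Ω) => False) k := by
  have e3 : ((mt R F μ o o').fz k k).a k = R.C.a k := Mtd.fz_a' _ le_rfl
  have e1 : cTL R.Q ((mt R F μ o o').fz k k) (R.m * R.b1) k g =
      colp R.Q (fun ω => fl1 (R.C.a k + g) (R.C.t ω)) ((mt R F μ o o').mtr k (R.m * R.b1)) := by
    rw [← ldk_K _ hk]
    unfold cTL
    rw [e3]
    rfl
  have e2 : cYL R.Q ((mt R F μ o o').fz k k) (R.m * R.b1) k g =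
      colp R.Q (fun ω => fl1 (R.m * R.b1 + g) (R.C.l ω).v) ((mt R F μ o o').mtr k (R.m * R.b1)) := by
    rw [← ldk_K _ hk]
    rfl
  unfold cc1
  rw [e1, e2]
  have h3 : 0 ≤ R.Q.ex (fun ω => Law.ind (∃ _ : Unit, (1 - c' / 2) * R.Q.pr ((mt R F μ o o').mtr k (R.m * R.b1))
        ((mt R F μ o o').mtr k (R.m * R.b1) ω) < prE R.Q (fun ω' => (mt R F μ o o').mtr k (R.m * R.b1) ω' =
        (mt R F μ o o').mtr k (R.m * R.b1) ω ∧ False))) :=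
    R.Q.ex_nonneg fun ω _ => by
      unfold Law.ind
      split_ifs
      · exact zero_le_one
      · exact le_rfl
  linarith

end

/-- **[SC] of the heavy row, kind 1** -/
theorem cc_K_ev {σ : Cst} (hσ : σ.Ok) {κ : ℝ} (hκ : 0 < κ) : ∃ ε0 : ℝ, 0 < ε0 ∧ ∀ ε : ℝ, 0 < ε → ε ≤ ε0 →
    ∀ ρ : Thr, ρ.Ok → ∀ x : ℕ, Ev3 fun m B h => ∀ (η : ℝ) (g : Gv) (s : MIC.St η x σ ε ρ g m B h)
      (L gg : ℕ) (XL : Finset ℕ), XLv s.R B s.Vs s.Xs s.i0 L XL → 3 ≤ L → m ≤ gg →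
      (m : ℝ) * ∑ j ∈ AK s.R s.Vs s.i0 XL {1} \ XB s.R s.i0 s.E,
        (cTL s.R.Q ((mt s.R s.F (μS x m) s.o s.o').fz (ix s.R s.i0 (j + 1)) (ix s.R s.i0 (j + 1))) (s.R.m * s.R.b1)
          (ix s.R s.i0 (j + 1)) gg + cYL s.R.Q ((mt s.R s.F (μS x m) s.o s.o').fz (ix s.R s.i0 (j + 1))
          (ix s.R s.i0 (j + 1))) (s.R.m * s.R.b1) (ix s.R s.i0 (j + 1)) gg) ≤ κ * h := by
  classical
  obtain ⟨ε0, hε0, H⟩ := sc1_ev hσ hκ
  refine ⟨ε0, hε0, fun ε hε hε' ρ hρ x => ?_⟩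
  have nB : Ev3 fun _ B _ => 1 ≤ B := Ev3.of_B' fun _ => ev_nat 1
  refine (H ε hε hε' ρ hρ x).mono2 nB fun m B h N hB => ?_
  intro η g s L gg XL hX hL hg
  have hP := s.run.ok.pth
  have D := s.word.sd
  set T := AK s.R s.Vs s.i0 XL {1} \ XB s.R s.i0 s.E with hT
  have memT : ∀ j ∈ T, j ∈ AK s.R s.Vs s.i0 XL {1} ∧ j < nz s.R s.i0 ∧ az s.R s.i0 (j + 1) = az s.R s.i0 j + 1 ∧
      j ∉ XB s.R s.i0 s.E := by
    intro j hj
    rw [hT, Finset.mem_sdiff] at hj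
    obtain ⟨h1, h2, _⟩ := mem_AK.1 hj.1
    exact ⟨hj.1, h1, h2, hj.2⟩
  have hS : ∀ j ∈ T, ix s.R s.i0 (j + 1) ∈ IdK s.R s.Vs s.Xs := fun j hj =>
    idk_ak hP D s.f2 hB hX hL (memT j hj).1
  have key := N η g s T (fun j => ix s.R s.i0 (j + 1)) (fun j => ix s.R s.i0 (nx (nz s.R s.i0) (az s.R s.i0) (j + 1)))
    (bc s.R) (s.R.m * s.R.b1) gg Unit (fun _ _ _ => False) (fun _ _ => 0) hg ?_ hS ?_ (fun _ _ _ _ _ hf => hf.elim)
  · refine le_trans (mul_le_mul_of_nonneg_left ?_ (Nat.cast_nonneg m)) key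
    exact Finset.sum_le_sum fun j hj => cc_pt (hS j hj)
  · intro i hi j hj e
    obtain ⟨_, i1, _⟩ := memT i hi
    obtain ⟨_, j1, _⟩ := memT j hj
    rcases lt_trichotomy i j with h1 | h1 | h1
    · have := H812.ix_strict hP (i0 := s.i0) (i + 1) (j + 1) (by omega) (by omega)
      omega
    · exact h1
    · have := H812.ix_strict hP (i0 := s.i0) (j + 1) (i + 1) (by omega) (by omega)
      omega
  · intro j hj
    obtain ⟨_, j1, j2, j3⟩ := memT j hj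
    obtain ⟨g1, g2, g3, g4, g5⟩ := XB_good D s.word.hE j1 j2 j3
    have f1 : ix s.R s.i0 (j + 1) ≤ ix s.R s.i0 (nx (nz s.R s.i0) (az s.R s.i0) (j + 1)) := ix_mono s.R s.i0 g2
    have f2 : ix s.R s.i0 (nx (nz s.R s.i0) (az s.R s.i0) (j + 1)) < ix s.R s.i0 (nz s.R s.i0) :=
      H812.ix_strict hP _ _ g1 le_rfl
    have f3 : ix s.R s.i0 (nz s.R s.i0) ≤ s.R.n := H459.ix_n s.i0 _
    refine ⟨f1, by omega, g5, ?_⟩
    rw [lev_a hP (i := ix s.R s.i0 (j + 1)) (by omega),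
      lev_a hP (i := ix s.R s.i0 (nx (nz s.R s.i0) (az s.R s.i0) (j + 1))) (by omega)]
    have e5 : aN s.R (ix s.R s.i0 (nx (nz s.R s.i0) (az s.R s.i0) (j + 1))) =
      az s.R s.i0 (nx (nz s.R s.i0) (az s.R s.i0) (j + 1)) := rfl
    have e6 : aN s.R (ix s.R s.i0 (j + 1)) = az s.R s.i0 (j + 1) := rfl
    rw [e5, e6, g3]

/-- **[SC] of the heavy row, kind 1**, in the order of the constants (form of helper931's `cc_OB`) -/
theorem cc_K {κ : Bs → ℝ → ℕ → ℝ → ℝ → ℝ} (hκ : ∀ b η x δh e3, 0 < η → 0 < δh → 0 < e3 → 0 < κ b η x δh e3) :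
    Pre fun b η x δh e3 σ ε ρ => Suf σ ε fun g m B h => ∀ s : St η x σ ε ρ g m B h, ∀ (L : ℕ) (XL : Finset ℕ),
      XLv s.R B s.Vs s.Xs s.i0 L XL → 3 ≤ L →
      (m : ℝ) * ∑ j ∈ AK s.R s.Vs s.i0 XL {1} \ XB s.R s.i0 s.E,
        (cTL s.R.Q ((mt s.R s.F (μS x m) s.o s.o').fz (ix s.R s.i0 (j + 1)) (ix s.R s.i0 (j + 1))) (s.R.m * s.R.b1)
          (ix s.R s.i0 (j + 1)) (MIC.gS x m) + cYL s.R.Q ((mt s.R s.F (μS x m) s.o s.o').fz (ix s.R s.i0 (j + 1))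
          (ix s.R s.i0 (j + 1))) (s.R.m * s.R.b1) (ix s.R s.i0 (j + 1)) (MIC.gS x m)) ≤ κ b η x δh e3 * h := by
  intro b hb η hη x δh e3
  intros
  have hδ : 0 < δh := by assumption
  have he : 0 < e3 := by assumption
  refine ⟨1, one_pos, fun θ _ _ => ⟨1, one_pos, fun δ1 _ _ σ hσe hσ => ?_⟩⟩
  obtain ⟨ε0, hε0, H⟩ := cc_K_ev hσ (hκ b η x δh e3 hη hδ he)
  refine ⟨ε0, hε0, fun ε hε hε' ρ hρ => Suf.of_ev3 fun g _ => Ev3.out ?_⟩
  refine (H ε hε hε' ρ hρ x).mono fun m B h P s L XL hX hL => ?_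
  refine P η g s L (MIC.gS x m) XL hX hL ?_
  unfold MIC.gS
  exact Nat.le_mul_of_pos_left m (by unfold MIC.xS; omega)

end Vale.Agent.P106.U.H786.SC
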