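import Vale.Agent.P106.U.H786.SC
import Vale.Agent.P106.U.MIC.Stage
import Vale.Agent.P106.U.H364.NwRec
import Vale.Agent.P106.U.H931.SEn

/-!
# P106 / U / H786 : collisions of the V windows at a stage (helper786; row [SC], kinds 1 and 2, over `MIC.St`)

* **`cx`** : the hypotheses `Cx` at a stage `s : MIC.St`.
* `cc1_le`, `cc2_le` : pointwise bounds of the three collisions; `ldk_K`, `ldk_P` : the letter `S3.LDk` of the frozen paths.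
* **`sc1_ev`**, **`sc2_ev`** : `m Σ coll ≤ κ h` for every `κ > 0`, after `ε ≤ ε0`, then `m`, `B`, `h` large; `ph` = indices of the
  steps (any injective map), `qf` = good time steps of their levels.
-/

set_option autoImplicit false

namespace Vale.Agent.P106.U.H786.SC

open Finset Filter Vale.Agent.P127 Vale.Agent.P106.W
open Vale.Agent.P127.Stk hiding cst
open Vale.Agent.P127.U.CellD (q2 q2_pos q2_add q2_le q2_mul_pow fl1_fl1)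
open Vale.Agent.P127.U.Mic (colp colp_nonneg colp_congr)
open Vale.Agent.P106.U.S3 (Run kaL uL mt mt0 F2 F2o IdK IdP At' exc lv Pf LDk)
open Vale.Agent.P106.U.H785.Mtr
open Vale.Agent.P106.U.H958 (mfz DpM eqAt_mfz)
open Vale.Agent.P106.U.S5 Vale.Agent.P106.U.MIC Vale.Agent.P106.U.H652
open Vale.Agent.P106.U.H364.NwRec Vale.Agent.P106.U.H364.MtrWF

section point

variable {Ω : Type} [Fintype Ω] {τ υ π : Type} {R : Run Ω τ υ} {p : Run.Num} {K c' g' gU c εc : ℝ} {B bS bV μ : ℕ}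
  {F : Pf R π} {Vs Xs : Finset ℕ} {K' : ℝ} {o : Fin 7 → ℝ} {o' : ℕ → ℝ} {k q i g : ℕ}

/-- kappa regime: `LDk` = the cell -/
theorem ldk_K {S : Type} (X : Ω → S) (hk : k ∈ IdK R Vs Xs) :
    colp R.Q X (LDk ((mt R F μ o o').fz k k) (R.m * R.b1) k) = colp R.Q X ((mt R F μ o o').mtr k (R.m * R.b1)) := by
  classical
  unfold IdK at hk
  rw [Finset.mem_filter] at hk
  have h1 := hk.2.2.2
  have e1 : ((mt R F μ o o').fz k k).rf k = R.C.rf k := Mtd.fz_rf _ le_rfl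
  have e2 : ((mt R F μ o o').fz k k).rk k = R.C.rk k - μ / 2 := Mtd.fz_rk _ le_rfl le_rfl
  have hn : ¬ ((mt R F μ o o').fz k k).rf k ≤ R.m * R.b1 + ((mt R F μ o o').fz k k).rk k := by
    rw [e1, e2]
    omega
  have e : ∀ ω ω', LDk ((mt R F μ o o').fz k k) (R.m * R.b1) k ω = LDk ((mt R F μ o o').fz k k) (R.m * R.b1) k ω' ↔
      (mt R F μ o o').mtr k (R.m * R.b1) ω = (mt R F μ o o').mtr k (R.m * R.b1) ω' := by
    intro ω ω'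
    rw [← Mtd.fz_cell_iff (mt R F μ o o') (j := k) (k := k) le_rfl]
    unfold LDk
    rw [if_neg hn, if_neg hn, Prod.mk.injEq]
    exact and_iff_left rfl
  exact colp_congr R.Q (fun _ _ _ _ e => congrArg Prod.fst e) (fun _ _ _ _ e => congrArg Prod.fst e)
    (fun ω ω' _ _ e' => (e ω ω').2 e') (fun ω ω' _ _ e' => (e ω ω').1 e')

/-- deep phi regime: `LDk` = 683's `Dp` -/
theorem ldk_P (hk : k ∈ IdP R F B Vs Xs) (hμ : μ ≤ R.m * B) :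
    LDk ((mt0 R F μ o o').fz k k) (R.m * R.b1) k = H683.Dp ((mt0 R F μ o o').fz k k) k (R.m * R.b1) := by
  classical
  unfold IdP at hk
  rw [Finset.mem_filter] at hk
  have h1 := hk.2.2.2
  have e1 : ((mt0 R F μ o o').fz k k).rf k = R.C.rf k := Mtd.fz_rf _ le_rfl
  have e2 : ((mt0 R F μ o o').fz k k).rk k = F.rk0 k - μ / 2 := Mtd.fz_rk _ le_rfl le_rfl
  funext ω
  unfold LDk H683.Dp
  rw [if_pos (by rw [e1, e2]; omega)]

variable (h : Cx R p K c' g' gU c εc B bS bV F Vs Xs μ K' o o')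

include h

/-- the three terms of kind 1 -/
theorem Cx.cc1_le {κ : Type*} {ε : ℝ} {b0 b' : ℕ} (hmg : R.m ≤ g) (c'0 : 0 < c') (c'1 : c' ≤ 1) (hk : k ∈ IdK R Vs Xs)
    (t : Tq R p ε b0 k q) (Bf : ℕ → κ → Ω → Prop) (f : κ → ℝ) (hB : ∀ x ω, 0 < R.Q.w ω → Bf k x ω →
      |R.al q ω - f x| * q2 (R.C.a q) ≤ q2 (R.C.rk q + R.m)) :
    cc1 R F μ o o' c' g b' Bf k ≤ (2 * ε + 2 * εc) + ((6 + 4 / c') * xL R μ K' o o' k +
      (3 + 4 / c') * xK R F μ K' o o' k) := by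
  obtain ⟨k1, k2, k3⟩ := mem_IdK hk
  have a1 := h.cT1 (b' := b') t.good k3 t.kq t.qn.le t.a hmg
  have a2 := h.cY1 (g := g) k2 k3 hmg
  have a3 := h.pA1 k3 t.kq t.qn t.good.isA t.a c'0 c'1 (Bf k) f hB
  have e : 4 * (xK R F μ K' o o' k + xL R μ K' o o' k) / c' =
      4 / c' * xK R F μ K' o o' k + 4 / c' * xL R μ K' o o' k := by ring
  rw [e] at a3
  unfold cc1
  linarith

/-- the three terms of kind 2 -/
theorem Cx.cc2_le {ε : ℝ} {b0 b' d : ℕ} (hε : 0 ≤ ε) (hmg : R.m ≤ g) (hk : k ∈ IdP R F B Vs Xs) (t : Tq R p ε b0 k q)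
    (hph : R.C.rf q < p.QF ∧ R.C.rf q < R.rI q + p.B₁ ∧ R.C.rf q + R.m ≤ R.C.rf k + g)
    (hi : i ∈ At' R p B d k) (hin : i ≤ R.n) (hir : R.C.rf k + 8 * μ ≤ R.C.rf i)
    (h8 : 8 * μ ≤ d * R.m) (hd' : d * R.m + 9 * μ ≤ 2 * (R.m * B)) :
    cc2 R F μ o o' g b' k ≤ (138 * K * Real.sqrt (2 * ε) + 2 * εc) + (138 * K * Real.sqrt (3 * xL R μ K' o o' k) +
      (3 * xP R F μ K' o o' k i + 3 * xL R μ K' o o' k)) := by
  obtain ⟨k1, k2, k3⟩ := mem_IdP hk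
  obtain ⟨p1, p2, p3⟩ := hph
  have hki : k ≤ i := by
    classical
    have hi' := hi
    unfold At' at hi'
    rw [Finset.mem_filter] at hi'
    exact hi'.2.1.le
  have K1 := h.K1
  have hM : 32 * K ≤ (⌈32 * K⌉₊ : ℝ) := Nat.le_ceil _
  have hM' : (⌈32 * K⌉₊ : ℝ) ≤ 32 * K + 1 := (Nat.ceil_lt_add_one (by linarith)).le
  have a1 := h.cT2 (b' := b') t.good k3 t.kq t.qn.le t.a hmg hM
  have a2 := h.cF2 (b' := b') t.good k3 t.kq t.qn.le p1 p2 p3 hM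
  have a3 := h.cY2 (g := g) k2 k3 hki hin (h.reg_of hk hi h8 hd' hir) hmg
  have x0 := xL_nonneg (R := R) (μ := μ) (K' := K') (o := o) (o' := o') k
  have y0 : 0 ≤ 2 * ε + 3 * xL R μ K' o o' k := by linarith
  set L : ℝ := 2 * (⌈32 * K⌉₊ : ℝ) + 3 with hL
  have L1 : 1 ≤ L := by linarith
  have L2 : 2 * L ≤ 138 * K := by linarith
  have e1 : ((2 * ⌈32 * K⌉₊ + 3 : ℕ) : ℝ) = L := by rw [hL]; push_cast; ring
  have e2 : (2 * ((⌈32 * K⌉₊ + 1 : ℕ) : ℝ) + 1) = L := by rw [hL]; push_cast; ring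
  rw [e1] at a1 a2
  rw [e2] at a2
  have b1 : Real.sqrt (L * (2 * ε + 3 * xL R μ K' o o' k)) ≤ L * Real.sqrt (2 * ε + 3 * xL R μ K' o o' k) := by
    rw [Real.sqrt_mul (by linarith)]
    refine mul_le_mul_of_nonneg_right ?_ (Real.sqrt_nonneg _)
    rw [Real.sqrt_le_left (by linarith)]
    nlinarith
  have b2 : Real.sqrt (L * (L * (2 * ε + 3 * xL R μ K' o o' k))) = L * Real.sqrt (2 * ε + 3 * xL R μ K' o o' k) := by
    rw [← mul_assoc, Real.sqrt_mul (by nlinarith), Real.sqrt_mul_self (by linarith)]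
  have b3 : Real.sqrt (2 * ε + 3 * xL R μ K' o o' k) ≤ Real.sqrt (2 * ε) + Real.sqrt (3 * xL R μ K' o o' k) :=
    sqrt_add_le' (by linarith) (by linarith)
  have b4 := mul_le_mul_of_nonneg_left b3 (by linarith : 0 ≤ 2 * L)
  have b5 : 2 * L * (Real.sqrt (2 * ε) + Real.sqrt (3 * xL R μ K' o o' k)) ≤
      138 * K * (Real.sqrt (2 * ε) + Real.sqrt (3 * xL R μ K' o o' k)) :=
    mul_le_mul_of_nonneg_right L2 (by positivity)
  rw [b2] at a2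
  unfold cc2
  linarith

lemma Cx.xS_nonneg : 0 ≤ xS R p μ K' := by
  unfold xS
  have := h.K'0
  have := q2_pos (μ / 4)
  positivity

omit h in
/-- the number of steps -/
lemma card_map {T : Finset ℕ} {ph : ℕ → ℕ} (inj : ∀ i ∈ T, ∀ j ∈ T, ph i = ph j → i = j) (hn : ∀ j ∈ T, ph j ≤ R.n) :
    (T.card : ℝ) ≤ (R.n : ℝ) + p.J + 1 := by
  classical
  have h1 : T.card ≤ (range (R.n + 1)).card := Finset.card_le_card_of_injOn ph
    (fun j hj => Finset.mem_coe.2 (Finset.mem_range.2 (by have := hn j hj; omega))) fun i hi j hj e => inj i hi j hj e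
  rw [Finset.card_range] at h1
  have h2 : (T.card : ℝ) ≤ ((R.n + 1 : ℕ) : ℝ) := by exact_mod_cast h1
  push_cast at h2
  have : (0 : ℝ) ≤ p.J := Nat.cast_nonneg _
  linarith

/-- **kind 1 along a map** -/
theorem Cx.sum1m {κ : Type*} {ε : ℝ} {b0 b' : ℕ} (hε : 0 ≤ ε) (hmg : R.m ≤ g) (c'0 : 0 < c') (c'1 : c' ≤ 1)
    {T : Finset ℕ} {ph : ℕ → ℕ} (inj : ∀ i ∈ T, ∀ j ∈ T, ph i = ph j → i = j) (hS : ∀ j ∈ T, ph j ∈ IdK R Vs Xs)
    (qf : ℕ → ℕ) (hq : ∀ j ∈ T, Tq R p ε b0 (ph j) (qf j)) (Bf : ℕ → κ → Ω → Prop)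
    (f : ℕ → κ → ℝ) (hB : ∀ j ∈ T, ∀ x ω, 0 < R.Q.w ω → Bf j x ω →
      |R.al (qf j) ω - f j x| * q2 (R.C.a (qf j)) ≤ q2 (R.C.rk (qf j) + R.m)) :
    ∑ j ∈ T, cc1 R F μ o o' c' g b' (fun _ => Bf j) (ph j) ≤
      ((R.n : ℝ) + p.J + 1) * (2 * ε + 2 * εc + (9 + 8 / c') * (K' ^ 2 * q2 (μ / 4))) := by
  classical
  have key : ∀ j ∈ T, cc1 R F μ o o' c' g b' (fun _ => Bf j) (ph j) ≤ (2 * ε + 2 * εc) +
      ((6 + 4 / c') * xL R μ K' o o' (ph j) + (3 + 4 / c') * xK R F μ K' o o' (ph j)) := fun j hj =>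
    h.cc1_le hmg c'0 c'1 (hS j hj) (hq j hj) (fun _ => Bf j) (f j) (hB j hj)
  have hS1 : T.image ph ⊆ IdK R Vs Xs := fun k hk => by
    obtain ⟨j, hj, rfl⟩ := Finset.mem_image.1 hk
    exact hS j hj
  have hS2 : T.image ph ⊆ range (R.n + 1) := fun k hk =>
    Finset.mem_range.2 (by have := (mem_IdK (hS1 hk)).2.1; omega)
  have s1 := h.sum_xL hS2
  have s2 := h.sum_xK hS1
  rw [Finset.sum_image inj] at s1 s2
  refine (Finset.sum_le_sum key).trans ?_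
  rw [Finset.sum_add_distrib, Finset.sum_const, nsmul_eq_mul, Finset.sum_add_distrib, ← Finset.mul_sum,
    ← Finset.mul_sum]
  have c0 : 0 ≤ 4 / c' := by positivity
  have m1 := mul_le_mul_of_nonneg_left s1 (by linarith : 0 ≤ 6 + 4 / c')
  have m2 := mul_le_mul_of_nonneg_left s2 (by linarith : 0 ≤ 3 + 4 / c')
  have εc0 : 0 ≤ εc := (colp_nonneg _ _ _).trans h.cap.act
  have m3 := mul_le_mul_of_nonneg_right (card_map (p := p) inj fun j hj => (mem_IdK (hS j hj)).2.1)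
    (by linarith : 0 ≤ 2 * ε + 2 * εc)
  have e : ((R.n : ℝ) + p.J + 1) * (2 * ε + 2 * εc + (9 + 8 / c') * (K' ^ 2 * q2 (μ / 4))) =
      ((R.n : ℝ) + p.J + 1) * (2 * ε + 2 * εc) + ((6 + 4 / c') * xS R p μ K' + (3 + 4 / c') * xS R p μ K') := by
    unfold xS; ring
  rw [e]
  linarith

/-- **kind 2 along a map** -/
theorem Cx.sum2m {ε : ℝ} {b0 b' d : ℕ} (hε : 0 ≤ ε) (hmg : R.m ≤ g) {T : Finset ℕ} {ph : ℕ → ℕ}
    (inj : ∀ i ∈ T, ∀ j ∈ T, ph i = ph j → i = j) (hS : ∀ j ∈ T, ph j ∈ IdP R F B Vs Xs) (qf ι : ℕ → ℕ)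
    (hq : ∀ j ∈ T, Tq R p ε b0 (ph j) (qf j))
    (hph : ∀ j ∈ T, R.C.rf (qf j) < p.QF ∧ R.C.rf (qf j) < R.rI (qf j) + p.B₁ ∧
      R.C.rf (qf j) + R.m ≤ R.C.rf (ph j) + g)
    (hd : d ≤ B) (hι : ∀ j ∈ T, ι j ∈ At' R p B d (ph j) ∧ ι j ≤ R.n ∧ R.C.rf (ph j) + 8 * μ ≤ R.C.rf (ι j))
    (h8 : 8 * μ ≤ d * R.m) (hd' : d * R.m + 9 * μ ≤ 2 * (R.m * B)) :
    ∑ j ∈ T, cc2 R F μ o o' g b' (ph j) ≤ ((R.n : ℝ) + p.J + 1) * (138 * K * (Real.sqrt (2 * ε) +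
      2 * K' * q2 (μ / 8)) + 2 * εc + 3 * (((d : ℝ) + 1) ^ 2 + 1) * (K' ^ 2 * q2 (μ / 4))) := by
  classical
  have K1 := h.K1
  have hK := h.K'0
  have key : ∀ j ∈ T, cc2 R F μ o o' g b' (ph j) ≤ (138 * K * Real.sqrt (2 * ε) + 2 * εc) +
      (138 * K * Real.sqrt (3 * xL R μ K' o o' (ph j)) +
        (3 * xP R F μ K' o o' (ph j) (ι j) + 3 * xL R μ K' o o' (ph j))) := fun j hj =>
    h.cc2_le hε hmg (hS j hj) (hq j hj) (hph j hj) (hι j hj).1 (hι j hj).2.1 (hι j hj).2.2 h8 hd'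
  have hS1 : T.image ph ⊆ IdP R F B Vs Xs := fun k hk => by
    obtain ⟨j, hj, rfl⟩ := Finset.mem_image.1 hk
    exact hS j hj
  have hS2 : T.image ph ⊆ range (R.n + 1) := fun k hk =>
    Finset.mem_range.2 (by have := (mem_IdP (hS1 hk)).2.1; omega)
  have s1 := h.sum_xL hS2
  -- the late step as a function of the index
  set ι' : ℕ → ℕ := fun k => if hk : ∃ j ∈ T, ph j = k then ι hk.choose else 0 with hι'
  have e0 : ∀ j ∈ T, ι' (ph j) = ι j := by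
    intro j hj
    have hk : ∃ i ∈ T, ph i = ph j := ⟨j, hj, rfl⟩
    have e1 : ι' (ph j) = ι hk.choose := by
      rw [hι']
      simp only [dif_pos hk]
    rw [e1, inj _ hk.choose_spec.1 j hj hk.choose_spec.2]
  have s2 := h.sum_xP hS1 hd ι' fun k hk => by
    obtain ⟨j, hj, rfl⟩ := Finset.mem_image.1 hk
    rw [e0 j hj]
    exact (hι j hj).1
  rw [Finset.sum_image inj] at s1 s2
  have s2' : ∑ j ∈ T, xP R F μ K' o o' (ph j) (ι j) ≤ ((d : ℝ) + 1) ^ 2 * xS R p μ K' := by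
    refine le_trans (le_of_eq ?_) s2
    refine Finset.sum_congr rfl fun j hj => ?_
    rw [e0 j hj]
  refine (Finset.sum_le_sum key).trans ?_
  rw [Finset.sum_add_distrib, Finset.sum_const, nsmul_eq_mul, Finset.sum_add_distrib, Finset.sum_add_distrib,
    ← Finset.mul_sum, ← Finset.mul_sum, ← Finset.mul_sum]
  have N0 : (0 : ℝ) ≤ (R.n : ℝ) + p.J + 1 := by positivity
  have cS := card_map (p := p) inj fun j hj => (mem_IdP (hS j hj)).2.1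
  have r1 := sqrt_sum T (fun j => 3 * xL R μ K' o o' (ph j)) fun j => by
    have := xL_nonneg (R := R) (μ := μ) (K' := K') (o := o) (o' := o') (ph j)
    linarith
  rw [← Finset.mul_sum] at r1
  have r2 : Real.sqrt (3 * ∑ j ∈ T, xL R μ K' o o' (ph j)) ≤
      2 * K' * q2 (μ / 8) * Real.sqrt ((R.n : ℝ) + p.J + 1) := by
    have e1 : Real.sqrt (3 * ∑ j ∈ T, xL R μ K' o o' (ph j)) ≤
        Real.sqrt ((2 * K') ^ 2 * (((R.n : ℝ) + p.J + 1) * q2 (μ / 4))) := by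
      refine Real.sqrt_le_sqrt ?_
      have e2 : 3 * ∑ j ∈ T, xL R μ K' o o' (ph j) ≤ 4 * xS R p μ K' := by
        have : 0 ≤ ∑ j ∈ T, xL R μ K' o o' (ph j) := Finset.sum_nonneg fun k _ => xL_nonneg _
        linarith
      refine e2.trans (le_of_eq ?_)
      unfold xS
      ring
    refine e1.trans ?_
    rw [Real.sqrt_mul (by positivity), Real.sqrt_sq (by linarith), Real.sqrt_mul N0]
    have e3 := mul_le_mul_of_nonneg_left (sqrt_q2 μ) (Real.sqrt_nonneg ((R.n : ℝ) + p.J + 1))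
    calc 2 * K' * (Real.sqrt ((R.n : ℝ) + p.J + 1) * Real.sqrt (q2 (μ / 4))) ≤
        2 * K' * (Real.sqrt ((R.n : ℝ) + p.J + 1) * q2 (μ / 8)) := mul_le_mul_of_nonneg_left e3 (by linarith)
      _ = _ := by ring
  have r3 : ∑ j ∈ T, Real.sqrt (3 * xL R μ K' o o' (ph j)) ≤ ((R.n : ℝ) + p.J + 1) * (2 * K' * q2 (μ / 8)) := by
    refine r1.trans ?_
    have q0 := q2_pos (μ / 8)
    calc _ ≤ 2 * K' * q2 (μ / 8) * Real.sqrt ((R.n : ℝ) + p.J + 1) * Real.sqrt ((R.n : ℝ) + p.J + 1) :=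
          mul_le_mul r2 (Real.sqrt_le_sqrt cS) (Real.sqrt_nonneg _) (by positivity)
      _ = 2 * K' * q2 (μ / 8) * (Real.sqrt ((R.n : ℝ) + p.J + 1) * Real.sqrt ((R.n : ℝ) + p.J + 1)) := by ring
      _ = 2 * K' * q2 (μ / 8) * ((R.n : ℝ) + p.J + 1) := by rw [Real.mul_self_sqrt N0]
      _ = _ := by ring
  have r4 := mul_le_mul_of_nonneg_left r3 (by linarith : 0 ≤ 138 * K)
  have εc0 : 0 ≤ εc := (colp_nonneg _ _ _).trans h.cap.act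
  have r5 : (T.card : ℝ) * (138 * K * Real.sqrt (2 * ε) + 2 * εc) ≤
      ((R.n : ℝ) + p.J + 1) * (138 * K * Real.sqrt (2 * ε) + 2 * εc) := by
    refine mul_le_mul_of_nonneg_right cS ?_
    have := mul_nonneg (by linarith : 0 ≤ 138 * K) (Real.sqrt_nonneg (2 * ε))
    linarith
  have e : ((R.n : ℝ) + p.J + 1) * (138 * K * (Real.sqrt (2 * ε) + 2 * K' * q2 (μ / 8)) + 2 * εc +
      3 * (((d : ℝ) + 1) ^ 2 + 1) * (K' ^ 2 * q2 (μ / 4))) =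
      ((R.n : ℝ) + p.J + 1) * (138 * K * Real.sqrt (2 * ε) + 2 * εc) +
        (138 * K * (((R.n : ℝ) + p.J + 1) * (2 * K' * q2 (μ / 8))) +
          (3 * (((d : ℝ) + 1) ^ 2 * xS R p μ K') + 3 * xS R p μ K')) := by
    unfold xS; ring
  rw [e]
  linarith

end point

/-! ### the stage -/

section stage

variable {η : ℝ} {x : ℕ} {σ : Cst} {ε : ℝ} {ρ : Thr} {g : Gv} {m B h : ℕ}

/-- **the hypotheses at a stage** -/
theorem cx (s : St η x σ ε ρ g m B h) (hσ : σ.Ok) (hρ : ρ.Ok) (N : NwNum σ ρ m B h) (hμ : μS x m ≤ B) :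
    Cx s.R s.pn ρ.K ρ.c' s.g' s.gU 100 ε B s.bS s.bV s.F s.Vs s.Xs (μS x m) (KS ρ) s.o s.o' := by
  have H := s.run
  have W := nw_rec (c := 100) hσ hρ H (by norm_num) le_rfl N hμ
  have hP := H.ok.pth
  have hn : s.R.C.rk s.R.n ≤ s.pn.QK + s.R.m := by
    rcases Nat.eq_zero_or_pos s.R.n with e | e
    · rw [e, hP.k0]
      have := hP.rK.1
      omega
    · have h1 := (hP.stop (s.R.n - 1) (by omega)).2
      have h2 := hP.stp (s.R.n - 1) (by omega)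
      rw [show s.R.n - 1 + 1 = s.R.n by omega] at h2
      rcases h2 with h2 | h2 | h2
      · rw [h2.2.2]; omega
      · rw [h2.2.2]; omega
      · rw [h2.2.2]; omega
  refine ⟨H.ok, s.f2, s.f2o, H.cap, lb_rec H s.nex, hρ.K1, by norm_num, by norm_num, W.hB, W.hr, hμ, W.μC, le_rfl,
    fun k hk => (s.R.C.ha hk).trans W.aA, fun k hk => ?_⟩
  have h1 := s.R.C.hk hk
  have h2 := W.qK
  omega

theorem m_n (s : St η x σ ε ρ g m B h) (hJ : (m : ℝ) * (ρ.J + 1) ≤ h) :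
    (s.R.m : ℝ) * ((s.R.n : ℝ) + s.pn.J + 1) ≤ (2 * σ.K1 + 4) * h := by
  have h1 := H931.n_le s.run
  rw [s.run.hm, s.run.hJ]
  nlinarith

/-- numbers of kind 1 -/
theorem num1 (hσ : σ.Ok) {κ : ℝ} (hκ : 0 < κ) : ∃ ε0 : ℝ, 0 < ε0 ∧ ∀ ε : ℝ, 0 < ε → ε ≤ ε0 → ∀ ρ : Thr, ρ.Ok →
    ∀ x : ℕ, Ev3 fun m B h => NwNum σ ρ m B h ∧ μS x m ≤ B ∧ (m : ℝ) * (ρ.J + 1) ≤ h ∧
      (2 * σ.K1 + 4) * (2 * eG ε ρ + 2 * ε + (9 + 8 / ρ.c') * (KS ρ ^ 2 * q2 (μS x m / 4))) ≤ κ := by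
  have hK1 := hσ.bs.K10
  have hk4 : 0 < 2 * σ.K1 + 4 := by linarith
  refine ⟨κ / (8 * (2 * σ.K1 + 4)), by positivity, fun ε hε hε0 ρ hρ x => ?_⟩
  have hc0 := hρ.c'0
  have n1 := ev_NwNum σ hσ ρ
  have n2 : Ev3 fun m B _ => μS x m ≤ B := Ev3.of_B' fun m => ev_nat (μS x m)
  have n3 : Ev3 fun m _ h => (m : ℝ) * (ρ.J + 1) ≤ h := by
    refine Ev3.of_h fun m _ => ?_
    obtain ⟨n, hn⟩ := exists_nat_ge ((m : ℝ) * (ρ.J + 1))
    exact (ev_nat n).mono fun h hh => hn.trans (by exact_mod_cast hh)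
  have n4 : Ev3 fun m _ _ => (2 * σ.K1 + 4) * (2 * eG ε ρ + 2 * ε + (9 + 8 / ρ.c') * (KS ρ ^ 2 *
      q2 (μS x m / 4))) ≤ κ := by
    refine Ev3.of_m ?_
    filter_upwards [ev_q20 ((2 * σ.K1 + 4) * ((9 + 8 / ρ.c') * KS ρ ^ 2)) 0 1 one_pos (κ := κ / 2) (by positivity)]
      with m hm
    rw [pow_zero, mul_one, one_mul] at hm
    have b4 : q2 (μS x m / 4) ≤ q2 m := by
      refine q2_le ?_
      have h1 : 8000 ≤ cμ := by
        unfold cμ cN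
        have := le_max_left 800 cφ
        omega
      have h2 : 4 * m ≤ μS x m := by
        unfold μS MIC.xS
        exact Nat.mul_le_mul_right m (by nlinarith)
      omega
    have e1 := H931.eG_le hε.le hρ
    have e2 : (2 * σ.K1 + 4) * (4 * ε) ≤ κ / 2 := by
      have := mul_le_mul_of_nonneg_left hε0 (by positivity : (0 : ℝ) ≤ 4 * (2 * σ.K1 + 4))
      have e3 : 4 * (2 * σ.K1 + 4) * (κ / (8 * (2 * σ.K1 + 4))) = κ / 2 := by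
        field_simp
        ring
      rw [e3] at this
      linarith
    have e4 : (2 * σ.K1 + 4) * ((9 + 8 / ρ.c') * (KS ρ ^ 2 * q2 (μS x m / 4))) ≤
        (2 * σ.K1 + 4) * ((9 + 8 / ρ.c') * KS ρ ^ 2) * q2 m := by
      have : (9 + 8 / ρ.c') * (KS ρ ^ 2 * q2 (μS x m / 4)) ≤ (9 + 8 / ρ.c') * (KS ρ ^ 2 * q2 m) :=
        mul_le_mul_of_nonneg_left (mul_le_mul_of_nonneg_left b4 (sq_nonneg _)) (by positivity)
      have := mul_le_mul_of_nonneg_left this hk4.le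
      linarith
    have e5 : (2 * σ.K1 + 4) * (2 * eG ε ρ + 2 * ε) ≤ (2 * σ.K1 + 4) * (4 * ε) :=
      mul_le_mul_of_nonneg_left (by linarith) hk4.le
    rw [mul_add]
    linarith
  exact ((n1.and n2).and (n3.and n4)).mono fun m B h H => ⟨H.1.1, H.1.2, H.2.1, H.2.2⟩

/-- **[SC], kind 1, at a stage** -/
theorem sc1_ev (hσ : σ.Ok) {κ : ℝ} (hκ : 0 < κ) : ∃ ε0 : ℝ, 0 < ε0 ∧ ∀ ε : ℝ, 0 < ε → ε ≤ ε0 → ∀ ρ : Thr, ρ.Ok →
    ∀ x : ℕ, Ev3 fun m B h => ∀ (η : ℝ) (g : Gv) (s : St η x σ ε ρ g m B h) (T : Finset ℕ) (ph qf : ℕ → ℕ) (b0 b' gg : ℕ)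
      (κ' : Type) (Bf : ℕ → κ' → s.Ω → Prop) (f : ℕ → κ' → ℝ), m ≤ gg →
      (∀ i ∈ T, ∀ j ∈ T, ph i = ph j → i = j) → (∀ j ∈ T, ph j ∈ IdK s.R s.Vs s.Xs) →
      (∀ j ∈ T, Tq s.R s.pn (eG ε ρ) b0 (ph j) (qf j)) →
      (∀ j ∈ T, ∀ z ω, 0 < s.R.Q.w ω → Bf j z ω →
        |s.R.al (qf j) ω - f j z| * q2 (s.R.C.a (qf j)) ≤ q2 (s.R.C.rk (qf j) + s.R.m)) →
      (m : ℝ) * ∑ j ∈ T, cc1 s.R s.F (μS x m) s.o s.o' ρ.c' gg b' (fun _ => Bf j) (ph j) ≤ κ * h := by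
  obtain ⟨ε0, hε0, H⟩ := num1 hσ hκ
  refine ⟨ε0, hε0, fun ε hε hε' ρ hρ x => ?_⟩
  refine (H ε hε hε' ρ hρ x).mono fun m B h N => ?_
  intro η g s T ph qf b0 b' gg κ' Bf f hg inj hS hq hB
  obtain ⟨N1, N2, N3, N4⟩ := N
  have C := cx s hσ hρ N1 N2
  have hm := s.run.hm
  have h1 := C.sum1m (b' := b') (g := gg) (H931.eG_nonneg hε.le hρ) (by rw [hm]; exact hg) hρ.c'0
    (hρ.c'1.trans (by norm_num)) inj hS qf hq Bf f hB
  have h2 := m_n s N3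
  rw [hm] at h2
  have m0 : (0 : ℝ) ≤ m := Nat.cast_nonneg _
  have h0 : (0 : ℝ) ≤ h := Nat.cast_nonneg _
  have z : 0 ≤ 2 * eG ε ρ + 2 * ε + (9 + 8 / ρ.c') * (KS ρ ^ 2 * q2 (μS x m / 4)) := by
    have := H931.eG_nonneg hε.le hρ
    have := hρ.c'0
    have := q2_pos (μS x m / 4)
    positivity
  calc (m : ℝ) * _ ≤ m * (((s.R.n : ℝ) + s.pn.J + 1) * (2 * eG ε ρ + 2 * ε + (9 + 8 / ρ.c') *
        (KS ρ ^ 2 * q2 (μS x m / 4)))) := mul_le_mul_of_nonneg_left h1 m0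
    _ = m * ((s.R.n : ℝ) + s.pn.J + 1) * (2 * eG ε ρ + 2 * ε + (9 + 8 / ρ.c') *
        (KS ρ ^ 2 * q2 (μS x m / 4))) := by ring
    _ ≤ (2 * σ.K1 + 4) * h * (2 * eG ε ρ + 2 * ε + (9 + 8 / ρ.c') *
        (KS ρ ^ 2 * q2 (μS x m / 4))) := mul_le_mul_of_nonneg_right h2 z
    _ = (2 * σ.K1 + 4) * (2 * eG ε ρ + 2 * ε + (9 + 8 / ρ.c') *
        (KS ρ ^ 2 * q2 (μS x m / 4))) * h := by ring
    _ ≤ κ * h := mul_le_mul_of_nonneg_right N4 h0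

/-- numbers of kind 2 -/
theorem num2 (hσ : σ.Ok) {κ : ℝ} (hκ : 0 < κ) : ∃ ε0 : ℝ, 0 < ε0 ∧ ∀ ε : ℝ, 0 < ε → ε ≤ ε0 → ∀ ρ : Thr, ρ.Ok →
    ∀ x d : ℕ, Ev3 fun m B h => NwNum σ ρ m B h ∧ μS x m ≤ B ∧ (m : ℝ) * (ρ.J + 1) ≤ h ∧ d ≤ B ∧
      d * m + 9 * μS x m ≤ 2 * (m * B) ∧
      (2 * σ.K1 + 4) * (138 * ρ.K * (Real.sqrt (2 * eG ε ρ) + 2 * KS ρ * q2 (μS x m / 8)) + 2 * ε +
        3 * (((d : ℝ) + 1) ^ 2 + 1) * (KS ρ ^ 2 * q2 (μS x m / 4))) ≤ κ := by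
  have hK1 := hσ.bs.K10
  have hk4 : 0 < 2 * σ.K1 + 4 := by linarith
  set z : ℝ := κ / (500 * (2 * σ.K1 + 4)) with hz
  have hz0 : 0 < z := by positivity
  refine ⟨min 1 (z ^ 2), by positivity, fun ε hε hε0 ρ hρ x d => ?_⟩
  have hε1 : ε ≤ 1 := hε0.trans (min_le_left _ _)
  have hεz : Real.sqrt ε ≤ z := by
    rw [← Real.sqrt_sq hz0.le]
    exact Real.sqrt_le_sqrt (hε0.trans (min_le_right _ _))
  have n1 := ev_NwNum σ hσ ρ
  have n2 : Ev3 fun m B _ => μS x m ≤ B := Ev3.of_B' fun m => ev_nat (μS x m)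
  have n3 : Ev3 fun m _ h => (m : ℝ) * (ρ.J + 1) ≤ h := by
    refine Ev3.of_h fun m _ => ?_
    obtain ⟨n, hn⟩ := exists_nat_ge ((m : ℝ) * (ρ.J + 1))
    exact (ev_nat n).mono fun h hh => hn.trans (by exact_mod_cast hh)
  have n5 : Ev3 fun _ B _ => d ≤ B := Ev3.of_B' fun _ => ev_nat d
  have n6 : Ev3 fun m B _ => d * m + 9 * μS x m ≤ 2 * (m * B) := by
    refine Ev3.of_B' fun m => (ev_nat (d + 9 * cμ * MIC.xS x)).mono fun B hB => ?_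
    have h1 : d * m + 9 * μS x m = m * (d + 9 * cμ * MIC.xS x) := by
      unfold μS
      ring
    rw [h1]
    have h2 := Nat.mul_le_mul_left m hB
    omega
  have hKS : 0 ≤ KS ρ := by
    have := hρ.K1
    unfold KS
    positivity
  have n4 : Ev3 fun m _ _ => (2 * σ.K1 + 4) * (138 * ρ.K * (Real.sqrt (2 * eG ε ρ) + 2 * KS ρ * q2 (μS x m / 8)) +
      2 * ε + 3 * (((d : ℝ) + 1) ^ 2 + 1) * (KS ρ ^ 2 * q2 (μS x m / 4))) ≤ κ := by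
    refine Ev3.of_m ?_
    filter_upwards [ev_q20 ((2 * σ.K1 + 4) * (276 * ρ.K * KS ρ + 3 * (((d : ℝ) + 1) ^ 2 + 1) * KS ρ ^ 2)) 0 1 one_pos
      (κ := κ / 2) (by positivity)] with m hm
    rw [pow_zero, mul_one, one_mul] at hm
    have h1 : 8000 ≤ cμ := by
      unfold cμ cN
      have := le_max_left 800 cφ
      omega
    have h2 : 8 * m ≤ μS x m := by
      unfold μS MIC.xS
      exact Nat.mul_le_mul_right m (by nlinarith)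
    have b4 : q2 (μS x m / 4) ≤ q2 m := q2_le (by omega)
    have b8 : q2 (μS x m / 8) ≤ q2 m := q2_le (by omega)
    have K1 := hρ.K1
    have e1 : ρ.K * Real.sqrt (2 * eG ε ρ) ≤ 3 / 2 * Real.sqrt ε := by
      have e2 : ρ.K * Real.sqrt (2 * eG ε ρ) = Real.sqrt (ρ.K ^ 2 * (2 * eG ε ρ)) := by
        rw [Real.sqrt_mul (sq_nonneg _), Real.sqrt_sq (by linarith)]
      have e3 : 3 / 2 * Real.sqrt ε = Real.sqrt (9 / 4 * ε) := by
        rw [Real.sqrt_mul (by norm_num), show (9 / 4 : ℝ) = (3 / 2) ^ 2 by norm_num, Real.sqrt_sq (by norm_num)]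
      rw [e2, e3]
      refine Real.sqrt_le_sqrt ?_
      have := H931.eG_K hε.le hρ
      linarith
    have e4 : ε ≤ Real.sqrt ε := by
      have h7 := Real.sq_sqrt hε.le
      have h8 : Real.sqrt ε ≤ 1 := Real.sqrt_le_one.2 hε1
      have h9 := Real.sqrt_nonneg ε
      nlinarith
    have e5 : 138 * ρ.K * Real.sqrt (2 * eG ε ρ) + 2 * ε ≤ 209 * z := by
      have : 138 * (ρ.K * Real.sqrt (2 * eG ε ρ)) ≤ 138 * (3 / 2 * Real.sqrt ε) := by linarith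
      nlinarith
    have e6 : 138 * ρ.K * (Real.sqrt (2 * eG ε ρ) + 2 * KS ρ * q2 (μS x m / 8)) + 2 * ε +
        3 * (((d : ℝ) + 1) ^ 2 + 1) * (KS ρ ^ 2 * q2 (μS x m / 4)) ≤
        (138 * ρ.K * Real.sqrt (2 * eG ε ρ) + 2 * ε) +
          (276 * ρ.K * KS ρ + 3 * (((d : ℝ) + 1) ^ 2 + 1) * KS ρ ^ 2) * q2 m := by
      have f1 : 276 * ρ.K * KS ρ * q2 (μS x m / 8) ≤ 276 * ρ.K * KS ρ * q2 m :=
        mul_le_mul_of_nonneg_left b8 (by positivity)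
      have f2 : 3 * (((d : ℝ) + 1) ^ 2 + 1) * KS ρ ^ 2 * q2 (μS x m / 4) ≤
          3 * (((d : ℝ) + 1) ^ 2 + 1) * KS ρ ^ 2 * q2 m := mul_le_mul_of_nonneg_left b4 (by positivity)
      linarith
    have e7 := mul_le_mul_of_nonneg_left (e6.trans (add_le_add e5 le_rfl)) hk4.le
    have e8 : (2 * σ.K1 + 4) * (209 * z) ≤ κ / 2 := by
      have : (2 * σ.K1 + 4) * z = κ / 500 := by
        rw [hz]
        field_simp
      nlinarith
    have e9 : (2 * σ.K1 + 4) * (209 * z + (276 * ρ.K * KS ρ + 3 * (((d : ℝ) + 1) ^ 2 + 1) * KS ρ ^ 2) * q2 m) =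
        (2 * σ.K1 + 4) * (209 * z) +
          (2 * σ.K1 + 4) * (276 * ρ.K * KS ρ + 3 * (((d : ℝ) + 1) ^ 2 + 1) * KS ρ ^ 2) * q2 m := by ring
    rw [e9] at e7
    linarith
  exact ((n1.and (n2.and n3)).and ((n5.and n6).and n4)).mono fun m B h H =>
    ⟨H.1.1, H.1.2.1, H.1.2.2, H.2.1.1, H.2.1.2, H.2.2⟩

/-- **[SC], kind 2, at a stage** ; `d` = number of levels to the late step `ι j` -/
theorem sc2_ev (hσ : σ.Ok) {κ : ℝ} (hκ : 0 < κ) : ∃ ε0 : ℝ, 0 < ε0 ∧ ∀ ε : ℝ, 0 < ε → ε ≤ ε0 → ∀ ρ : Thr, ρ.Ok →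
    ∀ x d : ℕ, MuS x ≤ d → Ev3 fun m B h => ∀ (η : ℝ) (g : Gv) (s : St η x σ ε ρ g m B h) (T : Finset ℕ)
      (ph qf ι : ℕ → ℕ) (b0 b' gg : ℕ), m ≤ gg →
      (∀ i ∈ T, ∀ j ∈ T, ph i = ph j → i = j) → (∀ j ∈ T, ph j ∈ IdP s.R s.F B s.Vs s.Xs) →
      (∀ j ∈ T, Tq s.R s.pn (eG ε ρ) b0 (ph j) (qf j)) →
      (∀ j ∈ T, s.R.C.rf (qf j) < s.pn.QF ∧ s.R.C.rf (qf j) < s.R.rI (qf j) + s.pn.B₁ ∧
        s.R.C.rf (qf j) + s.R.m ≤ s.R.C.rf (ph j) + gg) →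
      (∀ j ∈ T, ι j ∈ At' s.R s.pn B d (ph j) ∧ ι j ≤ s.R.n ∧ s.R.C.rf (ph j) + 8 * μS x m ≤ s.R.C.rf (ι j)) →
      (m : ℝ) * ∑ j ∈ T, cc2 s.R s.F (μS x m) s.o s.o' gg b' (ph j) ≤ κ * h := by
  obtain ⟨ε0, hε0, H⟩ := num2 hσ hκ
  refine ⟨ε0, hε0, fun ε hε hε' ρ hρ x d hd => ?_⟩
  refine (H ε hε hε' ρ hρ x d).mono fun m B h N => ?_
  intro η g s T ph qf ι b0 b' gg hg inj hS hq hph hι
  obtain ⟨N1, N2, N3, N5, N6, N4⟩ := N
  have C := cx s hσ hρ N1 N2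
  have hm := s.run.hm
  have h8 : 8 * μS x m ≤ d * s.R.m := by
    rw [hm]
    have e : 8 * μS x m = MuS x * m := by
      unfold μS MuS
      ring
    rw [e]
    exact Nat.mul_le_mul_right _ hd
  have h1 := C.sum2m (b' := b') (g := gg) (H931.eG_nonneg hε.le hρ) (by rw [hm]; exact hg) inj hS qf ι hq hph N5 hι h8
    (by rw [hm]; exact N6)
  have h2 := m_n s N3
  rw [hm] at h2
  have m0 : (0 : ℝ) ≤ m := Nat.cast_nonneg _
  have h0 : (0 : ℝ) ≤ h := Nat.cast_nonneg _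
  have K1 := hρ.K1
  have hKS : 0 ≤ KS ρ := C.K'0
  set Z : ℝ := 138 * ρ.K * (Real.sqrt (2 * eG ε ρ) + 2 * KS ρ * q2 (μS x m / 8)) + 2 * ε +
    3 * (((d : ℝ) + 1) ^ 2 + 1) * (KS ρ ^ 2 * q2 (μS x m / 4)) with hZ
  have z : 0 ≤ Z := by
    have := q2_pos (μS x m / 4)
    have := q2_pos (μS x m / 8)
    have := Real.sqrt_nonneg (2 * eG ε ρ)
    positivity
  calc (m : ℝ) * _ ≤ m * (((s.R.n : ℝ) + s.pn.J + 1) * Z) := mul_le_mul_of_nonneg_left h1 m0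
    _ = m * ((s.R.n : ℝ) + s.pn.J + 1) * Z := by ring
    _ ≤ (2 * σ.K1 + 4) * h * Z := mul_le_mul_of_nonneg_right h2 z
    _ = (2 * σ.K1 + 4) * Z * h := by ring
    _ ≤ κ * h := mul_le_mul_of_nonneg_right N4 h0

/-- the hypotheses `Cx`, for large `m`, `B`, `h` -/
theorem cx_ev (hσ : σ.Ok) (hρ : ρ.Ok) : Ev3 fun m B h => ∀ (η : ℝ) (x : ℕ) (ε : ℝ) (g : Gv) (s : St η x σ ε ρ g m B h),
    μS x m ≤ B → Cx s.R s.pn ρ.K ρ.c' s.g' s.gU 100 ε B s.bS s.bV s.F s.Vs s.Xs (μS x m) (KS ρ) s.o s.o' :=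
  (ev_NwNum σ hσ ρ).mono fun _ _ _ N _ _ _ _ s hμ => cx s hσ hρ N hμ

end stage

end Vale.Agent.P106.U.H786.SC
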