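import Vale.Agent.P106.U.H786.GroV

/-!
# P106 / U / H786 : the window label as the last functional of a path

* `nu_frame`, `fn_near`, `fw_near` : common normal `ν` of all the windows = rotation `θ`; `cN` near `1`, `cV` near `0`.
* `win_sub` : two rays of one window `(h; 0; q)` in the form of `clo_of_fu` (`U/CellW`): positions to `A + b`,
  null coordinate to `A + 2 b`, derivative to `R + b`, value to `A + b + R` digits.
-/

set_option autoImplicit false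

namespace Vale.Agent.P106.U.H786.Adp

open Finset Vale.Agent.P127 Vale.Agent.P127.Stk Vale.Agent.P127.U Vale.Agent.P106.W
open Vale.Agent.P106.K (Ry RyOk bl Bin pl plm)
open Vale.Agent.P122.C2 (fw fn)
open Vale.Agent.P106.U.H786
open Vale.Agent.P106.U
open Vale.Agent.P127.U.CellD (q2 q2_le)

/-- the rotation of a unit normal -/
theorem nu_frame {ν : Fin 2 → ℝ} (hν : ν 0 ^ 2 + ν 1 ^ 2 = 1) : ∃ θ : ℝ, fn θ ν = 1 ∧ fw θ ν = 0 := by
  obtain ⟨θ, hθ⟩ : ∃ θ : ℝ, Real.cos θ = ν 1 ∧ Real.sin θ = -(ν 0) := by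
    refine ⟨Complex.arg ⟨ν 1, -(ν 0)⟩, ?_, ?_⟩
    · have hn : ‖(⟨ν 1, -(ν 0)⟩ : ℂ)‖ = 1 := by
        rw [Complex.norm_def, Complex.normSq_mk]
        rw [show ν 1 * ν 1 + -(ν 0) * -(ν 0) = 1 by linarith [hν, sq (ν 0), sq (ν 1)], Real.sqrt_one]
      have h0 : (⟨ν 1, -(ν 0)⟩ : ℂ) ≠ 0 := by
        intro h
        rw [h, norm_zero] at hn
        exact zero_ne_one hn
      rw [Complex.cos_arg h0, hn, div_one]
    · have hn : ‖(⟨ν 1, -(ν 0)⟩ : ℂ)‖ = 1 := by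
        rw [Complex.norm_def, Complex.normSq_mk]
        rw [show ν 1 * ν 1 + -(ν 0) * -(ν 0) = 1 by linarith [hν, sq (ν 0), sq (ν 1)], Real.sqrt_one]
      rw [Complex.sin_arg, hn, div_one]
  refine ⟨θ, ?_, ?_⟩
  · simp only [fn]
    rw [hθ.1, hθ.2]
    linarith [hν, sq (ν 0), sq (ν 1)]
  · simp only [fw]
    rw [hθ.1, hθ.2]
    ring

theorem fn_near {θ ε : ℝ} {ν x : Fin 2 → ℝ} (h : fn θ ν = 1) (hx : ∀ k, |x k - ν k| ≤ ε) : |fn θ x - 1| ≤ 2 * ε := by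
  rw [← h, fn_sub]
  exact fn_le θ hx

theorem fw_near {θ ε : ℝ} {ν x : Fin 2 → ℝ} (h : fw θ ν = 0) (hx : ∀ k, |x k - ν k| ≤ ε) : |fw θ x| ≤ 2 * ε := by
  have h1 : fw θ x = fw θ x - fw θ ν := by rw [h, sub_zero]
  rw [h1, fw_sub]
  exact fw_le θ hx

/-- the coefficients of the window functional at its ray -/
theorem win_cN {θ ε : ℝ} {ν : Fin 2 → ℝ} {h : ℕ} {W : Cbx} {l : Ry} {t : ℝ} (h1 : fn θ ν = 1)
    (hx : ∀ k, |(fuW h W t).cov l k - ν k| ≤ ε) :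
    |(FW θ h W t).cN (toR θ l) (qa h t) - 1| ≤ 2 * ε := by
  rw [FW_cN]
  exact fn_near h1 hx

theorem win_cV {θ ε : ℝ} {ν : Fin 2 → ℝ} {h : ℕ} {W : Cbx} {l : Ry} {t : ℝ} (h0 : fw θ ν = 0)
    (hx : ∀ k, |(fuW h W t).cov l k - ν k| ≤ ε) :
    |(FW θ h W t).cV (toR θ l) (qa h t)| ≤ 2 * ε := by
  rw [FW_cV, abs_neg]
  exact fw_near h0 hx

/-- two rays of one window -/
theorem win_sub {c θ : ℝ} (hc : 1 ≤ c) {h q A b R : ℕ} {W : Cbx} {l l' : Ry} {t t' : ℝ} (hu2 : W.u2 = 1)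
    (hu1 : W.u1 = (1 / 2 : ℝ) ^ q) (hl : Bin c W 0 (bl h l t)) (hl' : Bin c W 0 (bl h l' t'))
    (ht : fl1 h t = fl1 h t') (h1 : A + 2 * b ≤ h) (h2 : R + b ≤ q) :
    |(toR θ l').X (qa h t) - (toR θ l).X (qa h t)| ≤ 4 * c * q2 (A + b) ∧
    |(toR θ l').N (qa h t) - (toR θ l).N (qa h t)| ≤ 4 * c * q2 (A + b) ∧
    |(toR θ l).dz (toR θ l') (qa h t)| ≤ 6 * c ^ 2 * q2 (A + 2 * b) ∧
    |(FW θ h W t).gd (toR θ l') (qa h t) - (FW θ h W t).gd (toR θ l) (qa h t)| ≤ 2 * c * q2 (R + b) ∧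
    |(FW θ h W t).g (toR θ l') (qa h t) - (FW θ h W t).g (toR θ l) (qa h t)| ≤ 2 * c * q2 (A + b + R) := by
  have hTT : qa h t' = qa h t := by unfold qa; rw [ht]
  have B := box_close hc θ (b := 0) (R := q) (by rw [hu2, pow_zero]) hu1 hl hl' hTT
  have hx := B.X
  have hn := B.N
  have hz := B.dz
  have hg := B.g
  have hgd := B.gd
  rw [add_zero] at hx hn
  rw [mul_zero, add_zero] at hz
  have c0 : (0 : ℝ) < c := by linarith
  have q : ∀ {m n : ℕ} (x : ℝ), 0 ≤ x → m ≤ n → x * (1 / 2 : ℝ) ^ n ≤ x * q2 m := fun x hx hmn =>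
    mul_le_mul_of_nonneg_left (q2_le hmn) hx
  exact ⟨hx.trans (q _ (by positivity) (by omega)), hn.trans (q _ (by positivity) (by omega)),
    hz.trans (q _ (by positivity) h1), hgd.trans (q _ (by positivity) h2), hg.trans (q _ (by positivity) (by omega))⟩

end Vale.Agent.P106.U.H786.Adp
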