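import Vale.Agent.P106.U.H786.SCs
import Vale.Agent.P106.U.H683.L2D
import Vale.Agent.P106.U.H833.L2s
import Vale.Agent.P106.U.H336.SwW
import Vale.Agent.P106.U.H931.CollM

/-!
# P106 / U / H786 : collisions of the light windows of kind 2 (helper786; row `RowL 2`, piece (c))

* `nq_st` : the good time step `q = f (nx N a (j + 1))` of the index `f j + 1`, for a counted step `j` outside `XN`.
* `wat_one` : an admissible pair `(j, k)` gives the admissible pair `(j, j + 1)`.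
* **`col2_ev`** : `m * ∑ j, colL s Sw L1 L2 Lk (KrS x ρ.J) j ≤ κ h` for all `Sw ⊇ SwL`.
-/

set_option autoImplicit false

namespace Vale.Agent.P106.U.H786.SC

open Finset Vale.Agent.P127 Vale.Agent.P127.Stk Vale.Agent.P127.U
open Vale.Agent.P106.U.S3 (Run IdK IdP At')
open Vale.Agent.P106.U.S5
open Vale.Agent.P106.U.MIC
open Vale.Agent.P106.U.H833 (aN RN fN kN lx)
open Vale.Agent.P106.U.H118 (Sdat CS)
open Vale.Agent.P106.U.H336 (SwL)
open Vale.Agent.P106.U.H495 (WAt)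
open Vale.Agent.P106.U.H931 (nx XN Nq)
open Vale.Agent.P106.U.H652

section

variable {η : ℝ} {x : ℕ} {σ : Cst} {ε : ℝ} {ρ : Thr} {g : Gv} {m B h : ℕ} (s : MIC.St η x σ ε ρ g m B h)

/-- **the good time step** of the index `f j + 1` -/
theorem nq_st {j : ℕ} (hj : j ∈ CS x s.N s.gd s.a s.r 0 s.N) (hX : j ∉ XN x s.N s.a s.r s.E) :
    Nq s.R s.pn (eG ε ρ) (bc s.R) s.R.b1 x (s.f j + 1) (s.f (nx s.N s.a (j + 1))) := by
  have hP := s.run.ok.pth
  have h0 := H931.nx_counted s.word.sd s.word.hE le_rfl hj hX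
  have h1 : j < nx s.N s.a (j + 1) := h0.1
  have h2 : nx s.N s.a (j + 1) < s.N := h0.2.1
  have h3 := h0.2.2.1
  have h4 : s.a (nx s.N s.a (j + 1)) = s.a (j + 1) := h0.2.2.2.1
  have h5 : s.r (nx s.N s.a (j + 1)) ≤ s.r (j + 1) + x := h0.2.2.2.2
  have hjN : j < s.N := by omega
  obtain ⟨e1, e2⟩ := H823.Cmp.same hP (x := s.R.b1) (j := s.i0 + j) (by
    have : j < H823.Cmp.Nc s.R s.R.b1 - s.i0 := hjN
    omega)
  have e3 : aN s.R (s.f j + 1) = s.a (j + 1) := e1.symm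
  have e4 : RN s.R s.R.b1 (s.f j + 1) = s.r (j + 1) := e2.symm
  have f1 : s.f j < s.f (nx s.N s.a (j + 1)) := H336.f_lt s h1 h2.le
  have f2 : s.f (nx s.N s.a (j + 1)) < s.f s.N := H336.f_lt s h2 le_rfl
  have f3 := H336.f_le s s.N
  refine ⟨f1, by omega, h3, ?_, ?_⟩
  · rw [H833.lev_a hP (i := s.f j + 1) (by omega), H833.lev_a hP (i := s.f (nx s.N s.a (j + 1))) (by omega)]
    rw [e3]
    have e5 : aN s.R (s.f (nx s.N s.a (j + 1))) = s.a (nx s.N s.a (j + 1)) := rfl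
    rw [e5, h4]
  · rw [e4]
    exact h5

/-- an admissible pair `(j, k)` gives the pair `(j, j + 1)` -/
theorem wat_one {Pu : ℕ → Prop} {L1 L2 Lk Kr j k : ℕ} (hA : WAt s.N s.a Pu L1 L2 Lk Kr j k) :
    WAt s.N s.a Pu L1 L2 Lk Kr j (j + 1) := by
  obtain ⟨h1, h2, ⟨i1, h3, h4, h5, h6⟩, h7⟩ := hA
  have hm : s.a (j + 1) ≤ s.a k := H812.az_mono s.run.ok.pth (j + 1) k h1 (by
    have : k ≤ s.N := by omega
    exact this)
  exact ⟨by omega, by omega, ⟨i1, by omega, h4, h5, by omega⟩, fun z g1 g2 => h7 z g1 (by omega)⟩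

end

/-- **[SC] of the light windows of kind 2** -/
theorem col2_ev {σ : Cst} (hσ : σ.Ok) {κ : ℝ} (hκ : 0 < κ) : ∃ ε0 : ℝ, 0 < ε0 ∧ ∀ ε : ℝ, 0 < ε → ε ≤ ε0 →
    ∀ ρ : Thr, ρ.Ok → ∀ x : ℕ, Ev3 fun m B h => ∀ (η : ℝ) (g : Gv) (s : MIC.St η x σ ε ρ g m B h)
      (L1 L2 Lk L : ℕ) (Sw : Finset ℕ), H683.L2.KrS x ρ.J ≤ Lk → L1 + H683.L2.KrS x ρ.J ≤ L →
      SwL s.R B s.Vs s.Xs L ⊆ Sw →
      (m : ℝ) * ∑ j ∈ range s.N, H683.L2.colL s Sw L1 L2 Lk (H683.L2.KrS x ρ.J) j ≤ κ * h := by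
  classical
  obtain ⟨ε0, hε0, H⟩ := sc2_ev hσ hκ
  refine ⟨ε0, hε0, fun ε hε hε' ρ hρ x => ?_⟩
  have hK0 : 0 < H683.L2.KrS x ρ.J := by
    unfold H683.L2.KrS
    omega
  have hKM : MuS x ≤ H683.L2.KrS x ρ.J := by
    unfold H683.L2.KrS
    have : MuS x ≤ (ρ.J + 1) * MuS x := Nat.le_mul_of_pos_left _ (Nat.succ_pos _)
    omega
  have hJK : ρ.J * MuS x ≤ H683.L2.KrS x ρ.J := by
    unfold H683.L2.KrS
    have : ρ.J * MuS x ≤ (ρ.J + 1) * MuS x := Nat.mul_le_mul_right _ (Nat.le_succ _)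
    omega
  have nB : Ev3 fun _ B _ => 1 ≤ B := Ev3.of_B' fun _ => ev_nat 1
  have nX : Ev3 fun _ B _ => x + 1 ≤ B := Ev3.of_B' fun _ => ev_nat (x + 1)
  refine (H ε hε hε' ρ hρ x (H683.L2.KrS x ρ.J) hKM).mono2 (nB.and nX) fun m B h N N' => ?_
  obtain ⟨hB, hxB⟩ := N'
  intro η g s L1 L2 Lk L Sw hLk hL hSw
  have hm := s.run.hm
  have hP := s.run.ok.pth
  have hJ : s.pn.J = ρ.J := s.run.hJ
  have hb1 : s.R.m * s.R.b1 ≤ s.pn.B₁ := (Nat.mul_le_mul_left _ (Nat.le_add_right _ _)).trans s.run.cap.top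
  set Kr := H683.L2.KrS x ρ.J with hKr
  set T := (range s.N).filter fun j => j ∈ CS x s.N s.gd s.a s.r 0 s.N ∧ j ∉ H683.L2.Xe s ∧
    ∃ k, WAt s.N s.a (H683.L2.Pu s Sw) L1 L2 Lk Kr j k with hT
  have memT : ∀ j ∈ T, j < s.N ∧ j ∈ CS x s.N s.gd s.a s.r 0 s.N ∧ j ∉ H683.L2.Xe s ∧
      WAt s.N s.a (H683.L2.Pu s Sw) L1 L2 Lk Kr j (j + 1) := by
    intro j hj
    rw [hT, Finset.mem_filter, Finset.mem_range] at hj
    obtain ⟨h1, h2, h3, k, h4⟩ := hj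
    exact ⟨h1, h2, h3, wat_one s h4⟩
  have hsum : ∑ j ∈ range s.N, H683.L2.colL s Sw L1 L2 Lk Kr j =
      ∑ j ∈ T, cc2 s.R s.F (μS x m) s.o s.o' (MIC.gS x m) (H683.L2.bq s) (s.f j + 1) := by
    rw [hT, Finset.sum_filter]
    rfl
  rw [hsum]
  refine N η g s T (fun j => s.f j + 1) (fun j => s.f (nx s.N s.a (j + 1))) (fun j => s.f (lx s.N s.a Kr (j + 1)))
    (bc s.R) (H683.L2.bq s) (MIC.gS x m) ?_ ?_ ?_ ?_ ?_ ?_
  · unfold MIC.gS MIC.xS
    exact Nat.le_mul_of_pos_left _ (by omega)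
  · intro i hi j hj e
    have e' : s.f i = s.f j := Nat.succ_injective e
    obtain ⟨i1, _⟩ := memT i hi
    obtain ⟨j1, _⟩ := memT j hj
    rcases lt_trichotomy i j with h1 | h1 | h1
    · have := H336.f_lt s h1 j1.le
      omega
    · exact h1
    · have := H336.f_lt s h1 i1.le
      omega
  · intro j hj
    obtain ⟨j1, j2, j3, j4⟩ := memT j hj
    obtain ⟨w1, w2, w3, w4, w5, w6, w7⟩ := H833.wat_lx s hK0 j4
    have f1 : s.f j < s.f (lx s.N s.a Kr (j + 1)) := H336.f_lt s (by omega) w4.le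
    exact (H833.idp_st s hB hK0 hLk hSw j4 (t := s.f j + 1) (by omega) f1).2.1
  · intro j hj
    obtain ⟨j1, j2, j3, j4⟩ := memT j hj
    exact Tq.of_nq (nq_st s j2 j3)
  · intro j hj
    obtain ⟨j1, j2, j3, j4⟩ := memT j hj
    obtain ⟨w1, w2, w3, w4, w5, w6, w7⟩ := H833.wat_lx s hK0 j4
    have f1 : s.f j < s.f (lx s.N s.a Kr (j + 1)) := H336.f_lt s (by omega) w4.le
    have hq := nq_st s j2 j3
    have hkn : s.f j + 1 ≤ s.R.n := hq.kq.trans hq.qn.le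
    have hph := (H833.idp_st s hB hK0 hLk hSw j4 (t := s.f j + 1) (by omega) f1).2.2
    have hl0 := s.F.l0 (s.f j + 1)
    refine hq.phi hP ?_ hb1 ?_
    · rw [H833.lev_f hP (i := s.f j + 1) (by omega)] at hph
      have h1 := H833.lev_k hP (i := s.f j + 1) (by omega)
      have h2 : s.R.m * (fN s.R (s.f j + 1) + x + 1) ≤ s.R.m * (kN s.R (s.f j + 1) + s.R.b1) := by
        have h3 : s.R.m * (x + 1) ≤ s.R.m * B := Nat.mul_le_mul_left _ hxB
        have h4 : s.R.m * (fN s.R (s.f j + 1) + x + 1) = s.R.m * fN s.R (s.f j + 1) + s.R.m * (x + 1) := by ring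
        have h5 : s.R.m * (kN s.R (s.f j + 1) + s.R.b1) = s.R.m * kN s.R (s.f j + 1) + s.R.m * s.R.b1 := by ring
        omega
      exact Nat.le_of_mul_le_mul_left h2 hP.m1
    · rw [hm]
      unfold MIC.gS MIC.xS
      exact Nat.mul_le_mul_right _ (by omega)
  · intro j hj
    obtain ⟨j1, j2, j3, j4⟩ := memT j hj
    obtain ⟨w1, w2, w3, w4, w5, w6, w7⟩ := H833.wat_lx s hK0 j4
    have f1 : s.f j + 1 ≤ s.f (j + 1) := H336.f_lt s (Nat.lt_succ_self j) (by omega)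
    have f2 : s.f (j + 1) < s.f (lx s.N s.a Kr (j + 1)) := H336.f_lt s w3 w4.le
    have e0 : aN s.R (s.f j + 1) = s.a (j + 1) := H336.aN_f1 s (by omega)
    obtain ⟨_, g2, _⟩ := H833.at_st s hK0 hLk hL hSw j4 (t := s.f j + 1) (by omega) (by omega)
    have e1 : s.a (j + 1) + Kr - aN s.R (s.f j + 1) = Kr := by omega
    rw [e1] at g2
    refine ⟨g2, H336.f_le s _, ?_⟩
    have W := H833.wp_st s hB hK0 hLk hSw j4
    have := W.rf_gain1 hP (H833.sdat_st s) (Mu := MuS x) (μ := 8 * μS x m) (j := j) hb1 (by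
      rw [hm]
      unfold μS MuS
      exact (by ring_nf; exact le_rfl)) (by rw [hJ]; exact hJK) le_rfl (Nat.lt_succ_self j)
    exact this

end Vale.Agent.P106.U.H786.SC
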